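import Vale.Agent.P219.Relax.Six.Tangency

/-!
# P219, dimension six: free functions in the root of the common factor

A combination of integer powers of the root `ω` of `1 - e x` serves as the free function; its
derivatives are combinations of the same kind. For `d = σ ^ 2` the contact and the root are rational
in `σ` and one parameter.
-/

noncomputable section

open Set Real

namespace Vale.Agent.P219.CH.Relax.Six

namespace RootGen

/-- The value of a combination of powers, given as pairs of coefficient and exponent. -/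
def val (L : List (ℝ × ℤ)) (ω : ℝ) : ℝ := (L.map fun a => a.1 * ω ^ a.2).sum

/-- The combination of the derivative in `x`. -/
def der (e : ℝ) (L : List (ℝ × ℤ)) : List (ℝ × ℤ) :=
  L.map fun a => (-(e * a.2 / 2) * a.1, a.2 - 2)

/-- The free function of a combination. -/
def gen (e : ℝ) (L : List (ℝ × ℤ)) : Gen3 where
  Q x := val L √(Tan.yl e x)
  Q1 x := val (der e L) √(Tan.yl e x)
  Q2 x := val (der e (der e L)) √(Tan.yl e x)
  Q3 x := val (der e (der e (der e L))) √(Tan.yl e x)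

variable {e x : ℝ}

lemma hasDerivAt_val (h : 0 < Tan.yl e x) : ∀ L : List (ℝ × ℤ),
    HasDerivAt (fun z => val L √(Tan.yl e z)) (val (der e L) √(Tan.yl e x)) x
  | [] => by simpa [val, der] using hasDerivAt_const x (0 : ℝ)
  | a :: L => by
    have hs : 0 < √(Tan.yl e x) := sqrt_pos.2 h
    have h1 := ((hasDerivAt_zpow a.2 _ (.inl hs.ne')).comp x
      ((Tan.hasDerivAt_yl e x).sqrt h.ne')).const_mul a.1
    refine (h1.add (hasDerivAt_val h L)).congr_deriv ?_ |>.congr_of_eventuallyEq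
      (.of_forall fun z => by simp [val])
    simp only [val, der, List.map_cons, List.sum_cons, add_left_inj]
    rw [show a.2 - 2 = a.2 - 1 - 1 by ring, zpow_sub₀ hs.ne' (m := a.2 - 1), zpow_one]
    field_simp

theorem isDeriv (he : e ∈ Ioo (0 : ℝ) 1) (L : List (ℝ × ℤ)) : (gen e L).IsDeriv where
  d1 _ hx := hasDerivAt_val (Tan.yl_pos he hx) L
  d2 _ hx := hasDerivAt_val (Tan.yl_pos he hx) _
  d3 _ hx := hasDerivAt_val (Tan.yl_pos he hx) _
  cont _ hx := (hasDerivAt_val (Tan.yl_pos he hx) _).continuousAt.continuousWithinAt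

/-! ## The rational parameter -/

/-- The denominator of the parametrisation. -/
def den (σ v : ℝ) : ℝ := 1 + σ + (1 - σ) * v ^ 2

/-- The contact. -/
def tp (σ v : ℝ) : ℝ := 2 * v / den σ v

/-- The root of `1 - e t ^ 2`. -/
def om (σ v : ℝ) : ℝ := (1 + σ - (1 - σ) * v ^ 2) / den σ v

lemma den_pos {σ : ℝ} (hσ : σ ∈ Ioo (0 : ℝ) 1) (v : ℝ) : 0 < den σ v := by
  have := mul_nonneg (sub_nonneg.2 hσ.2.le) (sq_nonneg v)
  rw [den]
  linarith [hσ.1]

/-- Every contact has a parameter, and the root is rational in it. -/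
theorem exists_param {σ t : ℝ} (hσ : σ ∈ Ioo (0 : ℝ) 1) (he : e = 1 - σ ^ 2)
    (ht : t ∈ Ioc (0 : ℝ) 1) :
    ∃ v ∈ Ioc (0 : ℝ) 1, t = tp σ v ∧ √(Tan.yl e (t ^ 2)) = om σ v := by
  obtain ⟨hs0, hs1⟩ := hσ
  have he0 : 0 < e := by rw [he]; nlinarith
  have hy : 0 < Tan.yl e (t ^ 2) :=
    Tan.yl_pos ⟨he0, by rw [he]; nlinarith⟩ ⟨sq_nonneg t, pow_le_one₀ ht.1.le ht.2⟩
  obtain ⟨w, hw⟩ : ∃ w, w = √(Tan.yl e (t ^ 2)) := ⟨_, rfl⟩
  have hw0 : 0 < w := hw ▸ sqrt_pos.2 hy
  have hw2 : w ^ 2 = 1 - e * t ^ 2 := hw ▸ sq_sqrt hy.le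
  have hsw : σ ≤ w := by
    refine (sq_le_sq₀ hs0.le hw0.le).1 ?_
    rw [hw2, he]
    nlinarith [mul_nonneg he0.le (sub_nonneg.2 (pow_le_one₀ (n := 2) ht.1.le ht.2)), he]
  obtain ⟨v, hv⟩ : ∃ v, v = t * (1 + σ) / (1 + w) := ⟨_, rfl⟩
  have h1 : 0 < 1 + w := by linarith
  have hvs : (1 - σ) * v ^ 2 * (1 + w) = (1 + σ) * (1 - w) := by
    rw [hv, div_pow]
    field_simp
    linear_combination hw2 - t ^ 2 * he
  refine ⟨v, ⟨?_, ?_⟩, ?_, ?_⟩
  · rw [hv]
    exact div_pos (mul_pos ht.1 (by linarith)) h1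
  · rw [hv, div_le_one h1]
    nlinarith [mul_le_mul_of_nonneg_right ht.2 (by linarith : (0 : ℝ) ≤ 1 + σ)]
  · rw [tp, eq_div_iff (den_pos ⟨hs0, hs1⟩ v).ne']
    refine mul_right_cancel₀ h1.ne' ?_
    rw [show 2 * v * (1 + w) = 2 * t * (1 + σ) by rw [hv]; field_simp]
    rw [den]
    linear_combination t * hvs
  · rw [← hw, om, eq_div_iff (den_pos ⟨hs0, hs1⟩ v).ne', den]
    linear_combination hvs

end RootGen

end Vale.Agent.P219.CH.Relax.Six
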