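import Vale.Agent.P219.Relax.Six.InPair

/-!
# P219, dimension six: the facts at a contact from finitely many linear conditions

Each fact is a polynomial in the cosines once the concavity factor is cleared. It is nonnegative if
its coefficients in the Bernstein basis are. Along the line of the middle conditions the squared
distance from the contact factors out, and the fact at the contact reduces to the one on the side.
-/

noncomputable section

open Set

namespace Vale.Agent.P219.CH.Relax.Six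

open Five (Pt)

namespace Red

/-! ## Coefficient lists -/

/-- The value of a list of coefficients. -/
def pv : List ℝ → ℝ → ℝ
  | [], _ => 0
  | a :: p, x => a + x * pv p x

/-- The sum. -/
def ad : List ℝ → List ℝ → List ℝ
  | [], q => q
  | p, [] => p
  | a :: p, b :: q => (a + b) :: ad p q

/-- A multiple. -/
def sc (k : ℝ) : List ℝ → List ℝ
  | [] => []
  | a :: p => k * a :: sc k p

/-- The product. -/
def mu : List ℝ → List ℝ → List ℝ
  | [], _ => []
  | [a], q => sc a q
  | a :: b :: p, q => ad (sc a q) (0 :: mu (b :: p) q)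

/-- The substitution of `u + v * x`. -/
def sb (u v : ℝ) : List ℝ → List ℝ
  | [] => []
  | a :: p => ad [a] (mu [u, v] (sb u v p))

lemma pv_ad : ∀ p q x, pv (ad p q) x = pv p x + pv q x
  | [], q, x => by simp [ad, pv]
  | a :: p, [], x => by simp [ad, pv]
  | a :: p, b :: q, x => by simp only [ad, pv, pv_ad p q x]; ring

lemma pv_sc (k : ℝ) : ∀ p x, pv (sc k p) x = k * pv p x
  | [], x => by simp [sc, pv]
  | a :: p, x => by simp only [sc, pv, pv_sc k p x]; ring

lemma pv_mu : ∀ p q x, pv (mu p q) x = pv p x * pv q x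
  | [], q, x => by simp [mu, pv]
  | [a], q, x => by simp only [mu, pv, pv_sc]; ring
  | a :: b :: p, q, x => by simp only [mu, pv, pv_ad, pv_sc, pv_mu (b :: p) q x]; ring

lemma pv_sb (u v : ℝ) : ∀ p x, pv (sb u v p) x = pv p (u + v * x)
  | [], x => by simp [sb, pv]
  | a :: p, x => by simp only [sb, pv, pv_ad, pv_mu, pv_sb u v p x]; ring

lemma length_ad : ∀ p q : List ℝ, (ad p q).length = max p.length q.length
  | [], q => by simp [ad]
  | a :: p, [] => by simp [ad]
  | a :: p, b :: q => by simp [ad, length_ad p q, Nat.succ_max_succ]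

lemma length_sc (k : ℝ) : ∀ p, (sc k p).length = p.length
  | [] => rfl
  | a :: p => by simp [sc, length_sc k p]

lemma length_mu (a : ℝ) : ∀ p q : List ℝ, (mu (a :: p) q).length = q.length + p.length
  | [], q => by simp [mu, length_sc]
  | b :: p, q => by simp [mu, length_ad, length_sc, length_mu b p q]; omega

lemma length_sb (u v : ℝ) : ∀ p, (sb u v p).length = p.length
  | [] => rfl
  | a :: p => by simp [sb, length_ad, length_mu, length_sb u v p]

lemma pv_eq_sum : ∀ (p : List ℝ) (n : ℕ) (x : ℝ), p.length ≤ n →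
    pv p x = ∑ k ∈ Finset.range n, p.getD k 0 * x ^ k
  | [], n, x, _ => by simp [pv]
  | a :: p, 0, x, h => by simp at h
  | a :: p, n + 1, x, h => by
    rw [Finset.sum_range_succ']
    simp only [pv, List.getD_cons_succ, List.getD_cons_zero, pow_zero, mul_one, pow_succ',
      ← mul_assoc]
    rw [pv_eq_sum p n x (by simpa using h), Finset.mul_sum, add_comm]
    congr 1
    refine Finset.sum_congr rfl fun k _ => ?_
    ring

/-! ## The Bernstein basis -/

/-- The coefficient `j` in the Bernstein basis of degree `n` on `[0, L]`. -/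
def bco (n : ℕ) (L : ℝ) (p : List ℝ) (j : ℕ) : ℝ :=
  ∑ k ∈ Finset.range (j + 1), (j.choose k : ℝ) / n.choose k * (p.getD k 0 * L ^ k)

/-- All coefficients on `[0, L]` are nonnegative. -/
def Bern (n : ℕ) (L : ℝ) (p : List ℝ) : Prop := ∀ j ≤ n, 0 ≤ bco n L p j

lemma sum_basis {n k : ℕ} (hk : k ≤ n) (s : ℝ) :
    ∑ j ∈ Finset.range (n + 1),
        (j.choose k : ℝ) * n.choose j * s ^ j * (1 - s) ^ (n - j) = n.choose k * s ^ k := by
  have h : ∑ i ∈ Finset.range (n - k + 1),
      s ^ i * (1 - s) ^ (n - k - i) * ((n - k).choose i : ℝ) = 1 := by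
    rw [← add_pow, add_sub_cancel, one_pow]
  rw [show n + 1 = k + (n - k + 1) by omega, Finset.sum_range_add,
    Finset.sum_eq_zero fun j hj => by
      rw [Nat.choose_eq_zero_of_lt (Finset.mem_range.1 hj)]; simp, zero_add]
  calc _ = ∑ i ∈ Finset.range (n - k + 1), (n.choose k : ℝ) * s ^ k *
        (s ^ i * (1 - s) ^ (n - k - i) * ((n - k).choose i : ℝ)) := by
        refine Finset.sum_congr rfl fun i hi => ?_
        have hi' := Finset.mem_range.1 hi
        have e : ((k + i).choose k : ℝ) * n.choose (k + i) = n.choose k * (n - k).choose i := by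
          have := Nat.choose_mul (n := n) (k := k + i) (s := k) (by omega)
          rw [Nat.add_sub_cancel_left] at this
          rw [mul_comm]
          exact_mod_cast this
        rw [pow_add, show n - (k + i) = n - k - i by omega]
        linear_combination (s ^ k * s ^ i * (1 - s) ^ (n - k - i)) * e
    _ = _ := by rw [← Finset.mul_sum, h, mul_one]

/-- Nonnegative coefficients give a nonnegative polynomial. -/
theorem Bern.pv_nonneg {n : ℕ} {L : ℝ} {p : List ℝ} (h : Bern n L p) (hp : p.length ≤ n + 1)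
    (hL : 0 ≤ L) {x : ℝ} (hx : x ∈ Icc 0 L) : 0 ≤ pv p x := by
  obtain ⟨s, hs, hs1, rfl⟩ : ∃ s : ℝ, 0 ≤ s ∧ s ≤ 1 ∧ x = s * L := by
    rcases hL.eq_or_lt with h0 | h0
    · exact ⟨0, le_rfl, zero_le_one, by linarith [hx.1, hx.2]⟩
    · exact ⟨x / L, div_nonneg hx.1 hL, (div_le_one h0).2 hx.2, (div_mul_cancel₀ x h0.ne').symm⟩
  rw [pv_eq_sum p (n + 1) _ hp]
  have e : ∑ k ∈ Finset.range (n + 1), p.getD k 0 * (s * L) ^ k =
      ∑ j ∈ Finset.range (n + 1), bco n L p j * ((n.choose j : ℝ) * s ^ j * (1 - s) ^ (n - j)) := by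
    have e1 : ∀ j ∈ Finset.range (n + 1), bco n L p j =
        ∑ k ∈ Finset.range (n + 1), (j.choose k : ℝ) / n.choose k * (p.getD k 0 * L ^ k) := by
      intro j hj
      refine Finset.sum_subset
        (Finset.range_subset_range.2 (Nat.succ_le_succ (Nat.lt_succ_iff.1 (Finset.mem_range.1 hj))))
        fun k _ hk => ?_
      rw [Nat.choose_eq_zero_of_lt (by simpa using hk)]
      simp
    symm
    calc _ = ∑ j ∈ Finset.range (n + 1), ∑ k ∈ Finset.range (n + 1),
          p.getD k 0 * L ^ k / n.choose k *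
            ((j.choose k : ℝ) * n.choose j * s ^ j * (1 - s) ^ (n - j)) := by
          refine Finset.sum_congr rfl fun j hj => ?_
          rw [e1 j hj, Finset.sum_mul]
          exact Finset.sum_congr rfl fun k _ => by ring
      _ = _ := by
          rw [Finset.sum_comm]
          refine Finset.sum_congr rfl fun k hk => ?_
          have hk' : k ≤ n := Nat.lt_succ_iff.1 (Finset.mem_range.1 hk)
          have hne : (n.choose k : ℝ) ≠ 0 := by exact_mod_cast (Nat.choose_pos hk').ne'
          rw [← Finset.mul_sum, sum_basis hk', mul_pow]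
          field_simp
  rw [e]
  refine Finset.sum_nonneg fun j hj => mul_nonneg (h j (Nat.lt_succ_iff.1 (Finset.mem_range.1 hj))) ?_
  have := sub_nonneg.2 hs1
  positivity

/-- All coefficients are nonnegative on each cell from `a` through the cuts. -/
def CutBern (n : ℕ) (p : List ℝ) : ℝ → List ℝ → Prop
  | _, [] => True
  | a, b :: l => Bern n (b - a) (sb a 1 p) ∧ CutBern n p b l

/-- Nonnegative coefficients on the cells give a nonnegative polynomial up to the last cut. -/
theorem CutBern.pv_nonneg {n : ℕ} {p : List ℝ} (hp : p.length ≤ n + 1) {b : ℝ} :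
    ∀ {a : ℝ} {l : List ℝ}, CutBern n p a (l ++ [b]) → ∀ {x : ℝ}, a ≤ x → x ≤ b → 0 ≤ pv p x
  | a, [], h, x, ha, hb => by
    have := h.1.pv_nonneg (by rwa [length_sb]) (by linarith) (x := x - a)
      ⟨by linarith, by linarith⟩
    rwa [pv_sb, one_mul, add_sub_cancel] at this
  | a, c :: l, h, x, ha, hb => by
    rcases le_total x c with hc | hc
    · have := h.1.pv_nonneg (by rwa [length_sb]) (by linarith) (x := x - a)
        ⟨by linarith, by linarith⟩
      rwa [pv_sb, one_mul, add_sub_cancel] at this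
    · exact CutBern.pv_nonneg hp (l := l) h.2 hc hb

/-! ## The facts as lists -/

/-- The side `d = 0`. -/
def zeroL (o : Pt) : List ℝ :=
  [2 + 2 * o.U' + 8 * o.p * o.U, o.G' + 4 * o.p * o.G - 5 * o.U + o.g * o.G, o.p * o.U - o.U',
    -(o.g * o.G) / 2]

/-- The diagonal with the gain. -/
def diagL (o : Pt) : List ℝ := [k0 o, k1 o, k2 o + o.g * (o.U + o.G), k3 o]

/-- The kernel at `d = 1`. -/
def oneL (o : Pt) : List ℝ :=
  [2 + (5 * o.p - 5) * o.U + (o.U' + o.G') + 4 * o.p * (o.U + o.G) + o.g * o.G / 2,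
    (5 * o.p - 5) * o.G - 5 * (o.U + o.G) + o.g * o.G / 2,
    -(o.U' + o.G') + o.p * (o.U + o.G) - o.g * o.G / 2, -(o.g * o.G) / 2]

/-- The kernel at `d = 1` with the gain. -/
def endGainL (o : Pt) : List ℝ := ad (oneL o) [0, 2 * (o.g * (o.U + o.G))]

/-- The pair bound at `d = 1` without loss. -/
def plainL (o : Pt) (t : ℝ) : List ℝ :=
  ad (oneL o) (sc (-1) [0, 2 * diag o t / t ^ 2 + slope o t * (1 - 2 * t), slope o t])

/-- Coefficient `k` in the second cosine of the mixed pair. -/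
def mixL (o : Pt) : ℕ → List ℝ
  | 0 => zeroL o
  | 1 => [5 * o.U - o.G' - 4 * o.p * o.G + o.g * o.G, 10 * o.G - 2 * (o.g * o.U),
      o.G' - o.p * o.G - o.g * o.G / 2]
  | 2 => [o.p * o.U - o.U', -o.G' + o.p * o.G - o.g * o.G / 2]
  | _ => [-(o.g * o.G) / 2]

/-- Coefficient `k` in the second cosine of the pair with both cosines outward. -/
def outL (o : Pt) : ℕ → List ℝ
  | 0 => [2 + 2 * o.U' + 8 * o.p * o.U, -o.G' - 4 * o.p * o.G + 5 * o.U + o.g * o.G,
      o.p * o.U - o.U', -(o.g * o.G) / 2]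
  | 1 => [5 * o.U - o.G' - 4 * o.p * o.G + o.g * o.G, -10 * o.G,
      o.G' - o.p * o.G - o.g * o.G / 2]
  | 2 => [o.p * o.U - o.U', o.G' - o.p * o.G - o.g * o.G / 2]
  | _ => [-(o.g * o.G) / 2]

/-- The Bernstein coefficient `j` in the second cosine of a bicubic. -/
def rowL (f : ℕ → List ℝ) : ℕ → List ℝ
  | 0 => f 0
  | 1 => ad (f 0) (sc (1 / 3) (f 1))
  | 2 => ad (f 0) (ad (sc (2 / 3) (f 1)) (sc (1 / 3) (f 2)))
  | _ => ad (f 0) (ad (f 1) (ad (f 2) (f 3)))

/-- The end beyond the contact, in the distance from it. -/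
def endHiL (q : ℝ) (o : Pt) (t : ℝ) : List ℝ :=
  sb t 1 (ad (plainL o t)
    (sc (-(slope o t * hLoss q t t)) [0, (1 - t) ^ 2 + t ^ 2, -2 * t, 1]))

/-- The end short of the contact, times the concavity factor. -/
def endLoL (q : ℝ) (o : Pt) (t : ℝ) : List ℝ :=
  ad (mu [1, 0, -q] (ad (plainL o t) [0, -(slope o t * hLoss q t t * (1 - t) ^ 2)]))
    (sc (-(slope o t * q / 2)) [0, t ^ 3, -t ^ 2, -t, 1])

/-- In the half distance `b` of `c` from `2 t - 1`: the diagonal over `b ^ 2`. -/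
def lamL (o : Pt) (t : ℝ) : List ℝ :=
  [2 / t ^ 3 * ((1 - t) * (k0 o * t) + t * ((2 + t) * k0 o + t * k1 o)),
    2 / t ^ 3 * (k0 o * t - ((2 + t) * k0 o + t * k1 o))]

/-- The pair bound at `d = 1`, in `b`. -/
def sideL (o : Pt) (t : ℝ) : List ℝ := sb (2 * t - 1) (-2) (plainL o t)

/-- The concavity factor, in `b`. -/
def facL (q t : ℝ) : List ℝ := sb (2 * t - 1) (-2) [1, 0, -q]

/-- The loss, times the concavity factor, in `b`. -/
def lossL (q : ℝ) (o : Pt) (t : ℝ) : List ℝ :=
  sc (slope o t * q / 2) (mu [2 * t - 1, -2] [3 * t - 1, -2])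

/-- The first middle condition over `b ^ 2`. -/
def midAL (q : ℝ) (o : Pt) (t : ℝ) : List ℝ :=
  ad (mu (facL q t) (ad (mu [(1 - t) ^ 3, 4 * (1 - t) ^ 2, 2 * (1 - t)] (lamL o t))
      (mu [3 * (1 - t), 2] (sideL o t))))
    (sc (-8) (mu (mu [1 - t, 1] (mu [1 - t, 1] [1 - t, 1])) (lossL q o t)))

/-- The second middle condition over `b` and the half width. -/
def midBL (q : ℝ) (o : Pt) (t : ℝ) : List ℝ :=
  ad (mu [2 * (1 - t), 2]
      (ad (mu (facL q t) (ad (sideL o t)
        (sc (-(slope o t * hLoss q t t * (1 - t) ^ 2)) [2 * t - 1, -2])))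
        (sc (-1) (mu (lossL q o t) (mu [1 - t, 2] [1 - t, 2])))))
    (sc (1 - t) (ad (mu (facL q t) (ad (sideL o t) (mu [0, 1 - t] (lamL o t))))
      (sc (-2) (mu (lossL q o t) (mu [1 - t, 1] [1 - t, 2])))))

end Red

open Red in
/-- Finitely many linear conditions in the weight and its derivative. -/
structure InCoef (q : ℝ) (o : Pt) (t : ℝ) : Prop where
  weight_pos : 0 < o.U + o.G
  slope_nonpos : o.G ≤ 0
  mono : 0 ≤ o.U' + 4 * o.p * o.U
  conv₀ : 0 ≤ k0 o
  conv₁ : 0 ≤ (2 + t) * k0 o + t * k1 o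
  down : slope o t ≤ 0
  zero : Bern 3 1 (zeroL o)
  gainDiag : CutBern 3 (diagL o) 0 [t, 1]
  gainEnd : CutBern 3 (endGainL o) 0 [t ^ 2, t, 1]
  mixed : ∀ j ≤ 3, Bern 3 1 (rowL (mixL o) j)
  outward : ∀ j ≤ 3, Bern 3 1 (rowL (outL o) j)
  endHi : Bern 3 (1 - t) (endHiL q o t)
  endLo : CutBern 5 (endLoL q o t) 0 [t ^ 7, t ^ 3, t]
  midA : 1 / 2 < t → Bern 6 ((2 * t - 1) / 2) (midAL q o t)
  midB : 1 / 2 < t → Bern 6 ((2 * t - 1) / 2) (midBL q o t)

open Red

variable {q t : ℝ} {o : Pt}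

lemma bicubic_nonneg {f : ℕ → List ℝ} (hl : ∀ j ≤ 3, (rowL f j).length ≤ 4)
    (h : ∀ j ≤ 3, Bern 3 1 (rowL f j)) {c d : ℝ} (hc : c ∈ Icc (0 : ℝ) 1) (hd : d ∈ Icc (0 : ℝ) 1) :
    0 ≤ pv (f 0) c + d * pv (f 1) c + d ^ 2 * pv (f 2) c + d ^ 3 * pv (f 3) c := by
  have hb : ∀ j ≤ 3, 0 ≤ pv (rowL f j) c := fun j hj =>
    (h j hj).pv_nonneg (hl j hj) zero_le_one hc
  have h0 := hb 0 (by norm_num)
  have h1 := hb 1 (by norm_num)
  have h2 := hb 2 (by norm_num)
  have h3 := hb 3 (by norm_num)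
  simp only [rowL, pv_ad, pv_sc] at h0 h1 h2 h3
  have hd0 := hd.1
  have hd1 := sub_nonneg.2 hd.2
  have a0 := mul_nonneg (pow_nonneg hd1 3) h0
  have a1 := mul_nonneg (mul_nonneg hd0 (pow_nonneg hd1 2)) h1
  have a2 := mul_nonneg (mul_nonneg (pow_nonneg hd0 2) hd1) h2
  have a3 := mul_nonneg (pow_nonneg hd0 3) h3
  linarith

/-! ## The middle conditions -/

lemma pv_sideL {b : ℝ} (hc : 0 ≤ 2 * t - 1 - 2 * b) :
    pv (sideL o t) b = plainRow o t (2 * t - 1 - 2 * b) 1 := by
  simp only [sideL, pv_sb, plainL, pv_ad, pv_sc, oneL, pv, plainRow, tanSum, symB, ker,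
    abs_of_nonneg hc, abs_one]
  ring

lemma plainRow_half (ht : 0 < t) {b : ℝ} (hb : 0 ≤ t - b) :
    plainRow o t (t - b) (t - b) = b ^ 2 * pv (lamL o t) b := by
  rw [plainRow, symB_diag o hb, tanSum, slope, diag, diag]
  simp only [lamL, pv]
  field_simp
  ring

/-- The half distance `b`, and the data of the middle conditions in it. -/
lemma mid_data (hq : q ∈ Ico (0 : ℝ) 1) (ht : t ∈ Ioc (0 : ℝ) 1) {c : ℝ}
    (hc : c ∈ Icc (0 : ℝ) (2 * t - 1)) :
    ∃ b ∈ Icc 0 ((2 * t - 1) / 2), c = 2 * t - 1 - 2 * b ∧ 0 < pv (facL q t) b ∧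
      (1 + c) / 2 = t - b ∧ (1 - c) / 2 = 1 - t + b ∧
      plainRow o t c 1 = pv (sideL o t) b ∧
      plainRow o t ((1 + c) / 2) ((1 + c) / 2) = b ^ 2 * pv (lamL o t) b ∧
      slope o t * c * hLoss q t c = pv (lossL q o t) b / pv (facL q t) b := by
  obtain ⟨b, rfl⟩ : ∃ b, c = 2 * t - 1 - 2 * b := ⟨(2 * t - 1 - c) / 2, by ring⟩
  have hct : 2 * t - 1 - 2 * b ≤ t := by linarith [hc.2, ht.2]
  have hz := zc_pos hq (x := 2 * t - 1 - 2 * b) ⟨hc.1, by linarith [ht.2]⟩
  have hf : pv (facL q t) b = zc q (2 * t - 1 - 2 * b) := by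
    simp only [facL, pv_sb, pv, zc]
    ring
  have hm : (1 + (2 * t - 1 - 2 * b)) / 2 = t - b := by ring
  refine ⟨b, ⟨by linarith [hc.2], by linarith [hc.1]⟩, rfl, hf ▸ hz, hm, by ring,
    (pv_sideL hc.1).symm, ?_, ?_⟩
  · rw [hm]
    exact plainRow_half ht.1 (by linarith [hc.1])
  · rw [hf, hLoss, min_eq_left hct]
    simp only [lossL, pv_sc, pv_mu, pv]
    field_simp
    ring

lemma length_midAL : (midAL q o t).length ≤ 7 := by
  have hf : facL q t = sb (2 * t - 1) (-2) [1, 0, -q] := rfl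
  cases hF : facL q t with
  | nil => simpa [hF, length_sb] using congrArg List.length hf
  | cons a l =>
    have hl := congrArg List.length hf
    simp [hF, length_sb] at hl
    simp [midAL, hF, lossL, lamL, sideL, plainL, oneL, length_ad, length_mu, length_sc, length_sb,
      mu, ad, sc, hl]

lemma length_midBL : (midBL q o t).length ≤ 7 := by
  have hf : facL q t = sb (2 * t - 1) (-2) [1, 0, -q] := rfl
  cases hF : facL q t with
  | nil => simpa [hF, length_sb] using congrArg List.length hf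
  | cons a l =>
    have hl := congrArg List.length hf
    simp [hF, length_sb] at hl
    simp [midBL, hF, lossL, lamL, sideL, plainL, oneL, length_ad, length_mu, length_sc, length_sb,
      mu, ad, sc, hl]

lemma mid₀_nonneg (h : InCoef q o t) (hq : q ∈ Ico (0 : ℝ) 1) (ht : t ∈ Ioc (0 : ℝ) 1) :
    ∀ c ∈ Icc (0 : ℝ) (2 * t - 1),
      0 ≤ (1 - t) * row0 q o t c + (2 * t - 1 - c) * row1 q o t c := by
  intro c hc
  obtain ⟨b, hb, hcb, hz, hm, hd, hP, hD, hL⟩ := mid_data (o := o) hq ht hc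
  have e : 2 * t - 1 - c = 2 * b := by linarith
  rw [row0, row1, hL, hP, hD, e, hd, hm, sub_sub_cancel]
  rcases hb.1.eq_or_lt with rfl | hb0
  · simp
  have h1 := mul_nonneg (sq_nonneg b)
    ((h.midA (by linarith [hb.2])).pv_nonneg length_midAL (by linarith [hb.2]) hb)
  refine nonneg_of_mul_nonneg_right (h1.trans_eq ?_) hz
  simp only [midAL, pv_ad, pv_mu, pv_sc]
  simp only [pv]
  field_simp
  ring

lemma mid₁_nonneg (h : InCoef q o t) (hq : q ∈ Ico (0 : ℝ) 1) (ht : t ∈ Ioc (0 : ℝ) 1) :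
    ∀ c ∈ Icc (0 : ℝ) (2 * t - 1),
      0 ≤ (2 * t - 1 - c) * (endRow q o t c * ((1 - c) / 2) ^ 2) + (1 - t) * row1 q o t c := by
  intro c hc
  obtain ⟨b, hb, hcb, hz, hm, hd, hP, hD, hL⟩ := mid_data (o := o) hq ht hc
  have e : 2 * t - 1 - c = 2 * b := by linarith
  have e' : endRow q o t c = pv (sideL o t) b -
      (slope o t * c * hLoss q t t * (1 - t) ^ 2 +
        pv (lossL q o t) b / pv (facL q t) b * (c - t) ^ 2) := by
    rw [endRow, hP, ← hL]
    ring
  rw [e', row1, hL, hP, hD, e, hd, hm, sub_sub_cancel,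
    show c - t = -(1 - t + 2 * b) by linarith, show c = 2 * t - 1 - 2 * b from hcb]
  rcases hb.1.eq_or_lt with rfl | hb0
  · simp
  have h1 := mul_nonneg (mul_nonneg hb0.le (by linarith [ht.2] : 0 ≤ 1 - t + b))
    ((h.midB (by linarith [hb.2])).pv_nonneg length_midBL (by linarith [hb.2]) hb)
  refine nonneg_of_mul_nonneg_right (h1.trans_eq ?_) hz
  simp only [midBL, pv_ad, pv_mu, pv_sc]
  simp only [pv]
  field_simp
  ring

/-- The linear conditions give the facts at the contact. -/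
theorem InCoef.inPt (h : InCoef q o t) (hq : q ∈ Ico (0 : ℝ) 1) (ht : t ∈ Ioc (0 : ℝ) 1)
    (hg : 0 ≤ o.g) : InPt q o t := by
  have hzero : ∀ c ∈ Icc (0 : ℝ) 1, 0 ≤ symB o c 0 := fun c hc => by
    refine (h.zero.pv_nonneg (le_of_eq rfl) zero_le_one hc).trans_eq ?_
    simp only [zeroL, pv, symB, ker, abs_of_nonneg hc.1, abs_zero]
    ring
  have hloss : 0 ≤ -(o.g * o.G) :=
    neg_nonneg.2 (mul_nonpos_of_nonneg_of_nonpos hg h.slope_nonpos)
  have ht0 := ht.1
  have ha : 0 ≤ 1 - t := sub_nonneg.2 ht.2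
  refine ⟨h.weight_pos, h.slope_nonpos, h.mono, h.conv₀, h.conv₁, h.down, hzero, ?_, ?_, ?_, ?_,
    ?_, ?_, ?_, ?_⟩
  · intro c hc
    refine (CutBern.pv_nonneg (le_of_eq rfl) (l := [t]) h.gainDiag hc.1 hc.2).trans_eq ?_
    simp only [diagL, pv, diag]
    ring
  · intro c hc
    refine (CutBern.pv_nonneg (le_of_eq rfl) (l := [t ^ 2, t]) h.gainEnd hc.1 hc.2).trans_eq ?_
    simp only [endGainL, pv_ad, oneL, pv, symB, ker, abs_of_nonneg hc.1, abs_one]
    ring
  · intro c hc d hd
    have := bicubic_nonneg (fun j hj => by interval_cases j <;> exact le_of_eq rfl) h.mixed hc hd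
    simp only [mixL, zeroL, pv] at this
    simp only [symB, ker, abs_of_nonneg hc.1, abs_neg, abs_of_nonneg hd.1]
    linarith
  · intro c hc d hd
    have := bicubic_nonneg (fun j hj => by interval_cases j <;> exact le_of_eq rfl) h.outward hc hd
    simp only [outL, pv] at this
    simp only [symB, ker, abs_neg, abs_of_nonneg hc.1, abs_of_nonneg hd.1]
    linarith
  · intro c hc
    have e : plainRow o t t c =
        (t - c) ^ 2 * (symB o t 0 / t ^ 2 + -(o.g * o.G) / 2 * c) := by
      simp only [plainRow, tanSum, slope, diag, k0, k1, k2, k3, symB, ker, abs_of_nonneg hc.1,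
        abs_of_pos ht0, abs_zero]
      field_simp
      ring
    rw [e]
    have := hzero t (Ioc_subset_Icc_self ht)
    have := hc.1
    positivity
  · intro c hc
    rcases le_total c t with h' | h'
    · have hz := zc_pos hq (x := c) hc
      have h1 := CutBern.pv_nonneg (le_of_eq rfl) (l := [t ^ 7, t ^ 3]) h.endLo hc.1 h'
      refine nonneg_of_mul_nonneg_right (h1.trans_eq ?_) hz
      rw [endRow, show hLoss q t c = q * (t + c) / (2 * zc q c) by rw [hLoss, min_eq_left h'],
        show slope o t * c * (hLoss q t t * (1 - t) ^ 2 + q * (t + c) / (2 * zc q c) * (c - t) ^ 2) =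
          slope o t * c * hLoss q t t * (1 - t) ^ 2 +
            slope o t * q / 2 * (c * (t + c) * (c - t) ^ 2) / zc q c by field_simp]
      rw [mul_sub (zc q c), mul_add (zc q c), mul_div_cancel₀ _ hz.ne']
      simp only [endLoL, pv_ad, pv_mu, pv_sc, plainL, oneL, pv, plainRow, tanSum, symB, ker,
        abs_of_nonneg hc.1, abs_one, zc]
      ring
    · refine (h.endHi.pv_nonneg (le_of_eq rfl) ha (x := c - t)
        ⟨by linarith, by linarith [hc.2]⟩).trans_eq ?_
      rw [endRow, hLoss_of_ge h']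
      simp only [endHiL, pv_sb, pv_ad, pv_sc, plainL, oneL, pv, plainRow, tanSum, symB, ker,
        abs_of_nonneg hc.1, abs_one]
      ring
  · exact mid₀_nonneg h hq ht
  · exact mid₁_nonneg h hq ht

end Vale.Agent.P219.CH.Relax.Six
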