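import Vale.Agent.P219.Relax.Six.Pt
import Vale.Agent.P219.Relax.Five.Profile
import Vale.Agent.P219.GenK.Four.Value

/-!
# P219, dimension six: the value clause

Along the contact the diagonal does not see the slope in the cosine, and against
`c * (1 - c ^ 2) ^ (3 / 2)` the weight contributes the exact derivative of
`c ^ 4 (1 - c ^ 2) ^ (5 / 2) V / y ^ 4`. So the mean does not depend on the weight.
-/

noncomputable section

open MeasureTheory Set Filter Topology Matrix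
open scoped ENNReal

namespace Vale.Agent.P219.CH.Relax.Six.Val

open Gen Gen.Law Gen.Moment
open Five (yf yf_pos tanh_sq_mem Pt)
open GenK.Four (tanh_pos tanh_lt_one' poleInt hasDerivAt_poleInt cosh_sq_inv)

/-! ## The law of the cosine in dimension six -/

/-- The density of the cosine. -/
def dens (c : ℝ) : ℝ := (1 - c ^ 2) * Real.sqrt (1 - c ^ 2)

lemma dens_nonneg {c : ℝ} (hc : c ∈ Icc (-1 : ℝ) 1) : 0 ≤ dens c :=
  mul_nonneg (by nlinarith [hc.1, hc.2]) (Real.sqrt_nonneg _)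

lemma continuous_dens : Continuous dens := by
  unfold dens
  fun_prop

theorem lintegral_subst_six (g : ℝ → ℝ≥0∞) :
    ∫⁻ τ : ℝ, ENNReal.ofReal ((Real.sqrt (1 + τ ^ 2))⁻¹ ^ (5 + 1)) *
        g (τ / Real.sqrt (1 + τ ^ 2)) =
      ∫⁻ c in Ioo (-1 : ℝ) 1, ENNReal.ofReal (dens c) * g c := by
  have h := lintegral_subst 1 fun c => ENNReal.ofReal (Real.sqrt (1 - c ^ 2)) * g c
  rw [setLIntegral_congr_fun measurableSet_Ioo
    (g := fun c => ENNReal.ofReal ((1 - c ^ 2) ^ 1) *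
      (ENNReal.ofReal (Real.sqrt (1 - c ^ 2)) * g c)) fun c hc => ?_]
  · rw [← h]
    refine lintegral_congr fun τ => ?_
    have hs : 0 < Real.sqrt (1 + τ ^ 2) := Real.sqrt_pos.2 (by positivity)
    have e : Real.sqrt (1 - (τ / Real.sqrt (1 + τ ^ 2)) ^ 2) = (Real.sqrt (1 + τ ^ 2))⁻¹ := by
      rw [← Real.sqrt_sq (inv_pos.2 hs).le, div_pow, inv_pow, Real.sq_sqrt (by positivity)]
      congr 1
      have : (1 : ℝ) + τ ^ 2 ≠ 0 := by positivity
      field_simp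
      ring
    rw [e, ← mul_assoc, ← ENNReal.ofReal_mul (by positivity), ← pow_succ]
  · have : 0 ≤ 1 - c ^ 2 := by nlinarith [hc.1, hc.2]
    simp only [dens, pow_one, ← mul_assoc, ENNReal.ofReal_mul this]

lemma hasDerivAt_sqrtW {t : ℝ} (ht : 0 < 1 - t ^ 2) :
    HasDerivAt (fun c : ℝ => Real.sqrt (1 - c ^ 2)) (-t / Real.sqrt (1 - t ^ 2)) t := by
  refine (((hasDerivAt_pow 2 t).const_sub 1).sqrt ht.ne').congr_deriv ?_
  push_cast
  field_simp

/-- The total of the density. -/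
theorem integral_dens : ∫ c in (-1 : ℝ)..1, dens c = 3 * Real.pi / 8 := by
  have hd : ∀ t ∈ Ioo (-1 : ℝ) 1, HasDerivAt
      (fun c => 3 / 8 * Real.arcsin c + c * Real.sqrt (1 - c ^ 2) * ((5 - 2 * c ^ 2) / 8))
      (dens t) t := by
    intro t ht
    have hW : 0 < 1 - t ^ 2 := by nlinarith [ht.1, ht.2]
    refine (((Real.hasDerivAt_arcsin ht.1.ne' ht.2.ne).const_mul (3 / 8)).add
      (((hasDerivAt_id t).mul (hasDerivAt_sqrtW hW)).mul
        ((((hasDerivAt_pow 2 t).const_mul 2).const_sub 5).div_const 8))).congr_deriv ?_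
    have hs := (Real.sqrt_pos.2 hW).ne'
    have hs2 := Real.sq_sqrt hW.le
    simp only [dens, Pi.mul_apply, id_eq]
    obtain ⟨s, hsd⟩ : ∃ s, s = Real.sqrt (1 - t ^ 2) := ⟨_, rfl⟩
    rw [← hsd] at hs hs2 ⊢
    push_cast
    field_simp
    rw [hs2]
    ring
  rw [intervalIntegral.integral_eq_sub_of_hasDerivAt_of_le (by norm_num) (by fun_prop) hd
    (continuous_dens.intervalIntegrable _ _)]
  norm_num [Real.arcsin_one, Real.arcsin_neg_one]
  ring

/-- The mean over the cosine in dimension six. -/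
theorem cmean_six {g : ℝ → ℝ} {B : ℝ} (hg : Measurable g) (hgc : ContinuousOn g (Icc 0 1))
    (hb : ∀ c ∈ Icc (0 : ℝ) 1, 0 ≤ g c ∧ g c ≤ B) :
    cmean 6 g * (3 * Real.pi / 8) = ∫ c in (0 : ℝ)..1, g c * dens c := by
  obtain ⟨R, hR⟩ : ∃ R, R = radK 5 := ⟨_, rfl⟩
  obtain ⟨I, hI⟩ : ∃ I, I = ∫ c in (0 : ℝ)..1, g c * dens c := ⟨_, rfl⟩
  have hpi : (0 : ℝ) < 3 * Real.pi / 8 := by positivity
  have hsub : ∀ c ∈ Icc (0 : ℝ) 1, c ∈ Icc (-1 : ℝ) 1 := fun c hc => ⟨by linarith [hc.1], hc.2⟩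
  have hmass : ENNReal.ofReal (mass 6) = R * ENNReal.ofReal (3 * Real.pi / 8) := by
    rw [← integral_phi, ofReal_integral_eq_lintegral_ofReal integrable_phi
      (Eventually.of_forall fun w => (Real.exp_pos _).le), hR, ← integral_dens,
      ← lintegral_Ioo (by norm_num) (continuous_dens.intervalIntegrable _ _)
        fun c hc => dens_nonneg (Ioo_subset_Icc_self hc)]
    have h := lintegral_coord (k := 5) (by norm_num) (g := fun _ => 1) measurable_const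
    rw [lintegral_subst_six fun _ => 1] at h
    simpa using h
  have hside : ENNReal.ofReal (mass 6 * cmean 6 g) = R * ENNReal.ofReal I := by
    rw [← lintegral_side hg hb, lintegral_coord (k := 5) (by norm_num)
      (hg.ennreal_ofReal.indicator measurableSet_Ioi), lintegral_subst_six, hR, hI]
    congr 1
    have hint : IntervalIntegrable (fun c => g c * dens c) volume 0 1 :=
      (hgc.mul continuous_dens.continuousOn).intervalIntegrable_of_Icc zero_le_one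
    rw [← lintegral_Ioo zero_le_one hint fun c hc =>
      mul_nonneg (hb c ⟨hc.1.le, hc.2.le⟩).1 (dens_nonneg (hsub c (Ioo_subset_Icc_self hc)))]
    rw [← lintegral_indicator measurableSet_Ioo, ← lintegral_indicator measurableSet_Ioo]
    refine lintegral_congr fun c => ?_
    by_cases h : c ∈ Ioo (0 : ℝ) 1
    · rw [indicator_of_mem h,
        indicator_of_mem (show c ∈ Ioo (-1 : ℝ) 1 from ⟨by linarith [h.1], h.2⟩),
        indicator_of_mem (show c ∈ Ioi (0 : ℝ) from h.1), mul_comm (g c),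
        ENNReal.ofReal_mul (dens_nonneg (hsub c (Ioo_subset_Icc_self h)))]
    · rw [indicator_of_notMem h]
      by_cases h' : c ∈ Ioo (-1 : ℝ) 1
      · rw [indicator_of_mem h', indicator_of_notMem (show c ∉ Ioi (0 : ℝ) from
          fun hc => h ⟨hc, h'.2⟩), mul_zero]
      · rw [indicator_of_notMem h']
  have hfin : R ≠ ⊤ := fun h => by
    rw [h, ENNReal.top_mul (by simpa using hpi)] at hmass
    exact ENNReal.ofReal_ne_top hmass
  obtain ⟨q, hq0, hq⟩ : ∃ q : ℝ, 0 ≤ q ∧ R = ENNReal.ofReal q :=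
    ⟨R.toReal, ENNReal.toReal_nonneg, (ENNReal.ofReal_toReal hfin).symm⟩
  have hI0 : 0 ≤ I := hI ▸ intervalIntegral.integral_nonneg zero_le_one fun c hc =>
    mul_nonneg (hb c hc).1 (dens_nonneg (hsub c hc))
  rw [hq, ← ENNReal.ofReal_mul hq0] at hmass hside
  have hm : 0 < mass 6 := Gen.Moment.mass_pos
  have e1 : mass 6 = q * (3 * Real.pi / 8) :=
    (ENNReal.ofReal_eq_ofReal_iff hm.le (mul_nonneg hq0 hpi.le)).1 hmass
  have hc0 : 0 ≤ cmean 6 g := by
    refine div_nonneg (integral_nonneg fun v => mul_nonneg (Real.exp_pos _).le ?_) hm.le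
    refine Set.indicator_nonneg (fun v hv => ?_) v
    refine (hb _ ⟨div_nonneg (le_of_lt hv) (Real.sqrt_nonneg _), ?_⟩).1
    refine div_le_one_of_le₀ (Real.le_sqrt_of_sq_le ?_) (Real.sqrt_nonneg _)
    rw [sq]
    exact Finset.single_le_sum (f := fun i => v i * v i) (fun i _ => mul_self_nonneg _)
      (Finset.mem_univ (0 : Fin 6))
  have e2 : mass 6 * cmean 6 g = q * I :=
    (ENNReal.ofReal_eq_ofReal_iff (mul_nonneg hm.le hc0) (mul_nonneg hq0 hI0)).1 hside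
  rw [← hI]
  have hq' : q ≠ 0 := fun h => by rw [h, zero_mul] at e1; exact hm.ne' e1
  refine mul_left_cancel₀ hq' ?_
  rw [← e2, e1]
  ring

/-! ## The marginal coefficient -/

/-- The distance at the contact `t`, for `T = tanh R`. -/
def lg (T t : ℝ) : ℝ := Real.log ((1 + T * t) / (1 - T * t))

/-- The diagonal at the contact, in the weight at the contact and its derivative. -/
def contactDiag (e t v v' : ℝ) : ℝ :=
  1 + (1 - t ^ 2) * (yf e t / 2) * v' + v * ((1 + e * t ^ 2) / (2 * t) * (4 + t ^ 2) - 5 * t)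

/-- Whatever the slope in the cosine, the diagonal at the contact only sees the weight there. -/
lemma diag_contact (o : Pt) {e t v v' : ℝ} (ht : t ≠ 0) (hv : o.U + t * o.G = v)
    (hv' : o.U' + t * o.G' = yf e t / 2 * (v' - o.G)) (hp : o.p = (1 + e * t ^ 2) / (2 * t))
    (hg : o.g = yf e t / (2 * t)) : diag o t = contactDiag e t v v' := by
  have hU : o.U = v - t * o.G := by linarith
  have hU' : o.U' = yf e t / 2 * (v' - o.G) - t * o.G' := by linarith
  simp only [diag, k0, k1, k2, k3, contactDiag, hU, hU', hp, hg]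
  field_simp
  ring

/-- The marginal coefficient over the cosine. -/
def margSix (R β : ℝ) (V DV : ℝ → ℝ) (c : ℝ) : ℝ :=
  32 * Real.tanh R ^ 5 * c ^ 3 / yf (Real.tanh R ^ 2) c ^ 5 *
      contactDiag (Real.tanh R ^ 2) c (V c) (DV c) -
    β * lg (Real.tanh R) c

/-! ## The antiderivatives -/

/-- An antiderivative of `c ^ 4 (1 - c ^ 2) ^ (3 / 2) / y ^ 5`. -/
def ratPrim (e c : ℝ) : ℝ :=
  3 / (128 * (1 - e) ^ 2) * poleInt (Real.sqrt (1 - e)) (Real.arcsin c) +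
    c * Real.sqrt (1 - c ^ 2) *
      ((2 - e) * (-3 + 14 * (1 - e) - 3 * (1 - e) ^ 2) / (128 * (1 - e) ^ 2 * e ^ 3) / yf e c +
        -(1 + 22 * (1 - e) + (1 - e) ^ 2) / (64 * (1 - e) * e ^ 3) / yf e c ^ 2 +
        3 * (2 - e) / (16 * e ^ 3) / yf e c ^ 3 + -(1 - e) / (8 * e ^ 3) / yf e c ^ 4)

/-- An antiderivative of `c (1 - c ^ 2) ^ (3 / 2) lg T c`. -/
def distPrim (T c : ℝ) : ℝ :=
  -((1 - c ^ 2) ^ 2 * Real.sqrt (1 - c ^ 2) * lg T c) / 5 + 2 * T / (5 * (T ^ 2) ^ 3) *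
    ((1 - 3 * (1 - T ^ 2) + 3 * (1 - T ^ 2) ^ 2) * Real.arcsin c +
      (3 * (1 - T ^ 2) - 2) * T ^ 2 / 2 * (Real.arcsin c - c * Real.sqrt (1 - c ^ 2)) +
      (T ^ 2) ^ 2 * (3 / 8 * Real.arcsin c - c * Real.sqrt (1 - c ^ 2) * ((3 + 2 * c ^ 2) / 8)) -
      (1 - T ^ 2) ^ 3 * poleInt (Real.sqrt (1 - T ^ 2)) (Real.arcsin c))

lemma hasDerivAt_lg {T t : ℝ} (h1 : 0 < 1 - T * t) (h2 : 0 < 1 + T * t) :
    HasDerivAt (lg T) (2 * T / ((1 - T * t) * (1 + T * t))) t := by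
  refine (((((hasDerivAt_id t).const_mul T).const_add 1).div
    (((hasDerivAt_id t).const_mul T).const_sub 1) h1.ne').log (div_pos h2 h1).ne').congr_deriv ?_
  simp only [id_eq, Pi.div_apply]
  field_simp
  ring

lemma arg_pos {R : ℝ} (hR : 0 < R) {t : ℝ} (ht : t ∈ Icc (0 : ℝ) 1) :
    0 < 1 - Real.tanh R * t ∧ 0 < 1 + Real.tanh R * t :=
  ⟨sub_pos.2 ((mul_le_of_le_one_right (tanh_pos hR).le ht.2).trans_lt (tanh_lt_one' R)),
    by linarith [mul_nonneg (tanh_pos hR).le ht.1]⟩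

lemma continuousOn_lg {R : ℝ} (hR : 0 < R) : ContinuousOn (lg (Real.tanh R)) (Icc 0 1) :=
  fun _ ht => (hasDerivAt_lg (arg_pos hR ht).1 (arg_pos hR ht).2).continuousAt.continuousWithinAt

lemma hasDerivAt_pole_arcsin {e t : ℝ} (he : e < 1) (h1 : -1 < t) (h2 : t < 1) :
    HasDerivAt (fun c => poleInt (Real.sqrt (1 - e)) (Real.arcsin c))
      (1 / yf e t * (1 / Real.sqrt (1 - t ^ 2))) t := by
  have hk : 0 < Real.sqrt (1 - e) := Real.sqrt_pos.2 (sub_pos.2 he)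
  refine ((hasDerivAt_poleInt hk _).comp t
    (Real.hasDerivAt_arcsin h1.ne' h2.ne)).congr_deriv ?_
  rw [Real.sq_sqrt (sub_pos.2 he).le, Real.sin_arcsin h1.le h2.le]
  simp only [yf, sub_sub_cancel]

lemma hasDerivAt_yf (e t : ℝ) : HasDerivAt (yf e) (-(2 * e * t)) t := by
  unfold yf
  exact (((hasDerivAt_pow 2 t).const_mul e).const_sub 1).congr_deriv (by push_cast; ring)

lemma hasDerivAt_ratPrim {e t : ℝ} (he : e ∈ Ioo (0 : ℝ) 1) (ht : t ∈ Ioo (0 : ℝ) 1) :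
    HasDerivAt (ratPrim e) (t ^ 4 * dens t / yf e t ^ 5) t := by
  have hW : 0 < 1 - t ^ 2 := by nlinarith [ht.1, ht.2]
  have hy := yf_pos he (Ioo_subset_Icc_self ht)
  have he0 := he.1.ne'
  have hd : 1 - e ≠ 0 := by linarith [he.2]
  have hyd := hasDerivAt_yf e t
  have h := ((hasDerivAt_pole_arcsin he.2 (by linarith [ht.1]) ht.2).const_mul
      (3 / (128 * (1 - e) ^ 2))).add
    (((hasDerivAt_id t).mul (hasDerivAt_sqrtW hW)).mul
      (((((hasDerivAt_const t ((2 - e) * (-3 + 14 * (1 - e) - 3 * (1 - e) ^ 2) /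
          (128 * (1 - e) ^ 2 * e ^ 3))).div hyd hy.ne').add
        ((hasDerivAt_const t (-(1 + 22 * (1 - e) + (1 - e) ^ 2) / (64 * (1 - e) * e ^ 3))).div
          (hyd.pow 2) (pow_ne_zero 2 hy.ne'))).add
        ((hasDerivAt_const t (3 * (2 - e) / (16 * e ^ 3))).div
          (hyd.pow 3) (pow_ne_zero 3 hy.ne'))).add
        ((hasDerivAt_const t (-(1 - e) / (8 * e ^ 3))).div (hyd.pow 4) (pow_ne_zero 4 hy.ne'))))
  refine (h : HasDerivAt (ratPrim e) _ t).congr_deriv ?_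
  have hs := (Real.sqrt_pos.2 hW).ne'
  have hs2 := Real.sq_sqrt hW.le
  simp only [dens, Pi.mul_apply, Pi.pow_apply, Pi.add_apply, Pi.div_apply, id_eq]
  obtain ⟨s, hsd⟩ : ∃ s, s = Real.sqrt (1 - t ^ 2) := ⟨_, rfl⟩
  rw [← hsd] at hs hs2 ⊢
  push_cast
  field_simp
  rw [hs2]
  simp only [yf]
  ring

lemma hasDerivAt_distPrim {R : ℝ} (hR : 0 < R) {t : ℝ} (ht : t ∈ Ioo (0 : ℝ) 1) :
    HasDerivAt (distPrim (Real.tanh R)) (t * dens t * lg (Real.tanh R) t) t := by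
  have hW : 0 < 1 - t ^ 2 := by nlinarith [ht.1, ht.2]
  have he := tanh_sq_mem hR
  have hy := yf_pos he (Ioo_subset_Icc_self ht)
  obtain ⟨h1, h2⟩ := arg_pos hR (Ioo_subset_Icc_self ht)
  have hT0 := (tanh_pos hR).ne'
  have hA := Real.hasDerivAt_arcsin (show t ≠ -1 by linarith [ht.1]) ht.2.ne
  have hCS := (hasDerivAt_id t).mul (hasDerivAt_sqrtW hW)
  have h := ((((((hasDerivAt_pow 2 t).const_sub 1).pow 2).mul (hasDerivAt_sqrtW hW)).mul
      (hasDerivAt_lg h1 h2)).neg.div_const 5).add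
    (((((hA.const_mul (1 - 3 * (1 - Real.tanh R ^ 2) + 3 * (1 - Real.tanh R ^ 2) ^ 2)).add
      ((hA.sub hCS).const_mul ((3 * (1 - Real.tanh R ^ 2) - 2) * Real.tanh R ^ 2 / 2))).add
      (((hA.const_mul (3 / 8)).sub (hCS.mul
        ((((hasDerivAt_pow 2 t).const_mul 2).const_add 3).div_const 8))).const_mul
        ((Real.tanh R ^ 2) ^ 2))).sub
      ((hasDerivAt_pole_arcsin he.2 (by linarith [ht.1]) ht.2).const_mul
        ((1 - Real.tanh R ^ 2) ^ 3))).const_mul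
      (2 * Real.tanh R / (5 * (Real.tanh R ^ 2) ^ 3)))
  refine (h : HasDerivAt (distPrim (Real.tanh R)) _ t).congr_deriv ?_
  have hs := (Real.sqrt_pos.2 hW).ne'
  have hs2 := Real.sq_sqrt hW.le
  have e1 : (1 - Real.tanh R * t) * (1 + Real.tanh R * t) = yf (Real.tanh R ^ 2) t := by
    unfold yf; ring
  simp only [dens, Pi.mul_apply, Pi.pow_apply, Pi.sub_apply, Pi.neg_apply, id_eq]
  rw [e1]
  obtain ⟨s, hsd⟩ : ∃ s, s = Real.sqrt (1 - t ^ 2) := ⟨_, rfl⟩
  rw [← hsd] at hs hs2 ⊢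
  obtain ⟨ℓ, hℓ⟩ : ∃ ℓ, ℓ = lg (Real.tanh R) t := ⟨_, rfl⟩
  rw [← hℓ]
  push_cast
  field_simp
  rw [hs2]
  simp only [yf]
  ring

lemma continuousOn_pole_arcsin {e : ℝ} (he : e < 1) :
    ContinuousOn (fun c => poleInt (Real.sqrt (1 - e)) (Real.arcsin c)) (Icc 0 1) :=
  ((continuous_iff_continuousAt.2 fun φ =>
    (hasDerivAt_poleInt (Real.sqrt_pos.2 (sub_pos.2 he)) φ).continuousAt).comp
    Real.continuous_arcsin).continuousOn

lemma integral_sinh_five (R : ℝ) :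
    ∫ t in (0 : ℝ)..R, Real.sinh t ^ 5 =
      Real.cosh R ^ 5 / 5 - 2 * Real.cosh R ^ 3 / 3 + Real.cosh R - 8 / 15 := by
  have hd : ∀ t ∈ uIcc (0 : ℝ) R, HasDerivAt
      (fun t => Real.cosh t ^ 5 / 5 - 2 * Real.cosh t ^ 3 / 3 + Real.cosh t)
      (Real.sinh t ^ 5) t := by
    intro t _
    refine (((((Real.hasDerivAt_cosh t).pow 5).div_const 5).sub
      ((((Real.hasDerivAt_cosh t).pow 3).const_mul 2).div_const 3)).add
      (Real.hasDerivAt_cosh t)).congr_deriv ?_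
    push_cast
    linear_combination (Real.sinh t * (Real.cosh t ^ 2 - 1 + Real.sinh t ^ 2)) * Real.cosh_sq t
  rw [intervalIntegral.integral_eq_sub_of_hasDerivAt hd
    ((Real.continuous_sinh.pow 5).intervalIntegrable _ _)]
  simp only [Real.cosh_zero]
  ring

/-- The value clause, an equality, for any weight at the contact. -/
theorem value_six {R β : ℝ} {a V DV : ℝ → ℝ} (hR : 0 < R)
    (ha : ∀ c ∈ Ioc (0 : ℝ) 1, a c = c * margSix R β V DV c) (hm : Measurable a)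
    (hac : ContinuousOn a (Icc 0 1)) (hneg : ∀ c ∈ Icc (0 : ℝ) 1, a c ≤ 0)
    (hV : ∀ t ∈ Ioo (0 : ℝ) 1, HasDerivAt V (DV t) t)
    (hVc : ContinuousOn (fun t => t ^ 4 * V t) (Icc 0 1)) :
    Real.sinh R ^ (2 * (6 - 1)) + Gen.cmean 6 (fun c => -a c) * Real.sinh R ^ (6 - 1) ≤
      β * ∫ t in (0 : ℝ)..R, Real.sinh t ^ (6 - 1) := by
  refine le_of_eq ?_
  have he := tanh_sq_mem hR
  have hT := tanh_pos hR
  obtain ⟨B, hB⟩ := isCompact_Icc.exists_bound_of_continuousOn hac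
  have hmean := cmean_six (g := fun c => -a c) (B := B) hm.neg hac.neg
    fun c hc => ⟨neg_nonneg.2 (hneg c hc), (neg_le_abs _).trans (hB c hc)⟩
  set T := Real.tanh R with hTd
  obtain ⟨Φ, hΦ⟩ : ∃ Φ : ℝ → ℝ, Φ = fun c =>
      β * distPrim T c - 32 * T ^ 5 * ratPrim (T ^ 2) c -
        16 * T ^ 5 * ((c ^ 4 * V c) *
          ((1 - c ^ 2) ^ 2 * Real.sqrt (1 - c ^ 2) / yf (T ^ 2) c ^ 4)) := ⟨_, rfl⟩
  have hyc : ContinuousOn (yf (T ^ 2)) (Icc 0 1) := by unfold yf; fun_prop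
  have hy0 : ∀ c ∈ Icc (0 : ℝ) 1, yf (T ^ 2) c ≠ 0 := fun c hc => (yf_pos he hc).ne'
  have hcont : ContinuousOn Φ (Icc 0 1) := by
    have hp := continuousOn_pole_arcsin he.2
    have hl := continuousOn_lg hR
    rw [← hTd] at hl
    have hS : ContinuousOn (fun c : ℝ => Real.sqrt (1 - c ^ 2)) (Icc 0 1) := by fun_prop
    have hW : ContinuousOn (fun c : ℝ => (1 - c ^ 2) ^ 2 * Real.sqrt (1 - c ^ 2)) (Icc 0 1) := by
      fun_prop
    have hcs : ContinuousOn (fun c : ℝ => c * Real.sqrt (1 - c ^ 2)) (Icc 0 1) := by fun_prop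
    have hpol : ContinuousOn (fun c : ℝ => (3 + 2 * c ^ 2) / 8) (Icc 0 1) := by fun_prop
    have hAs : ContinuousOn Real.arcsin (Icc (0 : ℝ) 1) := Real.continuous_arcsin.continuousOn
    rw [hΦ]
    unfold distPrim ratPrim
    refine ((continuousOn_const.mul ((((hW.mul hl).neg).div_const 5).add
      (continuousOn_const.mul ((((continuousOn_const.mul hAs).add
        (continuousOn_const.mul (hAs.sub hcs))).add
        (continuousOn_const.mul ((continuousOn_const.mul hAs).sub (hcs.mul hpol)))).sub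
        (continuousOn_const.mul hp))))).sub
      (continuousOn_const.mul ((continuousOn_const.mul hp).add ((continuousOn_id.mul hS).mul
        ((((continuousOn_const.div hyc hy0).add (continuousOn_const.div (hyc.pow 2)
          fun c hc => pow_ne_zero 2 (hy0 c hc))).add (continuousOn_const.div (hyc.pow 3)
          fun c hc => pow_ne_zero 3 (hy0 c hc))).add (continuousOn_const.div (hyc.pow 4)
          fun c hc => pow_ne_zero 4 (hy0 c hc))))))).sub
      (continuousOn_const.mul (hVc.mul (hW.div (hyc.pow 4) fun c hc => pow_ne_zero 4 (hy0 c hc))))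
  have hd : ∀ t ∈ Ioo (0 : ℝ) 1, HasDerivAt Φ (-a t * dens t) t := by
    intro t ht
    have hW : 0 < 1 - t ^ 2 := by nlinarith [ht.1, ht.2]
    have hy := yf_pos he (Ioo_subset_Icc_self ht)
    have h3 := (((hasDerivAt_pow 4 t).mul (hV t ht)).mul
      (((((hasDerivAt_pow 2 t).const_sub 1).pow 2).mul (hasDerivAt_sqrtW hW)).div
        ((hasDerivAt_yf (T ^ 2) t).pow 4) (pow_ne_zero 4 hy.ne'))).const_mul (16 * T ^ 5)
    have h := (((hasDerivAt_distPrim hR ht).const_mul β).sub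
      ((hasDerivAt_ratPrim he ht).const_mul (32 * T ^ 5))).sub h3
    rw [hΦ]
    refine h.congr_deriv ?_
    have hs2 := Real.sq_sqrt hW.le
    have hs0 := (Real.sqrt_pos.2 hW).ne'
    have ht0 := ht.1.ne'
    rw [ha t (Ioo_subset_Ioc_self ht), margSix, ← hTd, contactDiag]
    simp only [dens, Pi.mul_apply, Pi.pow_apply, Pi.div_apply]
    obtain ⟨s, hsd⟩ : ∃ s, s = Real.sqrt (1 - t ^ 2) := ⟨_, rfl⟩
    rw [← hsd] at hs0 hs2 ⊢
    obtain ⟨ℓ, hℓ⟩ : ∃ ℓ, ℓ = lg T t := ⟨_, rfl⟩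
    rw [← hℓ]
    obtain ⟨y, hyd⟩ : ∃ y, y = yf (T ^ 2) t := ⟨_, rfl⟩
    rw [← hyd] at hy ⊢
    push_cast
    field_simp
    rw [hs2, hyd, yf]
    ring
  have hI : ∫ c in (0 : ℝ)..1, -a c * dens c = Φ 1 - Φ 0 :=
    intervalIntegral.integral_eq_sub_of_hasDerivAt_of_le zero_le_one hcont hd
      ((hac.neg.mul continuous_dens.continuousOn).intervalIntegrable_of_Icc zero_le_one)
  rw [hI] at hmean
  have hd0 : (0 : ℝ) < 1 - T ^ 2 := sub_pos.2 he.2
  have hend : Φ 1 - Φ 0 = Real.pi / 2 * (β * (2 * T / (5 * (T ^ 2) ^ 3)) *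
      ((3 - 10 * (1 - T ^ 2) + 15 * (1 - T ^ 2) ^ 2) / 8 -
        (1 - T ^ 2) ^ 3 / Real.sqrt (1 - T ^ 2)) -
      32 * T ^ 5 * (3 / (128 * (1 - T ^ 2) ^ 2)) / Real.sqrt (1 - T ^ 2)) := by
    simp only [hΦ, distPrim, ratPrim, poleInt, lg, Real.arcsin_one, Real.arcsin_zero,
      Real.sin_pi_div_two, Real.cos_pi_div_two, Real.sin_zero, Real.cos_zero]
    norm_num
    obtain ⟨k, hk⟩ : ∃ k, k = Real.sqrt (1 - T ^ 2) := ⟨_, rfl⟩
    have hk0 : k ≠ 0 := hk ▸ (Real.sqrt_pos.2 hd0).ne'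
    rw [← hk]
    field_simp
    ring
  rw [hend] at hmean
  obtain ⟨X, hX⟩ : ∃ X, X = β * (2 * T / (5 * (T ^ 2) ^ 3)) *
      ((3 - 10 * (1 - T ^ 2) + 15 * (1 - T ^ 2) ^ 2) / 8 -
        (1 - T ^ 2) ^ 3 / Real.sqrt (1 - T ^ 2)) -
      32 * T ^ 5 * (3 / (128 * (1 - T ^ 2) ^ 2)) / Real.sqrt (1 - T ^ 2) := ⟨_, rfl⟩
  rw [← hX] at hmean
  have hcm : Gen.cmean 6 (fun c => -a c) = 4 / 3 * X := by
    have hpi := Real.pi_pos.ne'
    refine mul_right_cancel₀ hpi ?_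
    linarith
  rw [hcm, hX, show 2 * (6 - 1) = 10 from rfl, show 6 - 1 = 5 from rfl, integral_sinh_five]
  obtain ⟨C, hC⟩ : ∃ C, C = Real.cosh R := ⟨_, rfl⟩
  have hC0 : 0 < C := hC ▸ Real.cosh_pos R
  have hd1 : 1 - T ^ 2 = (1 / C) ^ 2 := by rw [hC, cosh_sq_inv]
  have hS : Real.sinh R = T * C := by
    rw [hTd, hC, Real.tanh_eq_sinh_div_cosh, div_mul_cancel₀ _ (Real.cosh_pos R).ne']
  rw [hS, ← hC, hd1, Real.sqrt_sq (by positivity)]
  have hT0 : T ≠ 0 := hT.ne'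
  field_simp
  ring

end Vale.Agent.P219.CH.Relax.Six.Val
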