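import Vale.Agent.P219.Relax.Six.InPair

/-!
# P219, dimension six: the pair conditions beyond the diameter

With the weight scaled by `5 / 4` the kernel of dimension six is that of dimension five at another
point, so the reduction of dimension five applies.
-/

noncomputable section

open Set

namespace Vale.Agent.P219.CH.Relax.Six

open Five (Pt)

/-- The point of dimension five with the same kernel. -/
def toFive (o : Pt) : Pt where
  U := 5 / 4 * o.U
  U' := o.U' + o.p * o.U / 4
  G := 5 / 4 * o.G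
  G' := o.G' + o.p * o.G / 4
  p := o.p
  g := 4 / 5 * o.g

variable (o : Pt) (c d : ℝ)

lemma ker_toFive : Five.ker (toFive o) c d = ker o c d := by
  simp only [Five.ker, ker, toFive]
  ring

lemma symX_toFive : Five.symX (toFive o) c d = symX o c d := by
  simp only [Five.symX, symX, ker_toFive]
  simp only [toFive]
  ring

lemma symB_toFive : Five.symB (toFive o) c d = symB o c d := by
  simp only [Five.symB, symB, ker_toFive]
  simp only [toFive]
  ring

lemma symE_toFive : Five.symE (toFive o) c = symE o c := by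
  simp only [Five.symE, symE, ker_toFive]
  simp only [toFive]
  ring

lemma coef_toFive : Five.k0 (toFive o) = k0 o ∧ Five.k1 (toFive o) = k1 o ∧
    Five.k2 (toFive o) = k2 o ∧ Five.k3 (toFive o) = k3 o := by
  simp only [Five.k0, Five.k1, Five.k2, Five.k3, k0, k1, k2, k3, toFive]
  refine ⟨?_, ?_, ?_, ?_⟩ <;> ring

lemma diag_toFive : Five.diag (toFive o) c = diag o c := by
  obtain ⟨h0, h1, h2, h3⟩ := coef_toFive o
  rw [Five.diag, diag, h0, h1, h2, h3]

lemma slope_toFive : Five.slope (toFive o) c = slope o c := by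
  obtain ⟨h0, h1, -, h3⟩ := coef_toFive o
  rw [Five.slope, slope, h0, h1, h3]

variable {o c d}

lemma GoodPt.toFive (h : GoodPt o) : Five.GoodPt (toFive o) := by
  obtain ⟨h0, h1, -, -⟩ := coef_toFive o
  refine ⟨?_, ?_, ?_, h0 ▸ h.conv₀, by rw [h0, h1]; exact h.conv₁,
    fun c hc => by rw [symB_toFive]; exact h.zero c hc, ?_, ?_, ?_,
    fun c hc d hd => by rw [symB_toFive]; exact h.outward c hc d hd⟩
  · simp only [Six.toFive]; linarith [h.weight_pos]
  · simp only [Six.toFive]; linarith [h.slope_nonpos]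
  · simp only [Six.toFive]; linarith [h.mono]
  · intro c hc
    rw [diag_toFive]
    simp only [Six.toFive]
    linarith [h.gain_diag c hc]
  · intro c hc
    rw [symE_toFive]
    simp only [Six.toFive]
    linarith [h.gain_end c hc]
  · intro c hc d hd
    rw [symB_toFive]
    simp only [Six.toFive]
    linarith [h.mixed c hc d hd]

/-- The kernel is negative by at most the gain, for every sign. -/
theorem GoodPt.gain (h : GoodPt o) (hg : 0 ≤ o.g) (hc : c ∈ Icc (-1 : ℝ) 1)
    (hd : d ∈ Icc (-1 : ℝ) 1) :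
    0 ≤ symX o c d +
      2 * |c * d| * (o.g * Real.sqrt ((o.U + c * o.G) * (o.U + d * o.G))) := by
  have h5 := h.toFive.gain (show 0 ≤ 4 / 5 * o.g by positivity) hc hd
  rw [symX_toFive] at h5
  simp only [Six.toFive] at h5
  rw [show (5 / 4 * o.U + c * (5 / 4 * o.G)) * (5 / 4 * o.U + d * (5 / 4 * o.G)) =
      (5 / 4) ^ 2 * ((o.U + c * o.G) * (o.U + d * o.G)) by ring,
    Real.sqrt_mul (sq_nonneg _), Real.sqrt_sq (by norm_num)] at h5
  linarith

/-- The pair bound from the tangent at `t`. -/
theorem GoodPt.pair (h : GoodPt o) (hg : 0 ≤ o.g) {t : ℝ} (ht : t ∈ Ioc (0 : ℝ) 1)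
    (he : EndCond o t) (hc : c ∈ Icc (0 : ℝ) 1) (hd : d ∈ Icc (0 : ℝ) 1) :
    c * d * tanSum o t (c + d) ≤ symX o c d := by
  have h5 := h.toFive.pair (show 0 ≤ 4 / 5 * o.g by positivity) ht (fun x hx => by
    rw [diag_toFive, slope_toFive, symE_toFive]
    exact he x hx) hc hd
  rw [symX_toFive, diag_toFive, slope_toFive] at h5
  exact h5

/-- The bounds with an outward cosine. -/
theorem GoodPt.mixed_le (h : GoodPt o) (hg : 0 ≤ o.g) (hc : c ∈ Icc (0 : ℝ) 1)
    (hd : d ∈ Icc (0 : ℝ) 1) :
    2 * (c * d) * (o.g * o.U) ≤ symX o c (-d) ∧ 0 ≤ symX o (-c) (-d) := by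
  have h5 := h.toFive.mixed_le (show 0 ≤ 4 / 5 * o.g by positivity) hc hd
  rw [symX_toFive, symX_toFive] at h5
  simp only [Six.toFive] at h5
  exact ⟨by linarith [h5.1], h5.2⟩

end Vale.Agent.P219.CH.Relax.Six
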