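import Vale.Agent.P219.Relax.Six.OutTree

/-!
# P219, dimension six: signs beyond the diameter

Each is nonnegative in the Bernstein basis of the unit square of `(a, b)`, by the kernel check.
-/

noncomputable section

open Set

namespace Vale.Agent.P219.CH.Relax.Six.OutP

open Vale.Agent.P219.Poly (E)

lemma zeroN_01 {a b : ℝ} (ha : a ∈ Icc (0 : ℝ) 1) (hb : b ∈ Icc (0 : ℝ) 1) :
    0 ≤ zeroN a b (-(3 / 25)) ((1 - eP a b) ^ 2) :=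
  E.nonneg_of_scaled (p := (.add (.mul (.k 2) (.add (.mul (.k 5) (.mul (.mul (.mul (.mul (.k 2) (.add (.k 1) ePT)) qPT) pPT) (.add (.mul (.k (-3)) (.pow sPT 5)) (.mul (.k 5) (.mul (.pow (.add (.k 1) (.neg ePT)) 2) (.add (.mul (.mul (.k 3) (.pow sPT 3)) (.pow dPT 2)) (.neg (.mul (.k 5) (.pow sPT 5))))))))) (.neg (.mul (.mul (.mul (.k 2) (.add (.k 1) ePT)) (.pow gPT 2)) (.add (.mul (.k 25) dN5T) (.neg (.add (.mul (.k (-3)) (.pow sPT 5)) (.mul (.k 25) (.mul (.pow (.add (.k 1) (.neg ePT)) 2) (.add (.mul (.pow sPT 3) (.pow dPT 2)) (.neg (.pow sPT 5)))))))))))) (.mul (.add (.mul (.k 2) (.k 5)) (.neg (.mul (.k 2) pPT))) (.mul (.mul (.mul (.k 2) (.add (.k 1) ePT)) qPT) (.add (.mul (.k 25) dN5T) (.neg (.add (.mul (.k (-3)) (.pow sPT 5)) (.mul (.k 25) (.mul (.pow (.add (.k 1) (.neg ePT)) 2) (.add (.mul (.pow sPT 3) (.pow dPT 2)) (.neg (.pow sPT 5))))))))))))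 (K := 100)
    (by decide +kernel) ha hb (by norm_num) <| by
    simp only [uN, wN, xN, yN, zeroN, sem_dN5T, sem_dPT, sem_ePT, sem_gPT, sem_pPT, sem_qPT, sem_sPT, E.sem]
    push_cast
    ring

lemma crosswN_11 {a b : ℝ} (ha : a ∈ Icc (0 : ℝ) 1) (hb : b ∈ Icc (0 : ℝ) 1) :
    0 ≤ crosswN a b (8 / 25) ((1 - eP a b) ^ 2) :=
  E.nonneg_of_scaled (p := (.add (.mul (.k 8) (.add (.mul (.add (.add (.mul (.k 2) (.k 5)) pPT) (.neg (.mul (.k 2) gPT))) (.mul (.mul (.mul (.k 2) (.add (.k 1) ePT)) qPT) (.add (.mul (.k 25) dN5T) (.neg (.add (.mul (.k 8) (.pow sPT 5)) (.mul (.k 25) (.mul (.pow (.add (.k 1) (.neg ePT)) 2) (.add (.mul (.pow sPT 3) (.pow dPT 2)) (.neg (.pow sPT 5)))))))))) (.neg (.add (.mul (.k 5) (.mul (.mul (.mul (.mul (.k 2) (.add (.k 1) ePT)) qPT) pPT) (.add (.mul (.k 8) (.pow sPT 5)) (.mul (.k 5) (.mul (.pow (.add (.k 1) (.neg ePT)) 2) (.add (.mul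 (.mul (.k 3) (.pow sPT 3)) (.pow dPT 2)) (.neg (.mul (.k 5) (.pow sPT 5))))))))) (.neg (.mul (.mul (.mul (.k 2) (.add (.k 1) ePT)) (.pow gPT 2)) (.add (.mul (.k 25) dN5T) (.neg (.add (.mul (.k 8) (.pow sPT 5)) (.mul (.k 25) (.mul (.pow (.add (.k 1) (.neg ePT)) 2) (.add (.mul (.pow sPT 3) (.pow dPT 2)) (.neg (.pow sPT 5)))))))))))))) (.neg (.mul (.k 5) (.mul (.add (.mul (.k 5) (.add (.mul (.k 2) (.k 1)) (.neg pPT))) (.mul (.k 3) gPT)) hNT))))) (K := 800)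
    (by decide +kernel) ha hb (by norm_num) <| by
    simp only [crosswN, uN, wN, xN, yN, sem_dN5T, sem_dPT, sem_ePT, sem_gPT, sem_hNT, sem_pPT, sem_qPT, sem_sPT, E.sem]
    push_cast
    ring

lemma midN_00 {a b : ℝ} (ha : a ∈ Icc (0 : ℝ) 1) (hb : b ∈ Icc (0 : ℝ) 1) :
    0 ≤ midN a b (-(3 / 25)) 0 :=
  E.nonneg_of_scaled (p := (.add (.mul (.k 8) (.add (.add (.mul (.k 25) (.mul (.k 2) mNT)) (.add (.mul (.k 5) (.mul (.mul (.mul (.mul (.k 2) (.add (.k 1) ePT)) qPT) pPT) (.mul (.k (-3)) (.pow sPT 5)))) (.neg (.mul (.mul (.mul (.k 2) (.add (.k 1) ePT)) (.pow gPT 2)) (.add (.mul (.k 25) dN5T) (.neg (.mul (.k (-3)) (.pow sPT 5)))))))) (.mul (.add (.mul (.k 9) pPT) (.neg (.mul (.k 2) (.k 5)))) (.mul (.mul (.mul (.k 2) (.add (.k 1) ePT)) qPT) (.add (.mul (.k 25) dN5T) (.neg (.mul (.k (-3)) (.pow sPT 5)))))))) (.neg (.mul (.k 5) (.mul (.add (.add (.mul (.k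 2) (.k 5)) (.neg (.mul (.k 5) pPT))) gPT) hNT))))) (K := 800)
    (by decide +kernel) ha hb (by norm_num) <| by
    simp only [midN, uN, wN, xN, yN, sem_dN5T, sem_ePT, sem_gPT, sem_hNT, sem_mNT, sem_pPT, sem_qPT, sem_sPT, E.sem]
    push_cast
    ring

lemma posN_11 {a b : ℝ} (ha : a ∈ Icc (0 : ℝ) 1) (hb : b ∈ Icc (0 : ℝ) 1) :
    0 ≤ posN a b (8 / 25) ((1 - eP a b) ^ 2) :=
  E.nonneg_of_scaled (p := (.add (.mul (.k 25) dN5T) (.neg (.add (.mul (.k 8) (.pow sPT 5)) (.mul (.k 25) (.mul (.pow (.add (.k 1) (.neg ePT)) 2) (.add (.mul (.pow sPT 3) (.pow dPT 2)) (.neg (.pow sPT 5))))))))) (K := 25)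
    (by decide +kernel) ha hb (by norm_num) <| by
    simp only [posN, xN, sem_dN5T, sem_dPT, sem_ePT, sem_sPT, E.sem]
    push_cast
    ring

lemma monoN_dk {a b : ℝ} (ha : a ∈ Icc (0 : ℝ) 1) (hb : b ∈ Icc (0 : ℝ) 1) :
    0 ≤ monoN a b 0 0 - monoN a b 0 1 :=
  E.nonneg_of_scaled (p := (.add (.add (.add (.mul (.k 4) (.k 0)) (.neg (.mul (.mul (.mul (.k 2) (.add (.k 1) ePT)) (.pow gPT 2)) dN5T))) (.mul (.mul (.k 4) pPT) (.mul (.mul (.mul (.k 2) (.add (.k 1) ePT)) qPT) dN5T))) (.neg (.add (.add (.mul (.mul (.mul (.mul (.k 2) (.add (.k 1) ePT)) qPT) pPT) (.add (.mul (.mul (.k 3) (.pow sPT 3)) (.pow dPT 2)) (.neg (.mul (.k 5) (.pow sPT 5))))) (.neg (.mul (.mul (.mul (.k 2) (.add (.k 1) ePT)) (.pow gPT 2)) (.add dN5T (.neg (.add (.mul (.pow sPT 3) (.pow dPT 2)) (.neg (.pow sPT 5)))))))) (.mul (.mul (.k 4) pPT) (.mul (.mul (.mul (.k 2) (.add (.k 1) ePT))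 qPT) (.add dN5T (.neg (.add (.mul (.pow sPT 3) (.pow dPT 2)) (.neg (.pow sPT 5))))))))))) (K := 4)
    (by decide +kernel) ha hb (by norm_num) <| by
    simp only [monoN, uN, wN, xN, yN, sem_dN5T, sem_dPT, sem_ePT, sem_gPT, sem_pPT, sem_qPT, sem_sPT, E.sem]
    push_cast
    ring

lemma crossN_dx {a b : ℝ} (ha : a ∈ Icc (0 : ℝ) 1) (hb : b ∈ Icc (0 : ℝ) 1) :
    0 ≤ crossN a b 0 0 - crossN a b 1 0 :=
  E.nonneg_of_scaled (p := (.add (.add (.mul (.k 40) (.mul (.add (.mul (.k 2) (.k 5)) (.neg (.mul (.k 2) gPT))) (.mul (.mul (.mul (.k 2) (.add (.k 1) ePT)) qPT) dN5T))) (.neg (.mul (.add (.mul (.k 5) (.add (.mul (.k 2) (.k 1)) (.neg pPT))) (.mul (.k 3) gPT)) hNT))) (.neg (.add (.mul (.k 40) (.mul (.add (.mul (.k 2) (.k 5)) (.neg (.mul (.k 2) gPT))) (.mul (.mul (.mul (.k 2) (.add (.k 1) ePT)) qPT) (.add dN5T (.neg (.pow sPT 5)))))) (.neg (.mul (.add (.mul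 (.k 5) (.add (.mul (.k 2) (.k 1)) (.neg pPT))) (.mul (.k 3) gPT)) hNT)))))) (K := 160)
    (by decide +kernel) ha hb (by norm_num) <| by
    simp only [crossN, uN, xN, sem_dN5T, sem_ePT, sem_gPT, sem_hNT, sem_pPT, sem_qPT, sem_sPT, E.sem]
    push_cast
    ring

lemma convN_dx {a b : ℝ} (ha : a ∈ Icc (0 : ℝ) 1) (hb : b ∈ Icc (0 : ℝ) 1) :
    0 ≤ convN a b 1 0 - convN a b 0 0 :=
  E.nonneg_of_scaled (p := (.add (.add (.add (.add (.mul (.k 40) (.add (.mul (.k 3) mNT) (.mul (.k 3) (.add (.mul (.mul (.mul (.mul (.k 2) (.add (.k 1) ePT)) qPT) pPT) (.mul (.k 5) (.pow sPT 5))) (.neg (.mul (.mul (.mul (.k 2) (.add (.k 1) ePT)) (.pow gPT 2)) (.add dN5T (.neg (.pow sPT 5))))))))) (.neg (.mul (.k 2) vNT))) (.mul (.k 40) (.mul (.add (.mul (.k 12) pPT) (.neg (.mul (.k 2) (.k 5)))) (.mul (.mul (.mul (.k 2) (.add (.k 1) ePT)) qPT) (.add dN5T (.neg (.pow sPT 5)))))))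 (.mul (.add (.add (.mul (.k 8) pPT) (.neg (.mul (.k 2) (.k 5)))) (.neg gPT)) hNT)) (.neg (.add (.add (.add (.mul (.k 40) (.add (.mul (.k 3) mNT) (.mul (.k 3) (.add (.mul (.k 4) (.k 0)) (.neg (.mul (.mul (.mul (.k 2) (.add (.k 1) ePT)) (.pow gPT 2)) dN5T)))))) (.neg (.mul (.k 2) vNT))) (.mul (.k 40) (.mul (.add (.mul (.k 12) pPT) (.neg (.mul (.k 2) (.k 5)))) (.mul (.mul (.mul (.k 2) (.add (.k 1) ePT)) qPT) dN5T)))) (.mul (.add (.add (.mul (.k 8) pPT) (.neg (.mul (.k 2) (.k 5)))) (.neg gPT)) hNT))))) (K := 160)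
    (by decide +kernel) ha hb (by norm_num) <| by
    simp only [convN, uN, wN, xN, yN, sem_dN5T, sem_ePT, sem_gPT, sem_hNT, sem_mNT, sem_pPT, sem_qPT, sem_sPT, sem_vNT, E.sem]
    push_cast
    ring

end Vale.Agent.P219.CH.Relax.Six.OutP
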