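import Vale.Agent.P219.Relax.Six.OutTree

/-!
# P219, dimension six: signs beyond the diameter

Each is nonnegative in the Bernstein basis of the unit square of `(a, b)`, by the kernel check.
-/

noncomputable section

open Set

namespace Vale.Agent.P219.CH.Relax.Six.OutP

open Vale.Agent.P219.Poly (E)

lemma zeroN_11 {a b : ℝ} (ha : a ∈ Icc (0 : ℝ) 1) (hb : b ∈ Icc (0 : ℝ) 1) :
    0 ≤ zeroN a b (8 / 25) ((1 - eP a b) ^ 2) :=
  E.nonneg_of_scaled (p := (.add (.mul (.k 2) (.add (.mul (.k 5) (.mul (.mul (.mul (.mul (.k 2) (.add (.k 1) ePT)) qPT) pPT) (.add (.mul (.k 8) (.pow sPT 5)) (.mul (.k 5) (.mul (.pow (.add (.k 1) (.neg ePT)) 2) (.add (.mul (.mul (.k 3) (.pow sPT 3)) (.pow dPT 2)) (.neg (.mul (.k 5) (.pow sPT 5))))))))) (.neg (.mul (.mul (.mul (.k 2) (.add (.k 1) ePT)) (.pow gPT 2)) (.add (.mul (.k 25) dN5T) (.neg (.add (.mul (.k 8) (.pow sPT 5)) (.mul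 (.k 25) (.mul (.pow (.add (.k 1) (.neg ePT)) 2) (.add (.mul (.pow sPT 3) (.pow dPT 2)) (.neg (.pow sPT 5)))))))))))) (.mul (.add (.mul (.k 2) (.k 5)) (.neg (.mul (.k 2) pPT))) (.mul (.mul (.mul (.k 2) (.add (.k 1) ePT)) qPT) (.add (.mul (.k 25) dN5T) (.neg (.add (.mul (.k 8) (.pow sPT 5)) (.mul (.k 25) (.mul (.pow (.add (.k 1) (.neg ePT)) 2) (.add (.mul (.pow sPT 3) (.pow dPT 2)) (.neg (.pow sPT 5)))))))))))) (K := 100)
    (by decide +kernel) ha hb (by norm_num) <| by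
    simp only [uN, wN, xN, yN, zeroN, sem_dN5T, sem_dPT, sem_ePT, sem_gPT, sem_pPT, sem_qPT, sem_sPT, E.sem]
    push_cast
    ring

lemma convN_01 {a b : ℝ} (ha : a ∈ Icc (0 : ℝ) 1) (hb : b ∈ Icc (0 : ℝ) 1) :
    0 ≤ convN a b (-(3 / 25)) ((1 - eP a b) ^ 2) :=
  E.nonneg_of_scaled (p := (.add (.add (.add (.mul (.k 8) (.add (.mul (.k 25) (.mul (.k 3) mNT)) (.mul (.k 3) (.add (.mul (.k 5) (.mul (.mul (.mul (.mul (.k 2) (.add (.k 1) ePT)) qPT) pPT) (.add (.mul (.k (-3)) (.pow sPT 5)) (.mul (.k 5) (.mul (.pow (.add (.k 1) (.neg ePT)) 2) (.add (.mul (.mul (.k 3) (.pow sPT 3)) (.pow dPT 2)) (.neg (.mul (.k 5) (.pow sPT 5))))))))) (.neg (.mul (.mul (.mul (.k 2) (.add (.k 1) ePT)) (.pow gPT 2)) (.add (.mul (.k 25) dN5T) (.neg (.add (.mul (.k (-3)) (.pow sPT 5)) (.mul (.k 25) (.mul (.pow (.add (.k 1) (.neg ePT)) 2) (.add (.mul (.pow sPT 3) (.pow dPT 2)) (.neg (.pow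 sPT 5)))))))))))))) (.neg (.mul (.k 5) (.mul (.k 2) vNT)))) (.mul (.k 8) (.mul (.add (.mul (.k 12) pPT) (.neg (.mul (.k 2) (.k 5)))) (.mul (.mul (.mul (.k 2) (.add (.k 1) ePT)) qPT) (.add (.mul (.k 25) dN5T) (.neg (.add (.mul (.k (-3)) (.pow sPT 5)) (.mul (.k 25) (.mul (.pow (.add (.k 1) (.neg ePT)) 2) (.add (.mul (.pow sPT 3) (.pow dPT 2)) (.neg (.pow sPT 5)))))))))))) (.mul (.k 5) (.mul (.add (.add (.mul (.k 8) pPT) (.neg (.mul (.k 2) (.k 5)))) (.neg gPT)) hNT)))) (K := 800)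
    (by decide +kernel) ha hb (by norm_num) <| by
    simp only [convN, uN, wN, xN, yN, sem_dN5T, sem_dPT, sem_ePT, sem_gPT, sem_hNT, sem_mNT, sem_pPT, sem_qPT, sem_sPT, sem_vNT, E.sem]
    push_cast
    ring

lemma crosswN_10 {a b : ℝ} (ha : a ∈ Icc (0 : ℝ) 1) (hb : b ∈ Icc (0 : ℝ) 1) :
    0 ≤ crosswN a b (8 / 25) 0 :=
  E.nonneg_of_scaled (p := (.add (.mul (.k 8) (.add (.mul (.add (.add (.mul (.k 2) (.k 5)) pPT) (.neg (.mul (.k 2) gPT))) (.mul (.mul (.mul (.k 2) (.add (.k 1) ePT)) qPT) (.add (.mul (.k 25) dN5T) (.neg (.mul (.k 8) (.pow sPT 5)))))) (.neg (.add (.mul (.k 5) (.mul (.mul (.mul (.mul (.k 2) (.add (.k 1) ePT)) qPT) pPT) (.mul (.k 8) (.pow sPT 5)))) (.neg (.mul (.mul (.mul (.k 2) (.add (.k 1) ePT)) (.pow gPT 2)) (.add (.mul (.k 25) dN5T) (.neg (.mul (.k 8) (.pow sPT 5)))))))))) (.neg (.mul (.k 5) (.mul (.add (.mul (.k 5) (.add (.mul (.k 2)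 (.k 1)) (.neg pPT))) (.mul (.k 3) gPT)) hNT))))) (K := 800)
    (by decide +kernel) ha hb (by norm_num) <| by
    simp only [crosswN, uN, wN, xN, yN, sem_dN5T, sem_ePT, sem_gPT, sem_hNT, sem_pPT, sem_qPT, sem_sPT, E.sem]
    push_cast
    ring

lemma hv32 {a b : ℝ} (ha : a ∈ Icc (0 : ℝ) 1) (hb : b ∈ Icc (0 : ℝ) 1) :
    0 ≤ 3 * hN a b - 2 * vN a b :=
  E.nonneg_of_scaled (p := (.add (.mul (.k 2) (.mul (.k 3) hNT)) (.neg (.mul (.k 2) vNT)))) (K := 160)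
    (by decide +kernel) ha hb (by norm_num) <| by
    simp only [sem_hNT, sem_vNT, E.sem]
    push_cast
    ring

lemma hv3 {a b : ℝ} (ha : a ∈ Icc (0 : ℝ) 1) (hb : b ∈ Icc (0 : ℝ) 1) :
    0 ≤ 3 * pP a b * hN a b - vN a b :=
  E.nonneg_of_scaled (p := (.add (.mul (.mul (.k 3) pPT) hNT) (.neg vNT))) (K := 160)
    (by decide +kernel) ha hb (by norm_num) <| by
    simp only [sem_hNT, sem_pPT, sem_vNT, E.sem]
    push_cast
    ring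

lemma midN_dx {a b : ℝ} (ha : a ∈ Icc (0 : ℝ) 1) (hb : b ∈ Icc (0 : ℝ) 1) :
    0 ≤ midN a b 1 0 - midN a b 0 0 :=
  E.nonneg_of_scaled (p := (.add (.add (.mul (.k 40) (.add (.add (.mul (.k 2) mNT) (.add (.mul (.mul (.mul (.mul (.k 2) (.add (.k 1) ePT)) qPT) pPT) (.mul (.k 5) (.pow sPT 5))) (.neg (.mul (.mul (.mul (.k 2) (.add (.k 1) ePT)) (.pow gPT 2)) (.add dN5T (.neg (.pow sPT 5))))))) (.mul (.add (.mul (.k 9) pPT) (.neg (.mul (.k 2) (.k 5)))) (.mul (.mul (.mul (.k 2) (.add (.k 1) ePT)) qPT) (.add dN5T (.neg (.pow sPT 5))))))) (.neg (.mul (.add (.add (.mul (.k 2) (.k 5)) (.neg (.mul (.k 5) pPT))) gPT) hNT))) (.neg (.add (.mul (.k 40) (.add (.add (.mul (.k 2) mNT) (.add (.mul (.k 4) (.k 0)) (.neg (.mul (.mul (.mul (.k 2) (.add (.k 1) ePT)) (.pow gPT 2)) dN5T)))) (.mul (.add (.mul (.k 9) pPT) (.neg (.mul (.k 2) (.k 5)))) (.mul (.mul (.mul (.k 2) (.add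 (.k 1) ePT)) qPT) dN5T)))) (.neg (.mul (.add (.add (.mul (.k 2) (.k 5)) (.neg (.mul (.k 5) pPT))) gPT) hNT)))))) (K := 160)
    (by decide +kernel) ha hb (by norm_num) <| by
    simp only [midN, uN, wN, xN, yN, sem_dN5T, sem_ePT, sem_gPT, sem_hNT, sem_mNT, sem_pPT, sem_qPT, sem_sPT, E.sem]
    push_cast
    ring

lemma topN_dx {a b : ℝ} (ha : a ∈ Icc (0 : ℝ) 1) (hb : b ∈ Icc (0 : ℝ) 1) :
    0 ≤ topN a b 1 0 - topN a b 0 0 :=
  E.nonneg_of_scaled (p := (.add (.add (.add mNT (.neg (.mul (.mul (.k 5) (.add (.mul (.k 2) (.k 1)) (.neg pPT))) (.mul (.mul (.mul (.k 2) (.add (.k 1) ePT)) qPT) (.add dN5T (.neg (.pow sPT 5))))))) (.mul gPT (.mul (.mul (.mul (.k 2) (.add (.k 1) ePT)) qPT) (.add dN5T (.neg (.pow sPT 5)))))) (.neg (.add (.add mNT (.neg (.mul (.mul (.k 5) (.add (.mul (.k 2) (.k 1)) (.neg pPT))) (.mul (.mul (.mul (.k 2) (.add (.k 1) ePT)) qPT) dN5T))))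 (.mul gPT (.mul (.mul (.mul (.k 2) (.add (.k 1) ePT)) qPT) dN5T)))))) (K := 4)
    (by decide +kernel) ha hb (by norm_num) <| by
    simp only [topN, uN, xN, sem_dN5T, sem_ePT, sem_gPT, sem_mNT, sem_pPT, sem_qPT, sem_sPT, E.sem]
    push_cast
    ring

lemma posN_dx {a b : ℝ} (ha : a ∈ Icc (0 : ℝ) 1) (hb : b ∈ Icc (0 : ℝ) 1) :
    0 ≤ posN a b 0 0 - posN a b 1 0 :=
  E.nonneg_of_scaled (p := (.add dN5T (.neg (.add dN5T (.neg (.pow sPT 5)))))) (K := 1)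
    (by decide +kernel) ha hb (by norm_num) <| by
    simp only [posN, xN, sem_dN5T, sem_sPT, E.sem]
    push_cast
    ring

end Vale.Agent.P219.CH.Relax.Six.OutP
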