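import Vale.Agent.P219.Relax.Six.OutTree

/-!
# P219, dimension six: signs beyond the diameter

Each is nonnegative in the Bernstein basis of the unit square of `(a, b)`, by the kernel check.
-/

noncomputable section

open Set

namespace Vale.Agent.P219.CH.Relax.Six.OutP

open Vale.Agent.P219.Poly (E)

lemma midN_01 {a b : ℝ} (ha : a ∈ Icc (0 : ℝ) 1) (hb : b ∈ Icc (0 : ℝ) 1) :
    0 ≤ midN a b (-(3 / 25)) ((1 - eP a b) ^ 2) :=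
  E.nonneg_of_scaled (p := (.add (.mul (.k 8) (.add (.add (.mul (.k 25) (.mul (.k 2) mNT)) (.add (.mul (.k 5) (.mul (.mul (.mul (.mul (.k 2) (.add (.k 1) ePT)) qPT) pPT) (.add (.mul (.k (-3)) (.pow sPT 5)) (.mul (.k 5) (.mul (.pow (.add (.k 1) (.neg ePT)) 2) (.add (.mul (.mul (.k 3) (.pow sPT 3)) (.pow dPT 2)) (.neg (.mul (.k 5) (.pow sPT 5))))))))) (.neg (.mul (.mul (.mul (.k 2) (.add (.k 1) ePT)) (.pow gPT 2)) (.add (.mul (.k 25) dN5T) (.neg (.add (.mul (.k (-3)) (.pow sPT 5)) (.mul (.k 25) (.mul (.pow (.add (.k 1) (.neg ePT)) 2) (.add (.mul (.pow sPT 3) (.pow dPT 2)) (.neg (.pow sPT 5)))))))))))) (.mul (.add (.mul (.k 9) pPT) (.neg (.mul (.k 2) (.k 5)))) (.mul (.mul (.mul (.k 2) (.add (.k 1) ePT)) qPT) (.add (.mul (.k 25) dN5T) (.neg (.add (.mul (.k (-3)) (.pow sPT 5)) (.mul (.k 25) (.mul (.pow (.add (.k 1) (.neg ePT)) 2) (.add (.mul (.pow sPT 3)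 (.pow dPT 2)) (.neg (.pow sPT 5)))))))))))) (.neg (.mul (.k 5) (.mul (.add (.add (.mul (.k 2) (.k 5)) (.neg (.mul (.k 5) pPT))) gPT) hNT))))) (K := 800)
    (by decide +kernel) ha hb (by norm_num) <| by
    simp only [midN, uN, wN, xN, yN, sem_dN5T, sem_dPT, sem_ePT, sem_gPT, sem_hNT, sem_mNT, sem_pPT, sem_qPT, sem_sPT, E.sem]
    push_cast
    ring

lemma monoN_01 {a b : ℝ} (ha : a ∈ Icc (0 : ℝ) 1) (hb : b ∈ Icc (0 : ℝ) 1) :
    0 ≤ monoN a b (-(3 / 25)) ((1 - eP a b) ^ 2) :=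
  E.nonneg_of_scaled (p := (.add (.add (.mul (.k 5) (.mul (.mul (.mul (.mul (.k 2) (.add (.k 1) ePT)) qPT) pPT) (.add (.mul (.k (-3)) (.pow sPT 5)) (.mul (.k 5) (.mul (.pow (.add (.k 1) (.neg ePT)) 2) (.add (.mul (.mul (.k 3) (.pow sPT 3)) (.pow dPT 2)) (.neg (.mul (.k 5) (.pow sPT 5))))))))) (.neg (.mul (.mul (.mul (.k 2) (.add (.k 1) ePT)) (.pow gPT 2)) (.add (.mul (.k 25) dN5T) (.neg (.add (.mul (.k (-3)) (.pow sPT 5)) (.mul (.k 25) (.mul (.pow (.add (.k 1) (.neg ePT)) 2) (.add (.mul (.pow sPT 3) (.pow dPT 2)) (.neg (.pow sPT 5))))))))))) (.mul (.mul (.k 4) pPT) (.mul (.mul (.mul (.k 2) (.add (.k 1) ePT)) qPT) (.add (.mul (.k 25) dN5T) (.neg (.add (.mul (.k (-3)) (.pow sPT 5)) (.mul (.k 25) (.mul (.pow (.add (.k 1) (.neg ePT)) 2) (.add (.mul (.pow sPT 3) (.pow dPT 2)) (.neg (.pow sPT 5)))))))))))) (K := 100)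
    (by decide +kernel) ha hb (by norm_num) <| by
    simp only [monoN, uN, wN, xN, yN, sem_dN5T, sem_dPT, sem_ePT, sem_gPT, sem_pPT, sem_qPT, sem_sPT, E.sem]
    push_cast
    ring

lemma zeroN_10 {a b : ℝ} (ha : a ∈ Icc (0 : ℝ) 1) (hb : b ∈ Icc (0 : ℝ) 1) :
    0 ≤ zeroN a b (8 / 25) 0 :=
  E.nonneg_of_scaled (p := (.add (.mul (.k 2) (.add (.mul (.k 5) (.mul (.mul (.mul (.mul (.k 2) (.add (.k 1) ePT)) qPT) pPT) (.mul (.k 8) (.pow sPT 5)))) (.neg (.mul (.mul (.mul (.k 2) (.add (.k 1) ePT)) (.pow gPT 2)) (.add (.mul (.k 25) dN5T) (.neg (.mul (.k 8) (.pow sPT 5)))))))) (.mul (.add (.mul (.k 2) (.k 5)) (.neg (.mul (.k 2) pPT))) (.mul (.mul (.mul (.k 2) (.add (.k 1) ePT)) qPT) (.add (.mul (.k 25) dN5T) (.neg (.mul (.k 8) (.pow sPT 5)))))))) (K := 100)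
    (by decide +kernel) ha hb (by norm_num) <| by
    simp only [uN, wN, xN, yN, zeroN, sem_dN5T, sem_ePT, sem_gPT, sem_pPT, sem_qPT, sem_sPT, E.sem]
    push_cast
    ring

lemma topN_00 {a b : ℝ} (ha : a ∈ Icc (0 : ℝ) 1) (hb : b ∈ Icc (0 : ℝ) 1) :
    0 ≤ topN a b (-(3 / 25)) 0 :=
  E.nonneg_of_scaled (p := (.add (.add (.mul (.k 25) mNT) (.neg (.mul (.mul (.k 5) (.add (.mul (.k 2) (.k 1)) (.neg pPT))) (.mul (.mul (.mul (.k 2) (.add (.k 1) ePT)) qPT) (.add (.mul (.k 25) dN5T) (.neg (.mul (.k (-3)) (.pow sPT 5)))))))) (.mul gPT (.mul (.mul (.mul (.k 2) (.add (.k 1) ePT)) qPT) (.add (.mul (.k 25) dN5T) (.neg (.mul (.k (-3)) (.pow sPT 5)))))))) (K := 100)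
    (by decide +kernel) ha hb (by norm_num) <| by
    simp only [topN, uN, xN, sem_dN5T, sem_ePT, sem_gPT, sem_mNT, sem_pPT, sem_qPT, sem_sPT, E.sem]
    push_cast
    ring

lemma crossN_dk {a b : ℝ} (ha : a ∈ Icc (0 : ℝ) 1) (hb : b ∈ Icc (0 : ℝ) 1) :
    0 ≤ crossN a b 0 0 - crossN a b 0 1 :=
  E.nonneg_of_scaled (p := (.add (.add (.mul (.k 40) (.mul (.add (.mul (.k 2) (.k 5)) (.neg (.mul (.k 2) gPT))) (.mul (.mul (.mul (.k 2) (.add (.k 1) ePT)) qPT) dN5T))) (.neg (.mul (.add (.mul (.k 5) (.add (.mul (.k 2) (.k 1)) (.neg pPT))) (.mul (.k 3) gPT)) hNT))) (.neg (.add (.mul (.k 40) (.mul (.add (.mul (.k 2) (.k 5)) (.neg (.mul (.k 2) gPT))) (.mul (.mul (.mul (.k 2) (.add (.k 1) ePT)) qPT) (.add dN5T (.neg (.add (.mul (.pow sPT 3) (.pow dPT 2)) (.neg (.pow sPT 5)))))))) (.neg (.mul (.add (.mul (.k 5) (.add (.mul (.k 2) (.k 1)) (.neg pPT))) (.mul (.k 3)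 gPT)) hNT)))))) (K := 160)
    (by decide +kernel) ha hb (by norm_num) <| by
    simp only [crossN, uN, xN, sem_dN5T, sem_dPT, sem_ePT, sem_gPT, sem_hNT, sem_pPT, sem_qPT, sem_sPT, E.sem]
    push_cast
    ring

lemma crosswN_dx {a b : ℝ} (ha : a ∈ Icc (0 : ℝ) 1) (hb : b ∈ Icc (0 : ℝ) 1) :
    0 ≤ crosswN a b 0 0 - crosswN a b 1 0 :=
  E.nonneg_of_scaled (p := (.add (.add (.mul (.k 40) (.add (.mul (.add (.add (.mul (.k 2) (.k 5)) pPT) (.neg (.mul (.k 2) gPT))) (.mul (.mul (.mul (.k 2) (.add (.k 1) ePT)) qPT) dN5T)) (.neg (.add (.mul (.k 4) (.k 0)) (.neg (.mul (.mul (.mul (.k 2) (.add (.k 1) ePT)) (.pow gPT 2)) dN5T)))))) (.neg (.mul (.add (.mul (.k 5) (.add (.mul (.k 2) (.k 1)) (.neg pPT))) (.mul (.k 3) gPT)) hNT))) (.neg (.add (.mul (.k 40) (.add (.mul (.add (.add (.mul (.k 2) (.k 5)) pPT) (.neg (.mul (.k 2) gPT))) (.mul (.mul (.mul (.k 2) (.add (.k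 1) ePT)) qPT) (.add dN5T (.neg (.pow sPT 5))))) (.neg (.add (.mul (.mul (.mul (.mul (.k 2) (.add (.k 1) ePT)) qPT) pPT) (.mul (.k 5) (.pow sPT 5))) (.neg (.mul (.mul (.mul (.k 2) (.add (.k 1) ePT)) (.pow gPT 2)) (.add dN5T (.neg (.pow sPT 5))))))))) (.neg (.mul (.add (.mul (.k 5) (.add (.mul (.k 2) (.k 1)) (.neg pPT))) (.mul (.k 3) gPT)) hNT)))))) (K := 160)
    (by decide +kernel) ha hb (by norm_num) <| by
    simp only [crosswN, uN, wN, xN, yN, sem_dN5T, sem_ePT, sem_gPT, sem_hNT, sem_pPT, sem_qPT, sem_sPT, E.sem]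
    push_cast
    ring

lemma monoN_dx {a b : ℝ} (ha : a ∈ Icc (0 : ℝ) 1) (hb : b ∈ Icc (0 : ℝ) 1) :
    0 ≤ monoN a b 1 0 - monoN a b 0 0 :=
  E.nonneg_of_scaled (p := (.add (.add (.add (.mul (.mul (.mul (.mul (.k 2) (.add (.k 1) ePT)) qPT) pPT) (.mul (.k 5) (.pow sPT 5))) (.neg (.mul (.mul (.mul (.k 2) (.add (.k 1) ePT)) (.pow gPT 2)) (.add dN5T (.neg (.pow sPT 5)))))) (.mul (.mul (.k 4) pPT) (.mul (.mul (.mul (.k 2) (.add (.k 1) ePT)) qPT) (.add dN5T (.neg (.pow sPT 5)))))) (.neg (.add (.add (.mul (.k 4) (.k 0)) (.neg (.mul (.mul (.mul (.k 2) (.add (.k 1) ePT)) (.pow gPT 2)) dN5T))) (.mul (.mul (.k 4) pPT) (.mul (.mul (.mul (.k 2) (.add (.k 1) ePT)) qPT) dN5T)))))) (K := 4)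
    (by decide +kernel) ha hb (by norm_num) <| by
    simp only [monoN, uN, wN, xN, yN, sem_dN5T, sem_ePT, sem_gPT, sem_pPT, sem_qPT, sem_sPT, E.sem]
    push_cast
    ring

end Vale.Agent.P219.CH.Relax.Six.OutP
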