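import Vale.Agent.P219.Relax.Six.OutTree

/-!
# P219, dimension six: signs beyond the diameter

Each is nonnegative in the Bernstein basis of the unit square of `(a, b)`, by the kernel check.
-/

noncomputable section

open Set

namespace Vale.Agent.P219.CH.Relax.Six.OutP

open Vale.Agent.P219.Poly (E)

lemma crossN_11 {a b : ℝ} (ha : a ∈ Icc (0 : ℝ) 1) (hb : b ∈ Icc (0 : ℝ) 1) :
    0 ≤ crossN a b (8 / 25) ((1 - eP a b) ^ 2) :=
  E.nonneg_of_scaled (p := (.add (.mul (.k 8) (.mul (.add (.mul (.k 2) (.k 5)) (.neg (.mul (.k 2) gPT))) (.mul (.mul (.mul (.k 2) (.add (.k 1) ePT)) qPT) (.add (.mul (.k 25) dN5T) (.neg (.add (.mul (.k 8) (.pow sPT 5)) (.mul (.k 25) (.mul (.pow (.add (.k 1) (.neg ePT)) 2) (.add (.mul (.pow sPT 3) (.pow dPT 2)) (.neg (.pow sPT 5))))))))))) (.neg (.mul (.k 5) (.mul (.add (.mul (.k 5) (.add (.mul (.k 2) (.k 1)) (.neg pPT))) (.mul (.k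 3) gPT)) hNT))))) (K := 800)
    (by decide +kernel) ha hb (by norm_num) <| by
    simp only [crossN, uN, xN, sem_dN5T, sem_dPT, sem_ePT, sem_gPT, sem_hNT, sem_pPT, sem_qPT, sem_sPT, E.sem]
    push_cast
    ring

lemma dom {a b : ℝ} (ha : a ∈ Icc (0 : ℝ) 1) (hb : b ∈ Icc (0 : ℝ) 1) :
    0 ≤ domN a b :=
  E.nonneg_of_scaled (p := (.add (.add (.add (.mul (.k 200) (.mul (.mul (.add (.add (.add (.mul (.mul (.k 10) dPT) (.pow (.mul (.k 2) qPT) 2)) (.mul (.k 2) (.mul (.mul (.k 6) (.mul (.k 2) qPT)) dPT))) (.neg (.mul (.mul (.k 8) dPT) (.pow (.mul (.k 2) qPT) 2)))) (.neg (.mul (.k 4) (.mul (.mul (.k 2) dPT) (.pow sPT 2))))) (.mul (.k 2) (.add (.k 1) ePT))) (.pow dPT 5))) (.neg (.mul (.mul (.mul (.mul (.mul (.k 5) ePT) (.mul sPT (.mul (.add (.mul (.add (.k 25) (.mul (.k 65) ePT)) (.pow dPT 2)) (.mul (.add (.k 1) (.neg (.mul (.k 39) ePT))) (.pow sPT 2))) (.k 1))))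 (.pow (.mul (.k 2) qPT) 2)) (.add (.mul (.k 5) qPT) (.mul (.k 2) (.mul sPT (.k 1))))) dPT))) (.neg (.mul (.mul (.mul (.mul (.pow sPT 5) (.k 5)) (.pow (.mul (.k 2) qPT) 2)) (.add (.mul (.k 40) (.k 6)) (.neg (.mul (.k 91) ePT)))) (.mul (.k 2) (.add (.k 1) ePT))))) (.mul (.k 8) (.mul (.mul (.mul (.k 8) (.mul (.k 2) (.add (.k 1) ePT))) (.pow sPT 5)) (.add (.add (.add (.add (.mul (.k 2) (.mul (.mul (.k (-6)) (.mul (.k 2) qPT)) dPT)) (.mul (.mul (.k 8) dPT) (.pow (.mul (.k 2) qPT) 2))) (.mul (.k 4) (.mul (.mul (.k 2) dPT) (.pow sPT 2)))) (.mul (.mul (.mul (.k 20) pPT) (.mul (.k 2) qPT)) dPT)) (.neg (.mul (.k 14) (.pow (.mul (.k 2) qPT) 2)))))))) (K := 800)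
    (by decide +kernel) ha hb (by norm_num) <| by
    simp only [domN, sem_dPT, sem_ePT, sem_pPT, sem_qPT, sem_sPT, E.sem]
    push_cast
    ring

lemma zeroN_00 {a b : ℝ} (ha : a ∈ Icc (0 : ℝ) 1) (hb : b ∈ Icc (0 : ℝ) 1) :
    0 ≤ zeroN a b (-(3 / 25)) 0 :=
  E.nonneg_of_scaled (p := (.add (.mul (.k 2) (.add (.mul (.k 5) (.mul (.mul (.mul (.mul (.k 2) (.add (.k 1) ePT)) qPT) pPT) (.mul (.k (-3)) (.pow sPT 5)))) (.neg (.mul (.mul (.mul (.k 2) (.add (.k 1) ePT)) (.pow gPT 2)) (.add (.mul (.k 25) dN5T) (.neg (.mul (.k (-3)) (.pow sPT 5)))))))) (.mul (.add (.mul (.k 2) (.k 5)) (.neg (.mul (.k 2) pPT))) (.mul (.mul (.mul (.k 2) (.add (.k 1) ePT)) qPT) (.add (.mul (.k 25) dN5T) (.neg (.mul (.k (-3)) (.pow sPT 5)))))))) (K := 100)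
    (by decide +kernel) ha hb (by norm_num) <| by
    simp only [uN, wN, xN, yN, zeroN, sem_dN5T, sem_ePT, sem_gPT, sem_pPT, sem_qPT, sem_sPT, E.sem]
    push_cast
    ring

lemma convN_00 {a b : ℝ} (ha : a ∈ Icc (0 : ℝ) 1) (hb : b ∈ Icc (0 : ℝ) 1) :
    0 ≤ convN a b (-(3 / 25)) 0 :=
  E.nonneg_of_scaled (p := (.add (.add (.add (.mul (.k 8) (.add (.mul (.k 25) (.mul (.k 3) mNT)) (.mul (.k 3) (.add (.mul (.k 5) (.mul (.mul (.mul (.mul (.k 2) (.add (.k 1) ePT)) qPT) pPT) (.mul (.k (-3)) (.pow sPT 5)))) (.neg (.mul (.mul (.mul (.k 2) (.add (.k 1) ePT)) (.pow gPT 2)) (.add (.mul (.k 25) dN5T) (.neg (.mul (.k (-3)) (.pow sPT 5)))))))))) (.neg (.mul (.k 5) (.mul (.k 2) vNT)))) (.mul (.k 8) (.mul (.add (.mul (.k 12) pPT) (.neg (.mul (.k 2) (.k 5)))) (.mul (.mul (.mul (.k 2) (.add (.k 1) ePT)) qPT) (.add (.mul (.k 25) dN5T) (.neg (.mul (.k (-3)) (.pow sPT 5))))))))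 (.mul (.k 5) (.mul (.add (.add (.mul (.k 8) pPT) (.neg (.mul (.k 2) (.k 5)))) (.neg gPT)) hNT)))) (K := 800)
    (by decide +kernel) ha hb (by norm_num) <| by
    simp only [convN, uN, wN, xN, yN, sem_dN5T, sem_ePT, sem_gPT, sem_hNT, sem_mNT, sem_pPT, sem_qPT, sem_sPT, sem_vNT, E.sem]
    push_cast
    ring

lemma topN_dk {a b : ℝ} (ha : a ∈ Icc (0 : ℝ) 1) (hb : b ∈ Icc (0 : ℝ) 1) :
    0 ≤ topN a b 0 1 - topN a b 0 0 :=
  E.nonneg_of_scaled (p := (.add (.add (.add mNT (.neg (.mul (.mul (.k 5) (.add (.mul (.k 2) (.k 1)) (.neg pPT))) (.mul (.mul (.mul (.k 2) (.add (.k 1) ePT)) qPT) (.add dN5T (.neg (.add (.mul (.pow sPT 3) (.pow dPT 2)) (.neg (.pow sPT 5))))))))) (.mul gPT (.mul (.mul (.mul (.k 2) (.add (.k 1) ePT)) qPT) (.add dN5T (.neg (.add (.mul (.pow sPT 3) (.pow dPT 2)) (.neg (.pow sPT 5)))))))) (.neg (.add (.add mNT (.neg (.mul (.mul (.k 5) (.add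 (.mul (.k 2) (.k 1)) (.neg pPT))) (.mul (.mul (.mul (.k 2) (.add (.k 1) ePT)) qPT) dN5T)))) (.mul gPT (.mul (.mul (.mul (.k 2) (.add (.k 1) ePT)) qPT) dN5T)))))) (K := 4)
    (by decide +kernel) ha hb (by norm_num) <| by
    simp only [topN, uN, xN, sem_dN5T, sem_dPT, sem_ePT, sem_gPT, sem_mNT, sem_pPT, sem_qPT, sem_sPT, E.sem]
    push_cast
    ring

lemma posN_dk {a b : ℝ} (ha : a ∈ Icc (0 : ℝ) 1) (hb : b ∈ Icc (0 : ℝ) 1) :
    0 ≤ posN a b 0 0 - posN a b 0 1 :=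
  E.nonneg_of_scaled (p := (.add dN5T (.neg (.add dN5T (.neg (.add (.mul (.pow sPT 3) (.pow dPT 2)) (.neg (.pow sPT 5)))))))) (K := 1)
    (by decide +kernel) ha hb (by norm_num) <| by
    simp only [posN, xN, sem_dN5T, sem_dPT, sem_sPT, E.sem]
    push_cast
    ring

end Vale.Agent.P219.CH.Relax.Six.OutP
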