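import Vale.Agent.P219.Relax.Six.Pt
import Vale.Agent.P219.Relax.Six.OutPolyA
import Vale.Agent.P219.Relax.Six.OutPolyB
import Vale.Agent.P219.Relax.Six.OutPolyC
import Vale.Agent.P219.Relax.Six.OutPolyD

/-!
# P219, dimension six: the facts beyond the diameter

In `U + G`, `-G`, `U' + G'` and `G'` every fact follows from linear bounds; these are affine in the
two constants and are certified at corners of their box.
-/

noncomputable section

open Set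

namespace Vale.Agent.P219.CH.Relax.Six

open Five (Pt OutRange)

/-! ## The facts from linear bounds -/

/-- Linear bounds on the data of a point. -/
structure Raw (o : Pt) : Prop where
  g_nonneg : 0 ≤ o.g
  g_le : o.g ≤ 1 / 2
  p_nonneg : 0 ≤ o.p
  p_le : o.p ≤ 1
  pos : 0 < o.U + o.G
  nonpos : o.G ≤ 0
  v_le₁ : o.G' ≤ 3 * (o.p * -o.G)
  v_le₂ : o.G' ≤ 3 / 2 * -o.G
  w_mono : 0 ≤ o.U' + o.G' + 4 * o.p * (o.U + o.G)
  w_zero : 0 ≤ 2 * (o.U' + o.G') + (5 - 2 * o.p) * (o.U + o.G)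
  mid : 0 ≤ 2 + (o.U' + o.G') + (9 * o.p - 5) * (o.U + o.G) - (5 - 5 * o.p + o.g) * -o.G
  cross : (5 * (1 - o.p) + 3 * o.g) * -o.G ≤ (5 - 2 * o.g) * (o.U + o.G)
  cross_w : (5 * (1 - o.p) + 3 * o.g) * -o.G ≤
    (5 + o.p - 2 * o.g) * (o.U + o.G) - (o.U' + o.G')
  top : 0 ≤ 1 - 5 * (1 - o.p) * (o.U + o.G) + o.g * (o.U + o.G)
  convex : 0 ≤ 3 + 3 * (o.U' + o.G') - 2 * o.G' + (12 * o.p - 5) * (o.U + o.G) +
    (8 * o.p - 5 - o.g) * -o.G
  slope_le : slope o 1 ≤ 0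

variable {o : Pt}

lemma diag_at_one (o : Pt) : diag o 1 = 1 - 5 * (1 - o.p) * (o.U + o.G) := by
  simp only [diag, k0, k1, k2, k3]
  ring

lemma diag_tangent_one (h0 : 0 ≤ k0 o) (h1 : 0 ≤ 3 * k0 o + k1 o) {c : ℝ}
    (hc : c ∈ Icc (0 : ℝ) 1) :
    c ^ 2 * (diag o 1 + slope o 1 * (c - 1)) ≤ diag o c := by
  obtain ⟨hc0, hc1⟩ := hc
  have e : diag o c - c ^ 2 * (diag o 1 + slope o 1 * (c - 1)) =
      (1 - c) ^ 2 * ((1 - c) * k0 o + c * (3 * k0 o + k1 o)) := by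
    simp only [diag, slope]
    ring
  have := mul_nonneg (sq_nonneg (1 - c))
    (add_nonneg (mul_nonneg (sub_nonneg.2 hc1) h0) (mul_nonneg hc0 h1))
  linarith

lemma Raw.endc (h : Raw o) : EndCond o 1 := by
  intro c hc
  obtain ⟨hc0, hc1⟩ := hc
  have e : symE o c - c * (2 * diag o 1 / 1 ^ 2 + slope o 1 * (c + 1 - 2 * 1)) =
      (1 - c) * ((1 - c) * (2 + (o.U' + o.G') + (9 * o.p - 5) * (o.U + o.G) -
          (5 - 5 * o.p + o.g) * -o.G) + o.g * -o.G * ((2 * c + 2) / (3 + c))) := by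
    have : (3 : ℝ) + c ≠ 0 := by linarith
    simp only [symE, diag, slope, ker, k0, k1, k2, k3]
    field_simp
    ring
  have h1 : 0 ≤ o.g * -o.G * ((2 * c + 2) / (3 + c)) :=
    mul_nonneg (mul_nonneg h.g_nonneg (neg_nonneg.2 h.nonpos))
      (div_nonneg (by linarith) (by linarith))
  linarith [mul_nonneg (sub_nonneg.2 hc1)
    (add_nonneg (mul_nonneg (sub_nonneg.2 hc1) h.mid) h1)]

/-- A point in the four combinations that carry signs. -/
def ptW (u H w v p g : ℝ) : Pt := ⟨u + H, w - v, -H, v, p, g⟩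

lemma exists_ptW (o : Pt) : ∃ u H w v p g, o = ptW u H w v p g :=
  ⟨o.U + o.G, -o.G, o.U' + o.G', o.G', o.p, o.g, by
    obtain ⟨U, U', G, G', p, g⟩ := o
    simp [ptW]⟩

lemma ptW_sums (u H w v p g : ℝ) : (ptW u H w v p g).U + (ptW u H w v p g).G = u ∧
    (ptW u H w v p g).U' + (ptW u H w v p g).G' = w ∧ -(ptW u H w v p g).G = H := by
  refine ⟨?_, ?_, ?_⟩ <;> simp [ptW]

variable {u H w v p g : ℝ}

lemma Raw.facts (h : Raw (ptW u H w v p g)) : 0 ≤ g ∧ g ≤ 1 / 2 ∧ 0 ≤ p ∧ p ≤ 1 ∧ 0 < u ∧ 0 ≤ H ∧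
    v ≤ 3 * (p * H) ∧ v ≤ 3 / 2 * H ∧ 0 ≤ w + 4 * p * u := by
  obtain ⟨eu, ew, eH⟩ := ptW_sums u H w v p g
  obtain ⟨hg0, hg1, hp0, hp1, hpos, hneg, hv1, hv2, hw, -, -, -, -, -, -, -⟩ := h
  rw [eu] at hpos hw
  rw [ew] at hw
  rw [eH] at hv1 hv2
  simp only [ptW] at hg0 hg1 hp0 hp1 hneg hv1 hv2 hw
  exact ⟨hg0, hg1, hp0, hp1, hpos, neg_nonpos.1 hneg, hv1, hv2, hw⟩

lemma Raw.zero' (h : Raw (ptW u H w v p g)) {c : ℝ} (hc : c ∈ Icc (0 : ℝ) 1) :
    0 ≤ symB (ptW u H w v p g) c 0 := by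
  obtain ⟨hg0, hg1, hp0, hp1, hu, hH, -, hv2, -⟩ := h.facts
  have hm : 0 ≤ 2 + w + (9 * p - 5) * u - (5 - 5 * p + g) * H := by
    simpa [ptW] using h.mid
  have hz : 0 ≤ 2 * w + (5 - 2 * p) * u := by simpa [ptW] using h.w_zero
  obtain ⟨hc0, hc1⟩ := hc
  have e : symB (ptW u H w v p g) c 0 =
      (2 + w + (9 * p - 5) * u - (5 - 5 * p + g) * H + g * H / 2) +
        (1 - c) * ((1 + c) * w - (2 + c) * v + (u + H) * (5 - p - p * c) + 4 * p * H +
          g * H * (1 - c - c ^ 2) / 2) := by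
    simp only [symB, ker, ptW, abs_of_nonneg hc0, abs_zero]
    ring
  have hpH : 0 ≤ p * H := mul_nonneg hp0 hH
  have hgH : 0 ≤ g * H := mul_nonneg hg0 hH
  have a2 : (2 + c) * v ≤ (2 + c) * (3 / 2 * H) := mul_le_mul_of_nonneg_left hv2 (by linarith)
  have a3 := mul_le_mul_of_nonneg_right hc1 hpH
  have a4 := mul_le_mul_of_nonneg_right hc1 hH
  have a5 : 0 ≤ g * H * ((2 - c - c ^ 2) / 2) := by
    have : 0 ≤ (2 - c - c ^ 2) / 2 := by nlinarith
    positivity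
  have a6 := mul_nonneg (sub_nonneg.2 hc1) hu.le
  have a7 := mul_nonneg hc0 hz
  have a8 := mul_nonneg (sub_nonneg.2 hc1) hz
  have a9 := mul_le_mul_of_nonneg_right hg1 hH
  have key : 0 ≤ (1 + c) * w - (2 + c) * v + (u + H) * (5 - p - p * c) + 4 * p * H +
      g * H * (1 - c - c ^ 2) / 2 := by linarith
  rw [e]
  linarith [mul_nonneg (sub_nonneg.2 hc1) key]

lemma Raw.mixed' (h : Raw (ptW u H w v p g)) {c d : ℝ} (hc : c ∈ Icc (0 : ℝ) 1)
    (hd : d ∈ Icc (0 : ℝ) 1) : 2 * (c * d) * (g * (u + H)) ≤ symB (ptW u H w v p g) c (-d) := by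
  have hzero := h.zero' hc
  obtain ⟨hg0, hg1, hp0, hp1, hu, hH, -, hv2, -⟩ := h.facts
  have hcr : (5 * (1 - p) + 3 * g) * H ≤ (5 - 2 * g) * u := by
    simpa [ptW] using h.cross
  have hcw : (5 * (1 - p) + 3 * g) * H ≤ (5 + p - 2 * g) * u - w := by
    simpa [ptW] using h.cross_w
  obtain ⟨hc0, hc1⟩ := hc
  obtain ⟨hd0, hd1⟩ := hd
  have e : symB (ptW u H w v p g) c (-d) - 2 * (c * d) * (g * (u + H)) =
      symB (ptW u H w v p g) c 0 + d * (-(d * w) -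
        v * ((1 - c) * (1 + c - d)) + u * (p * d + 5 - 2 * g * c) +
        H * (p * d + 5 + p * (4 + c ^ 2 - c * d) - 10 * c -
          g * (1 - c ^ 2 / 2 - d ^ 2 / 2 - c * d / 2) - 2 * g * c)) := by
    simp only [symB, ker, ptW, abs_of_nonneg hc0, abs_neg, abs_of_nonneg hd0, abs_zero]
    ring
  have hpH : 0 ≤ p * H := mul_nonneg hp0 hH
  have hk : 0 ≤ (1 - c) * (1 + c - d) := mul_nonneg (sub_nonneg.2 hc1) (by linarith)
  have a1 := mul_le_mul_of_nonneg_right hcw hd0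
  have a1' := mul_le_mul_of_nonneg_right hcr (sub_nonneg.2 hd1)
  have a2 : v * ((1 - c) * (1 + c - d)) ≤ 3 * ((1 - c) * H) := by
    have := mul_le_mul_of_nonneg_right hv2 hk
    linarith [mul_le_mul_of_nonneg_left (show 1 + c - d ≤ 2 by linarith)
      (mul_nonneg (sub_nonneg.2 hc1) hH)]
  have a4 := mul_le_mul_of_nonneg_right hc1 (mul_nonneg hg0 hu.le)
  have a5 := mul_nonneg (mul_nonneg hd0 (sub_nonneg.2 hc1)) hpH
  have a6 : 0 ≤ g * H * (2 * (1 - c) + c ^ 2 / 2 + d ^ 2 / 2 + c * d / 2) := by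
    have : 0 ≤ 2 * (1 - c) + c ^ 2 / 2 + d ^ 2 / 2 + c * d / 2 := by
      linarith [sq_nonneg c, sq_nonneg d, mul_nonneg hc0 hd0]
    positivity
  have a7 : (1 - c) * (1 + c) * (p * H) ≤ 2 * ((1 - c) * (p * H)) := by
    linarith [mul_le_mul_of_nonneg_left (show 1 + c ≤ 2 by linarith)
      (mul_nonneg (sub_nonneg.2 hc1) hpH)]
  have a8 := mul_le_mul_of_nonneg_left (mul_le_of_le_one_left hH hp1) (sub_nonneg.2 hc1)
  have a9 := mul_nonneg (sub_nonneg.2 hc1) hH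
  have key : 0 ≤ -(d * w) - v * ((1 - c) * (1 + c - d)) +
      u * (p * d + 5 - 2 * g * c) + H * (p * d + 5 + p * (4 + c ^ 2 - c * d) - 10 * c -
        g * (1 - c ^ 2 / 2 - d ^ 2 / 2 - c * d / 2) - 2 * g * c) := by
    linarith
  linarith [mul_nonneg hd0 key]

lemma Raw.outward' (h : Raw (ptW u H w v p g)) {c d : ℝ} (hc : c ∈ Icc (0 : ℝ) 1)
    (hd : d ∈ Icc (0 : ℝ) 1) : 0 ≤ symB (ptW u H w v p g) (-c) (-d) := by
  obtain ⟨hg0, hg1, hp0, hp1, hu, hH, hv1, -, hw⟩ := h.facts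
  obtain ⟨hc0, hc1⟩ := hc
  obtain ⟨hd0, hd1⟩ := hd
  have e : symB (ptW u H w v p g) (-c) (-d) = 2 + (2 - c ^ 2 - d ^ 2) * w -
      v * ((2 - c ^ 2 - d ^ 2) + (c + d) * (1 - c * d)) +
      u * (p * (8 + c ^ 2 + d ^ 2) + 5 * (c + d)) +
      H * (p * (8 + c ^ 2 + d ^ 2) + 5 * (c + d) + p * (c + d) * (4 + c * d) + 10 * (c * d) -
        g * (c + d) * (1 - (c ^ 2 + d ^ 2) / 2)) := by
    simp only [symB, ker, ptW, abs_neg, abs_of_nonneg hc0, abs_of_nonneg hd0]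
    ring
  have hpu : 0 ≤ p * u := mul_nonneg hp0 hu.le
  have hpH : 0 ≤ p * H := mul_nonneg hp0 hH
  have hc2 : c ^ 2 ≤ 1 := pow_le_one₀ hc0 hc1
  have hd2 : d ^ 2 ≤ 1 := pow_le_one₀ hd0 hd1
  have hcd : c * d ≤ 1 := mul_le_one₀ hc1 hd0 hd1
  have hS : 0 ≤ 2 - c ^ 2 - d ^ 2 := by linarith
  have a1 := mul_nonneg hS hw
  have a1' := mul_nonneg (show 0 ≤ c ^ 2 + d ^ 2 by positivity) hpu
  have hk : 0 ≤ (2 - c ^ 2 - d ^ 2) + (c + d) * (1 - c * d) :=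
    add_nonneg hS (mul_nonneg (by linarith) (by linarith))
  have hk' : (2 - c ^ 2 - d ^ 2) + (c + d) * (1 - c * d) ≤ 2 + (c + d) := by
    linarith [mul_nonneg (add_nonneg hc0 hd0) (mul_nonneg hc0 hd0), sq_nonneg c, sq_nonneg d]
  have a2 : v * ((2 - c ^ 2 - d ^ 2) + (c + d) * (1 - c * d)) ≤
      3 * ((2 + (c + d)) * (p * H)) := by
    have := mul_le_mul_of_nonneg_right hv1 hk
    linarith [mul_le_mul_of_nonneg_right hk' hpH]
  have a4 := mul_nonneg (show 0 ≤ c ^ 2 + d ^ 2 by positivity) hpH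
  have a5 := mul_nonneg (add_nonneg hc0 hd0) hu.le
  have a6 := mul_nonneg (mul_nonneg (add_nonneg hc0 hd0) (mul_nonneg hc0 hd0)) hpH
  have a6' := mul_nonneg (add_nonneg hc0 hd0) hpH
  have a7 := mul_nonneg (mul_nonneg hc0 hd0) hH
  have a8 : g * (c + d) * (1 - (c ^ 2 + d ^ 2) / 2) * H ≤ (c + d) * H := by
    have h1 : g * (1 - (c ^ 2 + d ^ 2) / 2) ≤ 1 := by
      linarith [mul_nonneg hg0 (show 0 ≤ c ^ 2 + d ^ 2 by positivity)]
    linarith [mul_le_mul_of_nonneg_left h1 (mul_nonneg (add_nonneg hc0 hd0) hH)]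
  have a9 := mul_nonneg (add_nonneg hc0 hd0) hH
  linarith

lemma Raw.good (h : Raw o) : GoodPt o := by
  obtain ⟨u, H, w, v, p, g, rfl⟩ := exists_ptW o
  obtain ⟨hg0, hg1, hp0, hp1, hu, hH, hv1, -, hw⟩ := h.facts
  have hpH0 : 0 ≤ p * H := mul_nonneg hp0 hH
  have hk0 : 0 ≤ k0 (ptW u H w v p g) := by
    simp only [k0, ptW]
    linarith
  have hconv : 0 ≤ 3 + 3 * w - 2 * v + (12 * p - 5) * u + (8 * p - 5 - g) * H := by
    simpa [ptW] using h.convex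
  have hk1 : 0 ≤ 3 * k0 (ptW u H w v p g) + k1 (ptW u H w v p g) := by
    simp only [k0, k1, ptW]
    linarith
  refine ⟨?_, ?_, ?_, hk0, hk1, fun c hc => h.zero' hc, ?_, ?_,
    fun c hc d hd => h.mixed' hc hd, fun c hc d hd => h.outward' hc hd⟩
  · rw [(ptW_sums u H w v p g).1]; exact hu
  · exact neg_nonpos.2 hH
  · simp only [ptW]
    linarith
  · intro c hc
    have h1 := diag_tangent_one hk0 hk1 hc
    rw [diag_at_one] at h1
    obtain ⟨hc0, hc1⟩ := hc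
    have h2 := mul_nonneg (sq_nonneg c) h.top
    have h3 := mul_nonneg (sq_nonneg c)
      (mul_nonneg_of_nonpos_of_nonpos h.slope_le (sub_nonpos.2 hc1))
    linarith
  · intro c hc
    have h1 := h.endc c hc
    rw [diag_at_one] at h1
    obtain ⟨hc0, hc1⟩ := hc
    have h2 := mul_nonneg hc0 h.top
    have h3 := mul_nonneg hc0 (mul_nonneg_of_nonpos_of_nonpos h.slope_le (sub_nonpos.2 hc1))
    linarith

/-! ## The numerators -/

open OutP in
lemma numerators {a b XL K : ℝ} (hd : dP a b ≠ 0) (hq : qP a b ≠ 0) (he : 1 + eP a b ≠ 0) :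
    mN a b * ((ptOut (eP a b) XL K (pP a b) (gP a b)).U +
        (ptOut (eP a b) XL K (pP a b) (gP a b)).G) = uN a b XL K ∧
      mN a b * ((ptOut (eP a b) XL K (pP a b) (gP a b)).U' +
        (ptOut (eP a b) XL K (pP a b) (gP a b)).G') = wN a b XL K ∧
      mN a b * -(ptOut (eP a b) XL K (pP a b) (gP a b)).G = hN a b ∧
      mN a b * (ptOut (eP a b) XL K (pP a b) (gP a b)).G' = vN a b := by
  simp only [ptOut, HF, HF', XF, XF', ratF, mN, uN, wN, hN, vN, xN, yN, dN5, sP]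
  rw [show 1 - eP a b = dP a b from rfl, show 1 - pP a b = qP a b from rfl,
    show 2 * gP a b = a * (1 - b) by rw [gP]; ring]
  refine ⟨?_, ?_, ?_, ?_⟩ <;> field_simp <;> ring

/-! ## The slope -/

/-- The slope at the join, reversed and times `1 - e`. -/
def joinS (e XL K : ℝ) : ℝ := 6 / 5 - 91 / 200 * e + 14 / 5 * XL - 4 / 5 * (1 + e) * K

lemma slope_join_eq {e XL K : ℝ} (he : e ∈ Ioo (0 : ℝ) 1) :
    slope (ptOut e XL K ((1 + e) / 2) ((1 - e) / 2)) 1 = -joinS e XL K / (1 - e) := by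
  have h1 : (1 : ℝ) - e ≠ 0 := by linarith [he.2]
  have h2 : (1 : ℝ) + e ≠ 0 := by linarith [he.1]
  have h3 : (1 : ℝ) - (1 + e) / 2 = (1 - e) / 2 := by ring
  have h4 : ratF e ((1 - e) / 2) = 1 := by rw [ratF]; field_simp
  simp only [slope, k0, k1, k3, ptOut, h4, h3, HF, HF', XF, XF', joinS]
  field_simp
  ring

lemma joinS_nonneg {e XL K : ℝ} (he : e ∈ Ioo (0 : ℝ) 1) (h : OutHyp e XL K) :
    0 ≤ joinS e XL K := by
  obtain ⟨⟨hx, -⟩, -, hk⟩ := h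
  have h1 := mul_le_mul_of_nonneg_left hk (show (0 : ℝ) ≤ 4 / 5 * (1 + e) by linarith [he.1])
  have h2 : (1 + e) * (1 - e) ^ 2 ≤ 1 - e ^ 2 := by
    nlinarith [mul_nonneg (mul_nonneg he.1.le (sub_nonneg.2 he.2.le))
      (show (0 : ℝ) ≤ 1 + e by linarith [he.1])]
  rw [joinS]
  nlinarith [sq_nonneg (8 * e - 7 / 2), he.1, he.2]

open OutP in
/-- The slope beyond the diameter is at most its scaled value at the join. -/
lemma slope_dom {a b XL K : ℝ} (ha : a ∈ Icc (0 : ℝ) 1) (hb : b ∈ Icc (0 : ℝ) 1)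
    (he : eP a b ∈ Ioo (0 : ℝ) 1) (hs : sP a b ≤ dP a b) (hp : pP a b ≤ (1 + eP a b) / 2)
    (h : OutHyp (eP a b) XL K) :
    slope (ptOut (eP a b) XL K (pP a b) (gP a b)) 1 ≤
      -(ratF (eP a b) (gP a b) ^ 5 * joinS (eP a b) XL K / dP a b) := by
  obtain ⟨⟨-, hx⟩, hk0, -⟩ := h
  obtain ⟨d, hd⟩ : ∃ d, d = dP a b := ⟨_, rfl⟩
  obtain ⟨o, ho⟩ : ∃ o, o = 2 * qP a b / d := ⟨_, rfl⟩
  obtain ⟨s, hsd⟩ : ∃ s, s = sP a b / d := ⟨_, rfl⟩
  have hd0 : 0 < d := by rw [hd, dP]; linarith [he.2]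
  have hd1 : d ≤ 1 := by rw [hd, dP]; linarith [he.1]
  have hE : 0 < 1 + eP a b := by linarith [he.1]
  have hs0 : 0 ≤ s := hsd ▸ div_nonneg (mul_nonneg ha.1 (sub_nonneg.2 hb.2)) hd0.le
  have hs1 : s ≤ 1 := by rw [hsd, div_le_one hd0, hd]; exact hs
  have hpd : pP a b = 1 - d * o / 2 := by rw [ho, qP]; field_simp; ring
  have hed : eP a b = 1 - d := by rw [hd, dP]; ring
  have ho1 : 1 ≤ o := by
    rw [ho, le_div_iff₀ hd0, hd, dP, qP]
    linarith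
  have hrat : ratF (eP a b) (gP a b) = s := by
    rw [ratF, hsd, hd, dP, gP, sP]
    ring
  obtain ⟨D, hD⟩ : ∃ D, D = 2 * d + 6 / (5 * o) - 8 * d / 5 - 2 * d * s ^ 2 / (5 * o ^ 2) -
      eP a b * (s * (((25 + 65 * eP a b) + (1 - 39 * eP a b) * s ^ 2) / 20) / (2 * (1 + eP a b))) *
        (o / 2 + s / 5) - s ^ 5 * (6 / 5 - 91 / 200 * eP a b) +
      8 / 25 * s ^ 5 * (-6 / (5 * o) + 8 * d / 5 + 2 * d * s ^ 2 / (5 * o ^ 2) +
        4 * pP a b / o - 14 / 5) := ⟨_, rfl⟩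
  have hD0 : 0 ≤ D := by
    refine nonneg_of_mul_nonneg_right (a := 5 * o ^ 2 * (2 * (1 + eP a b)) * d ^ 7) ?_
      (by positivity)
    refine (dom ha hb).trans_eq ?_
    rw [hD, ho, hsd, hd, domN]
    have : dP a b ≠ 0 := hd ▸ hd0.ne'
    have : qP a b ≠ 0 := by
      intro h0
      rw [h0, mul_zero, zero_div] at ho
      linarith
    field_simp
    ring
  have eg : gP a b = d * s / 2 := by rw [hsd, gP, sP]; field_simp
  have e1 : -(slope (ptOut (eP a b) XL K (pP a b) (gP a b)) 1) * d -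
      s ^ 5 * joinS (eP a b) XL K = D + (8 / 25 - XL) * (s ^ 5 * (14 / 5 - (-6 / (5 * o) +
        8 * d / 5 + 2 * d * s ^ 2 / (5 * o ^ 2) + 4 * pP a b / o))) +
      K * ((s ^ 3 - s ^ 5) * ((6 + 2 * d * o) / (5 * o) + 2 * d * s ^ 2 / (5 * o ^ 2)) +
        s ^ 5 * (4 * (1 + eP a b) / 5 - 8 * pP a b / (5 * o))) := by
    have hrat' : ratF (1 - d) (d * s / 2) = s := by rw [← hed, ← eg]; exact hrat
    simp only [slope, k0, k1, k3, ptOut, hrat', HF, HF', XF, XF', joinS, hD, eg, hpd, hed,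
      sub_sub_cancel]
    have : (0 : ℝ) < 1 + (1 - d) := by linarith
    field_simp
    ring
  have h2 : -6 / (5 * o) + 8 * d / 5 + 2 * d * s ^ 2 / (5 * o ^ 2) + 4 * pP a b / o ≤ 14 / 5 := by
    have e2 : 14 / 5 - (-6 / (5 * o) + 8 * d / 5 + 2 * d * s ^ 2 / (5 * o ^ 2) +
        4 * pP a b / o) = (14 * o * (o - 1) + 2 * d * (o ^ 2 - s ^ 2)) / (5 * o ^ 2) := by
      rw [hpd]
      field_simp
      ring
    have hso : s ^ 2 ≤ o ^ 2 := pow_le_pow_left₀ hs0 (hs1.trans ho1) 2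
    have := div_nonneg (add_nonneg (mul_nonneg (show 0 ≤ 14 * o by linarith) (sub_nonneg.2 ho1))
      (mul_nonneg (show 0 ≤ 2 * d by linarith) (sub_nonneg.2 hso))) (show 0 ≤ 5 * o ^ 2 by positivity)
    linarith
  have h3 : 0 ≤ 4 * (1 + eP a b) / 5 - 8 * pP a b / (5 * o) := by
    have hp0 : 0 ≤ pP a b := by
      rw [pP]
      exact div_nonneg (mul_nonneg ha.1 (by linarith [hb.1])) zero_le_two
    have : 8 * pP a b / (5 * o) ≤ 8 * pP a b / 5 :=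
      div_le_div_of_nonneg_left (by linarith) (by norm_num) (by linarith)
    linarith
  have hs35 : 0 ≤ s ^ 3 - s ^ 5 :=
    sub_nonneg.2 (pow_le_pow_of_le_one hs0 hs1 (by norm_num))
  have hkey : 0 ≤ -(slope (ptOut (eP a b) XL K (pP a b) (gP a b)) 1) * d -
      s ^ 5 * joinS (eP a b) XL K := by
    rw [e1]
    have : 0 ≤ (6 + 2 * d * o) / (5 * o) + 2 * d * s ^ 2 / (5 * o ^ 2) := by positivity
    have := mul_nonneg (sub_nonneg.2 hx) (mul_nonneg (pow_nonneg hs0 5) (sub_nonneg.2 h2))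
    have := mul_nonneg hk0 (add_nonneg (mul_nonneg hs35 ‹0 ≤ (6 + 2 * d * o) / (5 * o) + _›)
      (mul_nonneg (pow_nonneg hs0 5) h3))
    linarith
  rw [hrat, ← hd, le_neg, div_le_iff₀ hd0]
  linarith

/-! ## The bounds at the corners -/

/-- An expression affine in both constants is nonnegative on the box if it is at the corners. -/
lemma of_corners {f : ℝ → ℝ → ℝ} (hf : ∀ x k, f x k = f 0 0 + x * (f 1 0 - f 0 0) +
      k * (f 0 1 - f 0 0)) {k₁ x k : ℝ} (hx : x ∈ Icc (-(3 / 25) : ℝ) (8 / 25))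
    (hk : k ∈ Icc 0 k₁) (hk₁ : 0 < k₁) (h₀₀ : 0 ≤ f (-(3 / 25)) 0) (h₁₀ : 0 ≤ f (8 / 25) 0)
    (h₀₁ : 0 ≤ f (-(3 / 25)) k₁) (h₁₁ : 0 ≤ f (8 / 25) k₁) : 0 ≤ f x k := by
  refine nonneg_of_mul_nonneg_right (a := 11 / 25 * k₁) ?_ (by positivity)
  have e : 11 / 25 * k₁ * f x k = (8 / 25 - x) * (k₁ - k) * f (-(3 / 25)) 0 +
      (8 / 25 - x) * k * f (-(3 / 25)) k₁ + (x + 3 / 25) * (k₁ - k) * f (8 / 25) 0 +
      (x + 3 / 25) * k * f (8 / 25) k₁ := by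
    rw [hf x k, hf (-(3 / 25)) 0, hf (8 / 25) 0, hf (-(3 / 25)) k₁, hf (8 / 25) k₁]
    ring
  have hx0 : 0 ≤ x + 3 / 25 := by linarith [hx.1]
  have hx1 := sub_nonneg.2 hx.2
  have hk0 := hk.1
  have hk2 := sub_nonneg.2 hk.2
  rw [e]
  positivity

open OutP in
lemma monoN_nonneg {a b x k : ℝ} (ha : a ∈ Icc (0 : ℝ) 1) (hb : b ∈ Icc (0 : ℝ) 1)
    (he : eP a b < 1) (hx : x ∈ Icc (-(3 / 25) : ℝ) (8 / 25))
    (hk : k ∈ Icc 0 ((1 - eP a b) ^ 2)) : 0 ≤ monoN a b x k := by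
  have hk₁ : 0 < (1 - eP a b) ^ 2 := pow_pos (by linarith) 2
  have A : ∀ x k, monoN a b x k = monoN a b 0 0 + x * (monoN a b 1 0 - monoN a b 0 0) +
      k * (monoN a b 0 1 - monoN a b 0 0) := fun x k => by
    simp only [monoN, wN, uN, xN, yN, dN5]
    ring
  refine of_corners A hx hk hk₁ ?_ ?_ ?_ ?_
  · linarith [monoN_01 ha hb,
      A (-(3 / 25)) 0,
      A (-(3 / 25)) ((1 - eP a b) ^ 2),
      mul_nonneg hk₁.le (monoN_dk ha hb)]
  · linarith [monoN_01 ha hb,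
      A (8 / 25) 0,
      A (-(3 / 25)) ((1 - eP a b) ^ 2),
      monoN_dx ha hb,
      mul_nonneg hk₁.le (monoN_dk ha hb)]
  · exact monoN_01 ha hb
  · linarith [monoN_01 ha hb,
      A (8 / 25) ((1 - eP a b) ^ 2),
      A (-(3 / 25)) ((1 - eP a b) ^ 2),
      monoN_dx ha hb]

open OutP in
lemma zeroN_nonneg {a b x k : ℝ} (ha : a ∈ Icc (0 : ℝ) 1) (hb : b ∈ Icc (0 : ℝ) 1)
    (he : eP a b < 1) (hx : x ∈ Icc (-(3 / 25) : ℝ) (8 / 25))
    (hk : k ∈ Icc 0 ((1 - eP a b) ^ 2)) : 0 ≤ zeroN a b x k := by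
  have hk₁ : 0 < (1 - eP a b) ^ 2 := pow_pos (by linarith) 2
  have A : ∀ x k, zeroN a b x k = zeroN a b 0 0 + x * (zeroN a b 1 0 - zeroN a b 0 0) +
      k * (zeroN a b 0 1 - zeroN a b 0 0) := fun x k => by
    simp only [zeroN, wN, uN, xN, yN, dN5]
    ring
  refine of_corners A hx hk hk₁ ?_ ?_ ?_ ?_
  · exact zeroN_00 ha hb
  · exact zeroN_10 ha hb
  · exact zeroN_01 ha hb
  · exact zeroN_11 ha hb

open OutP in
lemma midN_nonneg {a b x k : ℝ} (ha : a ∈ Icc (0 : ℝ) 1) (hb : b ∈ Icc (0 : ℝ) 1)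
    (he : eP a b < 1) (hx : x ∈ Icc (-(3 / 25) : ℝ) (8 / 25))
    (hk : k ∈ Icc 0 ((1 - eP a b) ^ 2)) : 0 ≤ midN a b x k := by
  have hk₁ : 0 < (1 - eP a b) ^ 2 := pow_pos (by linarith) 2
  have A : ∀ x k, midN a b x k = midN a b 0 0 + x * (midN a b 1 0 - midN a b 0 0) +
      k * (midN a b 0 1 - midN a b 0 0) := fun x k => by
    simp only [midN, wN, uN, xN, yN, dN5]
    ring
  refine of_corners A hx hk hk₁ ?_ ?_ ?_ ?_
  · exact midN_00 ha hb
  · linarith [midN_00 ha hb,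
      A (8 / 25) 0,
      A (-(3 / 25)) 0,
      midN_dx ha hb]
  · exact midN_01 ha hb
  · linarith [midN_01 ha hb,
      A (8 / 25) ((1 - eP a b) ^ 2),
      A (-(3 / 25)) ((1 - eP a b) ^ 2),
      midN_dx ha hb]

open OutP in
lemma crossN_nonneg {a b x k : ℝ} (ha : a ∈ Icc (0 : ℝ) 1) (hb : b ∈ Icc (0 : ℝ) 1)
    (he : eP a b < 1) (hx : x ∈ Icc (-(3 / 25) : ℝ) (8 / 25))
    (hk : k ∈ Icc 0 ((1 - eP a b) ^ 2)) : 0 ≤ crossN a b x k := by
  have hk₁ : 0 < (1 - eP a b) ^ 2 := pow_pos (by linarith) 2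
  have A : ∀ x k, crossN a b x k = crossN a b 0 0 + x * (crossN a b 1 0 - crossN a b 0 0) +
      k * (crossN a b 0 1 - crossN a b 0 0) := fun x k => by
    simp only [crossN, wN, uN, xN, yN, dN5]
    ring
  refine of_corners A hx hk hk₁ ?_ ?_ ?_ ?_
  · linarith [crossN_11 ha hb,
      A (-(3 / 25)) 0,
      A (8 / 25) ((1 - eP a b) ^ 2),
      crossN_dx ha hb,
      mul_nonneg hk₁.le (crossN_dk ha hb)]
  · linarith [crossN_11 ha hb,
      A (8 / 25) 0,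
      A (8 / 25) ((1 - eP a b) ^ 2),
      mul_nonneg hk₁.le (crossN_dk ha hb)]
  · linarith [crossN_11 ha hb,
      A (-(3 / 25)) ((1 - eP a b) ^ 2),
      A (8 / 25) ((1 - eP a b) ^ 2),
      crossN_dx ha hb]
  · exact crossN_11 ha hb

open OutP in
lemma crosswN_nonneg {a b x k : ℝ} (ha : a ∈ Icc (0 : ℝ) 1) (hb : b ∈ Icc (0 : ℝ) 1)
    (he : eP a b < 1) (hx : x ∈ Icc (-(3 / 25) : ℝ) (8 / 25))
    (hk : k ∈ Icc 0 ((1 - eP a b) ^ 2)) : 0 ≤ crosswN a b x k := by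
  have hk₁ : 0 < (1 - eP a b) ^ 2 := pow_pos (by linarith) 2
  have A : ∀ x k, crosswN a b x k = crosswN a b 0 0 + x * (crosswN a b 1 0 - crosswN a b 0 0) +
      k * (crosswN a b 0 1 - crosswN a b 0 0) := fun x k => by
    simp only [crosswN, wN, uN, xN, yN, dN5]
    ring
  refine of_corners A hx hk hk₁ ?_ ?_ ?_ ?_
  · linarith [crosswN_10 ha hb,
      A (-(3 / 25)) 0,
      A (8 / 25) 0,
      crosswN_dx ha hb]
  · exact crosswN_10 ha hb
  · linarith [crosswN_11 ha hb,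
      A (-(3 / 25)) ((1 - eP a b) ^ 2),
      A (8 / 25) ((1 - eP a b) ^ 2),
      crosswN_dx ha hb]
  · exact crosswN_11 ha hb

open OutP in
lemma topN_nonneg {a b x k : ℝ} (ha : a ∈ Icc (0 : ℝ) 1) (hb : b ∈ Icc (0 : ℝ) 1)
    (he : eP a b < 1) (hx : x ∈ Icc (-(3 / 25) : ℝ) (8 / 25))
    (hk : k ∈ Icc 0 ((1 - eP a b) ^ 2)) : 0 ≤ topN a b x k := by
  have hk₁ : 0 < (1 - eP a b) ^ 2 := pow_pos (by linarith) 2
  have A : ∀ x k, topN a b x k = topN a b 0 0 + x * (topN a b 1 0 - topN a b 0 0) +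
      k * (topN a b 0 1 - topN a b 0 0) := fun x k => by
    simp only [topN, wN, uN, xN, yN, dN5]
    ring
  refine of_corners A hx hk hk₁ ?_ ?_ ?_ ?_
  · exact topN_00 ha hb
  · linarith [topN_00 ha hb,
      A (8 / 25) 0,
      A (-(3 / 25)) 0,
      topN_dx ha hb]
  · linarith [topN_00 ha hb,
      A (-(3 / 25)) ((1 - eP a b) ^ 2),
      A (-(3 / 25)) 0,
      mul_nonneg hk₁.le (topN_dk ha hb)]
  · linarith [topN_00 ha hb,
      A (8 / 25) ((1 - eP a b) ^ 2),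
      A (-(3 / 25)) 0,
      topN_dx ha hb,
      mul_nonneg hk₁.le (topN_dk ha hb)]

open OutP in
lemma convN_nonneg {a b x k : ℝ} (ha : a ∈ Icc (0 : ℝ) 1) (hb : b ∈ Icc (0 : ℝ) 1)
    (he : eP a b < 1) (hx : x ∈ Icc (-(3 / 25) : ℝ) (8 / 25))
    (hk : k ∈ Icc 0 ((1 - eP a b) ^ 2)) : 0 ≤ convN a b x k := by
  have hk₁ : 0 < (1 - eP a b) ^ 2 := pow_pos (by linarith) 2
  have A : ∀ x k, convN a b x k = convN a b 0 0 + x * (convN a b 1 0 - convN a b 0 0) +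
      k * (convN a b 0 1 - convN a b 0 0) := fun x k => by
    simp only [convN, wN, uN, xN, yN, dN5]
    ring
  refine of_corners A hx hk hk₁ ?_ ?_ ?_ ?_
  · exact convN_00 ha hb
  · linarith [convN_00 ha hb,
      A (8 / 25) 0,
      A (-(3 / 25)) 0,
      convN_dx ha hb]
  · exact convN_01 ha hb
  · linarith [convN_01 ha hb,
      A (8 / 25) ((1 - eP a b) ^ 2),
      A (-(3 / 25)) ((1 - eP a b) ^ 2),
      convN_dx ha hb]

/-- The unit square covers the range beyond the diameter. -/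
lemma exists_square {e p g : ℝ} (he : e ∈ Ioo (0 : ℝ) 1) (hr : OutRange e p g) :
    ∃ a b, a ∈ Icc (0 : ℝ) 1 ∧ b ∈ Icc (0 : ℝ) 1 ∧ e = OutP.eP a b ∧ p = OutP.pP a b ∧
      g = OutP.gP a b := by
  obtain ⟨hg0, hg2, hp0, hp1⟩ := hr
  have hgp : g ≤ p := (pow_le_pow_iff_left₀ hg0.le hp0.le two_ne_zero).1 (by linarith [he.1])
  have hg1 : g ≤ (1 - e) / 2 := by
    refine (pow_le_pow_iff_left₀ hg0.le (by linarith [he.2]) two_ne_zero).1 ?_
    nlinarith [pow_le_pow_left₀ hp0.le hp1 2]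
  have hpg : 0 < p + g := by linarith
  refine ⟨p + g, (p - g) / (p + g), ⟨hpg.le, by linarith⟩,
    ⟨div_nonneg (by linarith) hpg.le, by rw [div_le_one hpg]; linarith⟩, ?_, ?_, ?_⟩
  · rw [OutP.eP]
    field_simp
    linarith
  · rw [OutP.pP]
    field_simp
    ring
  · rw [OutP.gP]
    field_simp
    ring

open OutP in
/-- The facts at one distance beyond the diameter. -/
theorem out_point {a b XL K : ℝ} (ha : a ∈ Icc (0 : ℝ) 1) (hb : b ∈ Icc (0 : ℝ) 1)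
    (he : eP a b ∈ Ioo (0 : ℝ) 1) (hr : OutRange (eP a b) (pP a b) (gP a b))
    (h : OutHyp (eP a b) XL K) :
    Raw (ptOut (eP a b) XL K (pP a b) (gP a b)) ∧
      slope (ptOut (eP a b) XL K (pP a b) (gP a b)) 1 ≤ ratF (eP a b) (gP a b) ^ 5 *
        slope (ptOut (eP a b) XL K ((1 + eP a b) / 2) ((1 - eP a b) / 2)) 1 := by
  obtain ⟨hg0, hg2, hp0, hp1⟩ := hr
  have hd : 0 < dP a b := by rw [dP]; linarith [he.2]
  have hq : 0 < qP a b := by rw [qP]; linarith [he.2]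
  have hE : 0 < 1 + eP a b := by linarith [he.1]
  have hg1 : gP a b ≤ dP a b / 2 := by
    refine (pow_le_pow_iff_left₀ hg0.le (by linarith) two_ne_zero).1 ?_
    rw [dP]
    nlinarith [pow_le_pow_left₀ hp0.le hp1 2]
  have hs : sP a b ≤ dP a b := by
    have : sP a b = 2 * gP a b := by rw [sP, gP]; ring
    linarith
  have hdom := slope_dom ha hb he hs hp1 h
  have hjoin := joinS_nonneg he h
  have hrat : 0 ≤ ratF (eP a b) (gP a b) :=
    div_nonneg (by linarith) (by linarith [he.2])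
  have hslope : slope (ptOut (eP a b) XL K (pP a b) (gP a b)) 1 ≤ 0 :=
    hdom.trans (neg_nonpos.2 (div_nonneg (mul_nonneg (pow_nonneg hrat 5) hjoin) hd.le))
  refine ⟨?_, ?_⟩
  swap
  · refine hdom.trans_eq ?_
    rw [slope_join_eq he, dP]
    ring
  have hM : 0 < mN a b := by unfold mN; positivity
  obtain ⟨eu, ew, eH, ev⟩ := numerators (XL := XL) (K := K) hd.ne' hq.ne' hE.ne'
  obtain ⟨o, ho⟩ : ∃ o, o = ptOut (eP a b) XL K (pP a b) (gP a b) := ⟨_, rfl⟩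
  have hop : o.p = pP a b := by rw [ho]; rfl
  have hog : o.g = gP a b := by rw [ho]; rfl
  rw [← ho] at eu ew eH ev hslope ⊢
  have hk : (0 : ℝ) < (1 - eP a b) ^ 2 := pow_pos (by linarith [he.2]) 2
  obtain ⟨hxI, hkI⟩ := h
  have hk00 := hkI.1
  have hpos : 0 < dN5 a b - xN a b XL K := by
    have h00 := posN_11 ha hb
    have hlt : posN a b XL K = dN5 a b - xN a b XL K := rfl
    rw [← hlt]
    have hsd : 0 ≤ sP a b := mul_nonneg ha.1 (sub_nonneg.2 hb.2)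
    have hx5 : sP a b ^ 5 ≤ dP a b ^ 5 := pow_le_pow_left₀ hsd hs 5
    have hx3 : sP a b ^ 3 * dP a b ^ 2 ≤ dP a b ^ 5 := by
      calc sP a b ^ 3 * dP a b ^ 2 ≤ dP a b ^ 3 * dP a b ^ 2 :=
            mul_le_mul_of_nonneg_right (pow_le_pow_left₀ hsd hs 3) (sq_nonneg _)
        _ = dP a b ^ 5 := by ring
    have hd5 : 0 < dP a b ^ 5 := pow_pos hd 5
    have hk1 : K < 1 :=
      hkI.2.trans_lt (pow_lt_one₀ (by linarith [he.2]) (by linarith [he.1]) two_ne_zero)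
    simp only [posN, dN5, xN]
    rcases le_or_gt K (8 / 25) with hK | hK
    · linarith [mul_le_mul_of_nonneg_right hxI.2 (pow_nonneg hsd 5),
        mul_le_mul_of_nonneg_left hx3 hk00, mul_le_mul_of_nonneg_right hK hd5.le,
        mul_nonneg hk00 (pow_nonneg hsd 5)]
    · linarith [mul_le_mul_of_nonneg_right hxI.2 (pow_nonneg hsd 5),
        mul_le_mul_of_nonneg_left hx3 hk00, mul_lt_mul_of_pos_right hk1 hd5,
        mul_nonneg (sub_nonneg.2 hK.le) (pow_nonneg hsd 5)]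
  have hu : 0 < uN a b XL K := by
    unfold uN
    positivity
  have divM : ∀ {x : ℝ}, 0 ≤ mN a b * x → 0 ≤ x := fun hx => nonneg_of_mul_nonneg_right hx hM
  have he2 := he.2
  refine ⟨?_, ?_, ?_, ?_, ?_, ?_, ?_, ?_, ?_, ?_, ?_, ?_, ?_, ?_, ?_, hslope⟩
  · rw [hog]; exact hg0.le
  · rw [hog]; rw [dP] at hg1; linarith [he.1]
  · rw [hop]; exact hp0.le
  · rw [hop]; linarith [he.2]
  · exact pos_of_mul_pos_right (eu.symm ▸ hu) hM.le
  · have : 0 ≤ -o.G := divM (by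
      rw [eH]
      unfold hN
      have : 0 ≤ ((25 + 65 * eP a b) * dP a b ^ 2 + (1 - 39 * eP a b) * sP a b ^ 2) / 20 := by
        have h2 : sP a b ^ 2 ≤ dP a b ^ 2 :=
          pow_le_pow_left₀ (mul_nonneg ha.1 (sub_nonneg.2 hb.2)) hs 2
        linarith [mul_le_mul_of_nonneg_left h2 (show 0 ≤ 39 * eP a b by linarith [he.1]),
          sq_nonneg (sP a b), mul_nonneg he.1.le (sq_nonneg (dP a b)), sq_nonneg (dP a b)]
      have := mul_nonneg ha.1 (sub_nonneg.2 hb.2)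
      have : 0 ≤ sP a b := this
      have := he.1.le
      positivity)
    linarith
  · refine sub_nonneg.1 (divM ((hv3 ha hb).trans_eq ?_))
    linear_combination (-3 * pP a b) * eH + ev + (-3 * mN a b * -o.G) * hop
  · refine sub_nonneg.1 (divM (le_of_le_of_eq (mul_nonneg (by norm_num : (0 : ℝ) ≤ 1 / 2)
      (hv32 ha hb)) ?_))
    linear_combination (-3 / 2 : ℝ) * eH + ev
  · refine divM ((monoN_nonneg ha hb he2 hxI hkI).trans_eq ?_)
    rw [monoN, ← eu, ← ew, hop]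
    ring
  · refine divM ((zeroN_nonneg ha hb he2 hxI hkI).trans_eq ?_)
    rw [zeroN, ← eu, ← ew, hop]
    ring
  · refine divM ((midN_nonneg ha hb he2 hxI hkI).trans_eq ?_)
    rw [midN, ← eu, ← ew, ← eH, hop, hog]
    ring
  · refine sub_nonneg.1 (divM ((crossN_nonneg ha hb he2 hxI hkI).trans_eq ?_))
    rw [crossN, ← eu, ← eH, hop, hog]
    ring
  · refine sub_nonneg.1 (divM ((crosswN_nonneg ha hb he2 hxI hkI).trans_eq ?_))
    rw [crosswN, ← eu, ← ew, ← eH, hop, hog]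
    ring
  · refine divM ((topN_nonneg ha hb he2 hxI hkI).trans_eq ?_)
    rw [topN, ← eu, hop, hog]
    ring
  · refine divM ((convN_nonneg ha hb he2 hxI hkI).trans_eq ?_)
    rw [convN, ← eu, ← ew, ← eH, ← ev, hop, hog]
    ring

/-- The facts beyond the diameter follow from the box. -/
theorem outPin : OutPin := by
  intro e XL K he h
  have key : ∀ p g, OutRange e p g → Raw (ptOut e XL K p g) ∧
      slope (ptOut e XL K p g) 1 ≤
        ratF e g ^ 5 * slope (ptOut e XL K ((1 + e) / 2) ((1 - e) / 2)) 1 := by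
    intro p g hr
    obtain ⟨a, b, ha, hb, rfl, rfl, rfl⟩ := exists_square he hr
    exact out_point ha hb he hr h
  refine ⟨fun p g hr => (key p g hr).1.good, fun p g hr => (key p g hr).1.endc,
    fun p g hr => (key p g hr).2, ?_⟩
  rw [slope_join_eq he]
  exact div_nonpos_of_nonpos_of_nonneg (neg_nonpos.2 (joinS_nonneg he h)) (by linarith [he.2])

end Vale.Agent.P219.CH.Relax.Six
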