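import Vale.Agent.P219.Relax.Six.Sol
import Vale.Agent.P219.Relax.Six.Value

/-!
# P219, dimension six: the value clause from the facts of a solution

The marginal coefficient over the cosine starts at zero and falls at the rate of the slope at the
contact, so the coefficient is continuous and nonpositive.
-/

noncomputable section

open Set Filter Topology

namespace Vale.Agent.P219.CH.Relax.Six

open Five (yf yf_pos tanh_sq_mem)
open GenK.Four (tanh_pos)

variable {R B : ℝ} {W : Wt}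

lemma diag_ptIn {e t : ℝ} (ht : t ≠ 0) (W : Wt) :
    diag (ptIn e W t) t = Val.contactDiag e t (W.V t) (W.V1 t) :=
  Val.diag_contact _ ht (by simp only [ptIn]; ring) (by simp only [ptIn]; ring) rfl rfl

lemma margSix_eq (R B : ℝ) (W : Wt) {c : ℝ} (hc : c ≠ 0) :
    margSix R B W c = Val.margSix R (betaSix R B) W.V W.V1 c := by
  rw [margSix, margRat, Val.margSix, Val.lg, diag_ptIn hc]
  ring

/-- The coefficient falls at the rate of the slope at the contact. -/
lemma hasDerivAt_margSix (hR : 0 < R) (hs : SolFacts (Real.tanh R ^ 2) B W) {t : ℝ}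
    (ht : t ∈ Ioc (0 : ℝ) 1) :
    HasDerivAt (margSix R B W)
      (32 * Real.tanh R ^ 5 * aSlope (Real.tanh R ^ 2) W t) t := by
  obtain ⟨h1, h2⟩ := Val.arg_pos hR (Ioc_subset_Icc_self ht)
  have hy := (yf_pos (tanh_sq_mem hR) (Ioc_subset_Icc_self ht)).ne'
  refine (((hs.tangency t ht).const_mul (32 * Real.tanh R ^ 5)).sub
    ((Val.hasDerivAt_lg h1 h2).const_mul (betaSix R B))).congr_deriv ?_
  have e1 : (1 - Real.tanh R * t) * (1 + Real.tanh R * t) = yf (Real.tanh R ^ 2) t := by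
    unfold yf; ring
  rw [e1, betaSix]
  field_simp
  ring

/-- Near the centre the coefficient over the cosine is small. -/
lemma tendsto_margSix (hR : 0 < R) (hs : SolFacts (Real.tanh R ^ 2) B W) :
    Tendsto (margSix R B W) (𝓝[>] 0) (𝓝 0) := by
  obtain ⟨C, hC⟩ := hs.centre
  obtain ⟨T, hT⟩ : ∃ T, T = Real.tanh R := ⟨_, rfl⟩
  have he := tanh_sq_mem hR
  rw [← hT] at he
  have hd : (0 : ℝ) < 1 - T ^ 2 := sub_pos.2 he.2
  have hlg : Tendsto (Val.lg T) (𝓝[>] 0) (𝓝 0) := by
    have h := (Val.hasDerivAt_lg (T := T) (t := 0) (by simp) (by simp)).continuousAt.tendsto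
    rw [show Val.lg T 0 = 0 by simp [Val.lg]] at h
    exact h.mono_left nhdsWithin_le_nhds
  have hrat : Tendsto (fun t => t ^ 3 / yf (T ^ 2) t ^ 5 *
      Val.contactDiag (T ^ 2) t (W.V t) (W.V1 t)) (𝓝[>] 0) (𝓝 0) := by
    refine squeeze_zero_norm' (a := fun t => t * ((1 + 12 * C) / (1 - T ^ 2) ^ 5)) ?_ ?_
    · filter_upwards [Ioc_mem_nhdsGT zero_lt_one] with t ht
      obtain ⟨hv, hv'⟩ := hC t ht
      have hyp := yf_pos he (Ioc_subset_Icc_self ht)
      have hy1 : 1 - T ^ 2 ≤ yf (T ^ 2) t := by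
        have := mul_le_mul_of_nonneg_left (pow_le_one₀ (n := 2) ht.1.le ht.2) he.1.le
        rw [yf]
        linarith
      have hy2 : yf (T ^ 2) t ≤ 1 := by
        rw [yf]
        linarith [mul_nonneg he.1.le (sq_nonneg t)]
      have hC0 : 0 ≤ C := (abs_nonneg _).trans hv
      have e1 : t ^ 3 * Val.contactDiag (T ^ 2) t (W.V t) (W.V1 t) = t ^ 3 +
          (1 - t ^ 2) * (yf (T ^ 2) t / 2) * t * (t ^ 2 * W.V1 t) +
          t * ((1 + T ^ 2 * t ^ 2) * (4 + t ^ 2) - 10 * t ^ 2) / 2 * (t * W.V t) := by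
        have := ht.1.ne'
        rw [Val.contactDiag]
        field_simp
        ring
      have hq : |t ^ 3 * Val.contactDiag (T ^ 2) t (W.V t) (W.V1 t)| ≤ t * (1 + 12 * C) := by
        rw [e1]
        refine (abs_add_three _ _ _).trans ?_
        have ht2 : t ^ 2 ≤ 1 := pow_le_one₀ ht.1.le ht.2
        have hp0 : (0 : ℝ) ≤ (1 - t ^ 2) * (yf (T ^ 2) t / 2) * t :=
          mul_nonneg (mul_nonneg (sub_nonneg.2 ht2) (by linarith)) ht.1.le
        have hp1 : (1 - t ^ 2) * (yf (T ^ 2) t / 2) * t ≤ 1 * 1 * t :=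
          mul_le_mul_of_nonneg_right (mul_le_mul (by linarith [sq_nonneg t]) (by linarith)
            (by linarith) zero_le_one) ht.1.le
        have hk : |(1 + T ^ 2 * t ^ 2) * (4 + t ^ 2) - 10 * t ^ 2| ≤ 10 := by
          have hx : T ^ 2 * t ^ 2 ≤ 1 := mul_le_one₀ he.2.le (sq_nonneg t) ht2
          have hx0 : 0 ≤ T ^ 2 * t ^ 2 := mul_nonneg he.1.le (sq_nonneg t)
          have := mul_le_mul_of_nonneg_right (show 1 + T ^ 2 * t ^ 2 ≤ 2 by linarith)
            (show 0 ≤ 4 + t ^ 2 by positivity)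
          have := mul_nonneg hx0 (show 0 ≤ 4 + t ^ 2 by positivity)
          rw [abs_le]
          constructor <;> linarith [sq_nonneg t]
        have a1 : |t ^ 3| ≤ t := by
          rw [abs_of_pos (pow_pos ht.1 3)]
          exact pow_le_of_le_one ht.1.le ht.2 (by norm_num)
        have a2 : |(1 - t ^ 2) * (yf (T ^ 2) t / 2) * t * (t ^ 2 * W.V1 t)| ≤ t * C := by
          rw [abs_mul, abs_of_nonneg hp0]
          exact mul_le_mul (by linarith) hv' (abs_nonneg _) ht.1.le
        have a3 : |t * ((1 + T ^ 2 * t ^ 2) * (4 + t ^ 2) - 10 * t ^ 2) / 2 * (t * W.V t)| ≤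
            t * 10 / 2 * C := by
          rw [abs_mul, abs_div, abs_mul, abs_of_pos ht.1, abs_two]
          exact mul_le_mul (div_le_div_of_nonneg_right
            (mul_le_mul_of_nonneg_left hk ht.1.le) zero_le_two) hv (abs_nonneg _) (by linarith [ht.1])
        linarith [mul_nonneg ht.1.le hC0]
      rw [Real.norm_eq_abs, div_mul_eq_mul_div, abs_div, abs_of_pos (pow_pos hyp 5),
        ← mul_div_assoc]
      exact div_le_div₀ (mul_nonneg ht.1.le (by linarith)) hq (pow_pos hd 5)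
        (pow_le_pow_left₀ hd.le hy1 5)
    · have hl : Continuous fun t : ℝ => t * ((1 + 12 * C) / (1 - T ^ 2) ^ 5) :=
        continuous_id.mul continuous_const
      exact (hl.tendsto' 0 0 (zero_mul _)).mono_left nhdsWithin_le_nhds
  have h := (hrat.const_mul (32 * T ^ 5)).sub (hlg.const_mul (betaSix R B))
  simp only [mul_zero, sub_zero] at h
  refine h.congr' ?_
  filter_upwards [self_mem_nhdsWithin] with t ht
  rw [margSix_eq R B W (ne_of_gt ht), Val.margSix, ← hT]
  ring

lemma margSix_nonpos (hR : 0 < R) (hs : SolFacts (Real.tanh R ^ 2) B W) {c : ℝ}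
    (hc : c ∈ Ioc (0 : ℝ) 1) : margSix R B W c ≤ 0 := by
  have hanti : AntitoneOn (margSix R B W) (Ioc 0 1) := by
    refine antitoneOn_of_hasDerivWithinAt_nonpos (convex_Ioc 0 1)
      (fun t ht => (hasDerivAt_margSix hR hs ht).continuousAt.continuousWithinAt)
      (fun t ht => (hasDerivAt_margSix hR hs (interior_subset ht)).hasDerivWithinAt) fun t ht => ?_
    have ht' := interior_subset ht
    refine mul_nonpos_of_nonneg_of_nonpos
      (mul_nonneg (by norm_num) (pow_nonneg (tanh_pos hR).le 5)) ?_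
    exact mul_nonpos_of_nonneg_of_nonpos (div_nonneg (pow_nonneg ht'.1.le 5)
      (pow_nonneg (yf_pos (tanh_sq_mem hR) (Ioc_subset_Icc_self ht')).le 5))
      (hs.inside t ht').down
  refine ge_of_tendsto (tendsto_margSix hR hs) ?_
  filter_upwards [Ioc_mem_nhdsGT hc.1] with x hx
  exact hanti ⟨hx.1, hx.2.trans hc.2⟩ hc hx.2

lemma aSix_eq (R B : ℝ) (W : Wt) {c : ℝ} (hc : c ∈ Ioc (0 : ℝ) 1) :
    aSix R B W c = c * margSix R B W c := by
  rw [aSix, indicator_of_mem hc]

lemma aSix_zero (R B : ℝ) (W : Wt) : aSix R B W 0 = 0 := by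
  rw [aSix, indicator_of_notMem fun h => lt_irrefl _ h.1]

lemma aSix_nonpos (hR : 0 < R) (hs : SolFacts (Real.tanh R ^ 2) B W) {c : ℝ}
    (hc : c ∈ Icc (0 : ℝ) 1) : aSix R B W c ≤ 0 := by
  rcases eq_or_lt_of_le hc.1 with h | h
  · rw [← h, aSix_zero]
  · rw [aSix_eq R B W ⟨h, hc.2⟩]
    exact mul_nonpos_of_nonneg_of_nonpos hc.1 (margSix_nonpos hR hs ⟨h, hc.2⟩)

lemma continuousOn_aSix (hR : 0 < R) (hs : SolFacts (Real.tanh R ^ 2) B W) :
    ContinuousOn (aSix R B W) (Icc 0 1) := by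
  intro c hc
  rcases eq_or_lt_of_le hc.1 with rfl | h
  · rw [← Set.insert_eq_of_mem (left_mem_Icc.2 zero_le_one : (0 : ℝ) ∈ Icc (0 : ℝ) 1)]
    refine continuousWithinAt_insert_self.2 ?_
    rw [← Icc_union_Ioc_eq_Icc (le_refl (0 : ℝ)) zero_le_one, Icc_self]
    refine ContinuousWithinAt.union continuousWithinAt_singleton ?_
    rw [ContinuousWithinAt, nhdsWithin_Ioc_eq_nhdsGT zero_lt_one, aSix_zero]
    have h := ((continuous_id.tendsto' (0 : ℝ) 0 rfl).mono_left
      (nhdsWithin_le_nhds (s := Ioi 0))).mul (tendsto_margSix hR hs)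
    rw [mul_zero] at h
    refine h.congr' ?_
    filter_upwards [Ioc_mem_nhdsGT zero_lt_one] with x hx
    rw [aSix_eq R B W hx, id]
  · have hm := (hasDerivAt_margSix hR hs ⟨h, hc.2⟩).continuousAt
    refine ((continuousWithinAt_id.mul hm.continuousWithinAt).congr_of_eventuallyEq ?_
      (aSix_eq R B W ⟨h, hc.2⟩))
    filter_upwards [nhdsWithin_le_nhds (Ioi_mem_nhds h), self_mem_nhdsWithin] with x hx hx'
    rw [aSix_eq R B W ⟨hx, hx'.2⟩]
    rfl

lemma measurable_aSix (hR : 0 < R) (hs : SolFacts (Real.tanh R ^ 2) B W) :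
    Measurable (aSix R B W) := by
  have h := ((continuousOn_aSix hR hs).mono Ioc_subset_Icc_self).measurable_piecewise
    (g := fun _ => (0 : ℝ)) continuous_const.continuousOn measurableSet_Ioc
  convert h using 1
  funext c
  by_cases hc : c ∈ Ioc (0 : ℝ) 1
  · rw [piecewise_eq_of_mem _ _ _ hc]
  · rw [piecewise_eq_of_notMem _ _ _ hc, aSix, indicator_of_notMem hc]

/-- The value clause of the certificate. -/
theorem value_aSix (hR : 0 < R) (hs : SolFacts (Real.tanh R ^ 2) B W) :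
    Real.sinh R ^ (2 * (6 - 1)) +
        Gen.cmean 6 (fun c => -aSix R B W c) * Real.sinh R ^ (6 - 1) ≤
      betaSix R B * ∫ t in (0 : ℝ)..R, Real.sinh t ^ (6 - 1) := by
  refine Val.value_six (V := W.V) (DV := W.V1) hR (fun c hc => ?_) (measurable_aSix hR hs)
    (continuousOn_aSix hR hs) (fun c hc => aSix_nonpos hR hs hc)
    (fun t ht => hs.deriv t (Ioo_subset_Ioc_self ht)) ?_
  · rw [aSix_eq R B W hc, margSix_eq R B W hc.1.ne']
  · obtain ⟨C, hC⟩ := hs.centre
    intro c hc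
    rcases eq_or_lt_of_le hc.1 with rfl | h
    · have hb : ∀ᶠ t in 𝓝[Icc (0 : ℝ) 1] 0, ‖t ^ 4 * W.V t‖ ≤ t ^ 3 * C := by
        filter_upwards [self_mem_nhdsWithin] with t ht
        rcases eq_or_lt_of_le ht.1 with rfl | h
        · simp
        · rw [Real.norm_eq_abs, show t ^ 4 * W.V t = t ^ 3 * (t * W.V t) by ring, abs_mul,
            abs_of_nonneg (pow_nonneg ht.1 3)]
          exact mul_le_mul_of_nonneg_left (hC t ⟨h, ht.2⟩).1 (pow_nonneg ht.1 3)
      rw [ContinuousWithinAt, zero_pow (by norm_num), zero_mul]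
      refine squeeze_zero_norm' hb ?_
      have h3 : Continuous fun t : ℝ => t ^ 3 * C := by fun_prop
      exact (h3.tendsto' 0 0 (by simp)).mono_left nhdsWithin_le_nhds
    · exact ((continuousAt_id.pow 4).mul (hs.deriv c ⟨h, hc.2⟩).continuousAt).continuousWithinAt

end Vale.Agent.P219.CH.Relax.Six
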