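import Vale.Agent.P219.Relax.Six.Profile
import Vale.Agent.P219.Relax.Six.Good
import Vale.Agent.P219.Relax.Six.Out
import Vale.Agent.P219.Relax.Profile2D.Cert
import Vale.Agent.P219.Relax.Six.ValueSol

/-!
# P219, dimension six: the certificate from a solution and the value

Inside the diameter the pair bound is paid by the tangent of the marginal coefficient less its loss
from quantitative concavity; beyond it the plain tangent at cosine one suffices.
-/

noncomputable section

open Set Filter Topology MeasureTheory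

namespace Vale.Agent.P219.CH.Relax.Six

open Five (tc pc gc yf yf_pos tanh_sq_mem tc_mem tc_diam Tc_lt_one log_tc sinh_tc)
open GenK.Four (tanh_pos tanh_lt_one')

variable {R B : ℝ} {W : Wt}

lemma concQ_mem {e : ℝ} (he : e ∈ Ioo (0 : ℝ) 1) : concQ e ∈ Ico (0 : ℝ) 1 := by
  obtain ⟨h0, h1⟩ := he
  exact ⟨div_nonneg (by linarith) (by linarith), (div_lt_one (by linarith)).2 (by linarith)⟩

/-! ## The marginal coefficient -/

lemma margSix_deriv_nonpos (hR : 0 < R) (hs : SolFacts (Real.tanh R ^ 2) B W) {t : ℝ}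
    (ht : t ∈ Ioc (0 : ℝ) 1) :
    32 * Real.tanh R ^ 5 * aSlope (Real.tanh R ^ 2) W t ≤ 0 := by
  refine mul_nonpos_of_nonneg_of_nonpos (by have := tanh_pos hR; positivity) ?_
  have := yf_pos (tanh_sq_mem hR) (Ioc_subset_Icc_self ht)
  exact mul_nonpos_of_nonneg_of_nonpos (by have := ht.1; positivity) (hs.inside t ht).down

/-! ## The pair bound -/

/-- The tangent less the loss of the concavity is below the quadratic loss. -/
lemma tanLoss_le {q t c v l : ℝ} (hq : q ∈ Ico (0 : ℝ) 1) (ht : t ∈ Ioc (0 : ℝ) 1)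
    (hc : c ∈ Ioc (0 : ℝ) 1) (hl : l ≤ 0) :
    tanLoss q t v l c ≤ v + l * (c - t) + l * (hLoss q t c * (c - t) ^ 2) := by
  have hzt := zc_pos hq (Ioc_subset_Icc_self ht)
  rw [tanLoss]
  split_ifs with h
  · have hzb := zbar_pos hq (Ioc_subset_Icc_self ht) (Ioc_subset_Icc_self hc)
    rw [hLoss, min_eq_right h]
    have key : q * (t + t) / (2 * zc q t) ≤ q * (c + 2 * t) / (3 * zbar q t c) := by
      refine le_trans (le_of_eq ?_) (div_le_div₀ (mul_nonneg hq.1 (by linarith [ht.1]))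
        (mul_le_mul_of_nonneg_left (by linarith : 3 * t ≤ c + 2 * t) hq.1) (by positivity)
        (?_ : 3 * zbar q t c ≤ 3 * zc q t))
      · field_simp
        ring
      · simp only [zbar, zc]
        have hsq : t ^ 2 ≤ t * c := by
          rw [sq]; exact mul_le_mul_of_nonneg_left h ht.1.le
        have := mul_le_mul_of_nonneg_left
          (show 3 * t ^ 2 ≤ t ^ 2 + t * c + c ^ 2 by
            linarith [pow_le_pow_left₀ ht.1.le h 2]) hq.1
        linarith
    have e : (c - t) * (zc q t / zbar q t c) =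
        (c - t) + q * (c + 2 * t) / (3 * zbar q t c) * (c - t) ^ 2 := by
      have : zc q t - zbar q t c = q * (c - t) * (c + 2 * t) / 3 := by
        simp only [zc, zbar]; ring
      field_simp
      linear_combination 3 * (c - t) * this
    rw [mul_assoc l, e, mul_add]
    linarith [mul_le_mul_of_nonpos_left (mul_le_mul_of_nonneg_right key (sq_nonneg (c - t))) hl]
  · have hzc := zc_pos hq (Ioc_subset_Icc_self hc)
    rw [hLoss, min_eq_left (not_le.1 h).le]
    refine le_of_eq ?_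
    have : zc q t - zc q c = q * (c - t) * (c + t) := by
      simp only [zc]; ring
    field_simp
    linear_combination l * (c - t) * this

/-- The coefficient lies below the tangent at `t` less the quadratic loss. -/
lemma margSix_le (hR : 0 < R) (hs : SolFacts (Real.tanh R ^ 2) B W) {t c : ℝ}
    (ht : t ∈ Ioc (0 : ℝ) 1) (hc : c ∈ Ioc (0 : ℝ) 1) :
    margSix R B W c ≤ margSix R B W t +
      32 * Real.tanh R ^ 5 * aSlope (Real.tanh R ^ 2) W t * (c - t) +
      32 * Real.tanh R ^ 5 * aSlope (Real.tanh R ^ 2) W t *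
        (hLoss (concQ (Real.tanh R ^ 2)) t c * (c - t) ^ 2) := by
  have hq := concQ_mem (tanh_sq_mem hR)
  refine (le_tanLoss hq (fun x hx => hasDerivAt_margSix hR hs hx)
    (fun x hx => margSix_deriv_nonpos hR hs hx) ?_ ht hc).trans
    (tanLoss_le hq ht hc (margSix_deriv_nonpos hR hs ht))
  intro x hx y hy hxy
  have := mul_le_mul_of_nonneg_left (hs.conc hx hy hxy)
    (by have := tanh_pos hR; positivity : 0 ≤ 32 * Real.tanh R ^ 5)
  simp only at this ⊢
  linarith

lemma symU_eq {r : ℝ} (hR : 0 < R) (hr : 0 < r) (hG : (ptR R B W r).G ≤ 0) (c d : ℝ) :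
    Profile2D.symU 6 R (fun r c => uU R B W r + c * uG R B W r)
        (fun r c => (ptR R B W r).U' + c * (ptR R B W r).G') (fun r _ => uG R B W r) r c d =
      symX (ptR R B W r) c d := by
  have hT := (tanh_pos hR).ne'
  have hsr := (Real.sinh_pos_iff.2 hr).ne'
  obtain ⟨hp, hg⟩ := ptR_pg (B := B) (W := W) hR hr
  have habs : |uG R B W r| = -(Real.tanh R * (ptR R B W r).G) := by
    rw [uG, abs_of_nonpos (mul_nonpos_of_nonneg_of_nonpos (tanh_pos hR).le hG)]
  simp only [Profile2D.symU, Profile2D.kerU, habs, symX, ker]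
  rw [hp, hg]
  have hH : GenK.modelH 6 R = 5 / Real.tanh R := by
    rw [GenK.modelH, Real.tanh_eq_sinh_div_cosh]
    have := (Real.sinh_pos_iff.2 hR).ne'
    have := (Real.cosh_pos R).ne'
    push_cast
    field_simp
    ring
  rw [hH]
  simp only [uU, uG, pc, gc]
  push_cast
  field_simp
  ring

/-- The facts at one distance. -/
lemma point_facts (hR : 0 < R) (hs : SolFacts (Real.tanh R ^ 2) B W) {r : ℝ} (hr : 0 < r) :
    let o := ptR R B W r
    0 < o.U + o.G ∧ o.G ≤ 0 ∧ 0 ≤ o.U' + 4 * o.p * o.U ∧ 0 ≤ o.g ∧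
    (∀ c ∈ Icc (-1 : ℝ) 1, ∀ d ∈ Icc (-1 : ℝ) 1,
      0 ≤ symX o c d + 2 * |c * d| * (o.g * Real.sqrt ((o.U + c * o.G) * (o.U + d * o.G)))) ∧
    (∀ c ∈ Icc (0 : ℝ) 1, ∀ d ∈ Icc (0 : ℝ) 1,
      2 * (c * d) * (o.g * o.U) ≤ symX o c (-d) ∧ 0 ≤ symX o (-c) (-d)) := by
  intro o
  have hg : 0 ≤ o.g := by
    show 0 ≤ (ptR R B W r).g
    rw [(ptR_pg hR hr).2, gc]
    exact div_nonneg (tanh_pos hR).le (Real.sinh_pos_iff.2 hr).le
  rcases le_or_gt r (2 * R) with h | h
  · have e : o = ptIn (Real.tanh R ^ 2) W (tc R r) := if_pos h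
    rw [e] at hg ⊢
    have hi := hs.inside _ (tc_mem hR ⟨hr, h⟩)
    exact ⟨hi.weight_pos, hi.slope_nonpos, hi.mono, hg, fun c hc d hd => hi.gain hg hc hd,
      fun c hc d hd => hi.mixed_le hg hc hd⟩
  · have e : o = ptFar R (xlOf (Real.tanh R ^ 2) W.V) (kOf (Real.tanh R ^ 2) B) r :=
      if_neg (not_le.2 h)
    rw [e] at hg ⊢
    have hi := (outPin _ _ _ (tanh_sq_mem hR) hs.out).good _ _ (Five.outRange hR h.le)
    exact ⟨hi.weight_pos, hi.slope_nonpos, hi.mono, hg, fun c hc d hd => hi.gain hg hc hd,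
      fun c hc d hd => hi.mixed_le hg hc hd⟩

/-- Inside the diameter the two values and the volume term are below the tangents less the losses. -/
lemma pair_in (hR : 0 < R) (hs : SolFacts (Real.tanh R ^ 2) B W) {r c d t : ℝ} (htd : t = tc R r)
    (ht : t ∈ Ioc (0 : ℝ) 1) (hc : c ∈ Ioc (0 : ℝ) 1) (hd : d ∈ Ioc (0 : ℝ) 1) :
    c * d * (margSix R B W c + margSix R B W d + 2 * betaSix R B * r) ≤
      Real.sinh r ^ 5 * (c * d *
        (tanSum (ptIn (Real.tanh R ^ 2) W t) t (c + d) + slope (ptIn (Real.tanh R ^ 2) W t) t *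
          (hLoss (concQ (Real.tanh R ^ 2)) t c * (c - t) ^ 2 +
            hLoss (concQ (Real.tanh R ^ 2)) t d * (d - t) ^ 2))) := by
  have he := tanh_sq_mem hR
  have hT := tanh_pos hR
  have hcd : 0 ≤ c * d := (mul_pos hc.1 hd.1).le
  have hy := yf_pos he (Ioc_subset_Icc_self ht)
  have ht0 := ht.1.ne'
  have h1 := margSix_le hR hs ht hc
  have h2 := margSix_le hR hs ht hd
  have hsh : Real.sinh r = 2 * Real.tanh R * t / yf (Real.tanh R ^ 2) t := htd ▸ sinh_tc hR r
  have e1 : Real.sinh r ^ 5 * (diag (ptIn (Real.tanh R ^ 2) W t) t / t ^ 2) =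
      margSix R B W t + betaSix R B * r := by
    have hl : Real.log ((1 + Real.tanh R * t) / (1 - Real.tanh R * t)) = r := htd ▸ log_tc hR r
    rw [margSix, margRat, hl, hsh]
    field_simp
    ring
  have e2 : Real.sinh r ^ 5 * slope (ptIn (Real.tanh R ^ 2) W t) t =
      32 * Real.tanh R ^ 5 * aSlope (Real.tanh R ^ 2) W t := by
    rw [aSlope, hsh]
    field_simp
    ring
  have h3 : margSix R B W c + margSix R B W d + 2 * betaSix R B * r ≤ Real.sinh r ^ 5 *
      (tanSum (ptIn (Real.tanh R ^ 2) W t) t (c + d) + slope (ptIn (Real.tanh R ^ 2) W t) t *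
        (hLoss (concQ (Real.tanh R ^ 2)) t c * (c - t) ^ 2 +
          hLoss (concQ (Real.tanh R ^ 2)) t d * (d - t) ^ 2)) := by
    rw [tanSum, mul_add, mul_add, mul_div_assoc, mul_left_comm, e1,
      ← mul_assoc (Real.sinh r ^ 5) (slope _ t), e2, ← mul_assoc (Real.sinh r ^ 5) (slope _ t), e2]
    linarith
  exact (mul_le_mul_of_nonneg_left h3 hcd).trans_eq (by ring)

/-- Beyond the diameter they are below the tangent at cosine one. -/
lemma pair_out (hR : 0 < R) (hs : SolFacts (Real.tanh R ^ 2) B W) {r c d : ℝ} (h : 2 * R < r)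
    (hc : c ∈ Ioc (0 : ℝ) 1) (hd : d ∈ Ioc (0 : ℝ) 1) :
    c * d * (margSix R B W c + margSix R B W d + 2 * betaSix R B * r) ≤
      Real.sinh r ^ 5 * (c * d *
        tanSum (ptFar R (xlOf (Real.tanh R ^ 2) W.V) (kOf (Real.tanh R ^ 2) B) r) 1 (c + d)) := by
  have hr : 0 < r := by linarith
  have hcd : 0 ≤ c * d := (mul_pos hc.1 hd.1).le
  have he := tanh_sq_mem hR
  have hT := tanh_pos hR
  have hof := outPin _ _ _ he hs.out
  have hor := Five.outRange hR h.le
  obtain ⟨e, hed⟩ : ∃ e, e = Real.tanh R ^ 2 := ⟨_, rfl⟩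
  rw [← hed] at he hof hor ⊢
  obtain ⟨o, hoo⟩ : ∃ o, o = ptFar R (xlOf e W.V) (kOf e B) r := ⟨_, rfl⟩
  have hsl : slope o 1 ≤
      ratF e (gc R r) ^ 5 * slope (ptOut e (xlOf e W.V) (kOf e B) ((1 + e) / 2) ((1 - e) / 2)) 1 := by
    rw [hoo, ptFar, ← hed]; exact hof.slope_le _ _ hor
  have hj : ptOut e (xlOf e W.V) (kOf e B) ((1 + e) / 2) ((1 - e) / 2) = ptIn e W 1 := by
    have h' := ptFar_join hR hs
    rw [ptFar, Five.pc_diam hR, Five.gc_diam hR, ← hed] at h'
    exact h'
  rw [hj] at hsl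
  rw [← hoo]
  obtain ⟨L, hL⟩ : ∃ L, L = Real.sinh (2 * R) := ⟨_, rfl⟩
  obtain ⟨s, hsd⟩ : ∃ s, s = Real.sinh r := ⟨_, rfl⟩
  have hs0 : 0 < s := hsd ▸ Real.sinh_pos_iff.2 hr
  have h1e : 0 < 1 - e := sub_pos.2 he.2
  have he0 : 0 < 1 + e := by linarith [he.1]
  have hLe : L = 2 * Real.tanh R / (1 - e) := by
    rw [hL, hed, GenK.Four.sinh_eq, show 2 * R / 2 = R by ring]
  have hy1 : yf e 1 = 1 - e := by rw [yf]; ring
  have hA1 : margSix R B W 1 + betaSix R B * (2 * R) = L ^ 5 * xlOf e W.V := by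
    have hl := log_tc hR (2 * R)
    rw [tc_diam hR] at hl
    have hd1 : diag (ptIn e W 1) 1 = xlOf e W.V := by
      rw [← hj, diag_out_one _ (by linarith), show ratF e ((1 - e) / 2) = 1 by
        rw [ratF]; field_simp, XF]
      ring
    rw [margSix, margRat, hl, ← hed, hd1, hy1, hLe]
    field_simp
    ring
  have hK : 0 ≤ kOf e B := hs.out.2.1.trans_eq (by rw [hed])
  have hX : margSix R B W 1 + betaSix R B * r ≤ s ^ 5 * diag o 1 := by
    have h' := affine_le_far (XL := xlOf e W.V) hR h.le hK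
    rw [← hoo, ← hsd, ← hL] at h'
    have hrate : farRate R (kOf e B) = betaSix R B := by
      rw [farRate, kOf, betaSix, ← hed, ← hL, hLe]
      field_simp
      ring
    rw [hrate] at h'
    linarith
  have hslope : s ^ 5 * slope o 1 ≤ 32 * Real.tanh R ^ 5 * aSlope e W 1 := by
    refine (mul_le_mul_of_nonneg_left hsl (pow_nonneg hs0.le 5)).trans_eq ?_
    rw [hed, ratF_far hR, ← hL, ← hsd, ← hed, aSlope, hy1, hLe]
    field_simp
    ring
  have htan : ∀ x ∈ Ioc (0 : ℝ) 1, margSix R B W x ≤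
      margSix R B W 1 + 32 * Real.tanh R ^ 5 * aSlope e W 1 * (x - 1) := fun x hx => by
    have h' := margSix_le hR hs (t := 1) ⟨zero_lt_one, le_rfl⟩ hx
    have := mul_nonpos_of_nonpos_of_nonneg (margSix_deriv_nonpos hR hs ⟨zero_lt_one, le_rfl⟩)
      (mul_nonneg (hLoss_nonneg (t := 1) (concQ_mem (tanh_sq_mem hR)) ⟨zero_lt_one, le_rfl⟩ hx.1.le)
        (sq_nonneg (x - 1)))
    rw [hed]
    linarith
  have h1 := htan c hc
  have h2 := htan d hd
  have h3 : margSix R B W c + margSix R B W d + 2 * betaSix R B * r ≤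
      s ^ 5 * tanSum o 1 (c + d) := by
    have hneg : c + d - 2 ≤ 0 := by linarith [hc.2, hd.2]
    have := mul_le_mul_of_nonpos_right hslope hneg
    rw [tanSum, one_pow, div_one, mul_one]
    linarith
  rw [← hsd]
  exact (mul_le_mul_of_nonneg_left h3 hcd).trans_eq (by ring)

/-- An inward pair pays its two values and the volume term. -/
lemma pair_facts (hR : 0 < R) (hs : SolFacts (Real.tanh R ^ 2) B W) {r c d : ℝ} (hr : 0 < r)
    (hc : c ∈ Ioc (0 : ℝ) 1) (hd : d ∈ Ioc (0 : ℝ) 1) :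
    c * d * (margSix R B W c + margSix R B W d + 2 * betaSix R B * r) ≤
      Real.sinh r ^ 5 * symX (ptR R B W r) c d := by
  have he := tanh_sq_mem hR
  have hg : 0 ≤ (ptR R B W r).g := (point_facts hR hs hr).2.2.2.1
  have hS : 0 ≤ Real.sinh r ^ 5 := pow_nonneg (Real.sinh_pos_iff.2 hr).le 5
  rcases le_or_gt r (2 * R) with h | h
  · have ht := tc_mem hR ⟨hr, h⟩
    rw [ptR, if_pos h] at hg ⊢
    exact (pair_in hR hs rfl ht hc hd).trans (mul_le_mul_of_nonneg_left
      ((hs.inside _ ht).pair (concQ_mem he) ht hg (Ioc_subset_Icc_self hc) (Ioc_subset_Icc_self hd))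
      hS)
  · rw [ptR, if_neg (not_le.2 h)] at hg ⊢
    have hof := outPin _ _ _ he hs.out
    have hor := Five.outRange hR h.le
    exact (pair_out hR hs h hc hd).trans (mul_le_mul_of_nonneg_left
      ((hof.good _ _ hor).pair hg ⟨zero_lt_one, le_rfl⟩ (hof.endc _ _ hor) (Ioc_subset_Icc_self hc)
        (Ioc_subset_Icc_self hd)) hS)

/-- `sinh r ^ 4` times the weight at cosine zero increases. -/
lemma four_mono (hR : 0 < R) (hs : SolFacts (Real.tanh R ^ 2) B W) :
    MonotoneOn (fun r => Real.sinh r ^ 4 * uU R B W r) (Ioi 0) := by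
  have hd : ∀ x, 0 < x → HasDerivAt (fun x => Real.sinh x ^ 4 * uU R B W x)
      (4 * Real.sinh x ^ 3 * Real.cosh x * uU R B W x +
        Real.sinh x ^ 4 * (ptR R B W x).U') x := fun x hx =>
    (((Real.hasDerivAt_sinh x).pow 4).mul (hasDerivAt_uU hR hs hx).1).congr_deriv (by simp)
  refine monotoneOn_of_deriv_nonneg (convex_Ioi 0)
    (fun x hx => (hd x hx).continuousAt.continuousWithinAt)
    (fun x hx => (hd x (interior_subset hx)).differentiableAt.differentiableWithinAt) fun x hx => ?_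
  have hx0 : 0 < x := interior_subset (s := Ioi (0 : ℝ)) hx
  have hsx := Real.sinh_pos_iff.2 hx0
  rw [(hd x hx0).deriv]
  have := mul_nonneg (pow_nonneg hsx.le 4) (point_facts hR hs hx0).2.2.1
  rw [(ptR_pg hR hx0).1, pc] at this
  refine this.trans_eq ?_
  rw [uU]
  field_simp
  ring

/-- The pointwise facts of the profile. -/
theorem facts_six (hR : 0 < R) (hs : SolFacts (Real.tanh R ^ 2) B W) :
    Profile2D.Facts 6 R (aSix R B W) (betaSix R B)
      (fun r c => uU R B W r + c * uG R B W r)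
      (fun r c => (ptR R B W r).U' + c * (ptR R B W r).G') (fun r _ => uG R B W r)
      (fun r _ => 2 * (Real.sinh r ^ 4 * uU R B W r)) := by
  have hT := tanh_pos hR
  have hsym : ∀ r : ℝ, 0 < r → ∀ c d : ℝ,
      Profile2D.symU 6 R (fun r c => uU R B W r + c * uG R B W r)
        (fun r c => (ptR R B W r).U' + c * (ptR R B W r).G') (fun r _ => uG R B W r) r c d =
        symX (ptR R B W r) c d := fun r hr c d =>
    symU_eq (B := B) (W := W) hR hr (point_facts hR hs hr).2.1 c d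
  have hconv : ∀ r, 0 < r → Real.sinh r ^ 5 * ((ptR R B W r).g * (ptR R B W r).U) =
      Real.sinh r ^ 4 * uU R B W r := fun r hr => by
    have := (Real.sinh_pos_iff.2 hr).ne'
    rw [(ptR_pg hR hr).2, gc, uU]
    field_simp
  have hweight : ∀ r, 0 < r → ∀ c ∈ Icc (-1 : ℝ) 1,
      0 ≤ (ptR R B W r).U + c * (ptR R B W r).G := fun r hr c hc => by
    obtain ⟨h1, h2, -⟩ := point_facts hR hs hr
    linarith [mul_le_mul_of_nonpos_right hc.2 h2]
  have hu : ∀ r c, uU R B W r + c * uG R B W r =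
      Real.tanh R * ((ptR R B W r).U + c * (ptR R B W r).G) := fun r c => by
    rw [uU, uG]; ring
  have hcube : ∀ r, 0 < r → 0 ≤ Real.sinh r ^ 4 * uU R B W r := fun r hr =>
    mul_nonneg (pow_nonneg (Real.sinh_pos_iff.2 hr).le 4) (mul_nonneg hT.le (by
      simpa using hweight r hr 0 ⟨by norm_num, zero_le_one⟩))
  refine ⟨fun r hr c hc => ?_, fun r hr c hc d hd => ?_, fun r hr c hc d hd => ?_,
    fun r hr c hc d hd => ?_, fun r hr c _ => ?_,
    fun c _ x hx y hy hxy => ?_, fun r hr c hc d hd => ?_, fun r hr c hc d hd => ?_⟩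
  · rw [hu]
    exact mul_nonneg hT.le (hweight r hr c hc)
  · have h := (point_facts hR hs hr).2.2.2.2.1 c hc d hd
    rw [hsym r hr, hu, hu, show Real.tanh R * ((ptR R B W r).U + c * (ptR R B W r).G) *
        (Real.tanh R * ((ptR R B W r).U + d * (ptR R B W r).G)) = Real.tanh R ^ 2 *
          (((ptR R B W r).U + c * (ptR R B W r).G) *
            ((ptR R B W r).U + d * (ptR R B W r).G)) by ring,
      Real.sqrt_mul (sq_nonneg _), Real.sqrt_sq hT.le]
    refine h.trans_eq ?_
    rw [(ptR_pg hR hr).2, gc]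
    ring
  · rw [hsym r hr, aSix_eq R B W hc, aSix_eq R B W hd, mul_div_cancel_left₀ _ hc.1.ne',
      mul_div_cancel_left₀ _ hd.1.ne']
    exact pair_facts hR hs hr hc hd
  · obtain ⟨h1, h2⟩ := (point_facts hR hs hr).2.2.2.2.2 c (Ioc_subset_Icc_self hc) d
      (Ioc_subset_Icc_self hd)
    rw [hsym r hr, hsym r hr]
    refine ⟨le_trans (mul_nonneg (mul_nonneg zero_le_two (mul_pos hc.1 hd.1).le)
      (mul_nonneg (point_facts hR hs hr).2.2.2.1 ?_)) h1, h2⟩
    simpa using hweight r hr 0 ⟨by norm_num, zero_le_one⟩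
  · exact mul_nonneg zero_le_two (hcube r hr)
  · exact mul_le_mul_of_nonneg_left (four_mono hR hs hx hy hxy) zero_le_two
  · have hcI : c ∈ Icc (-1 : ℝ) 1 := ⟨by linarith [hc.1], hc.2⟩
    have hdI : d ∈ Icc (-1 : ℝ) 1 := ⟨by linarith [hd.1], hd.2⟩
    obtain ⟨h0, h2, -, hg, hgain, -⟩ := point_facts hR hs hr
    have hsq : Real.sqrt (((ptR R B W r).U + c * (ptR R B W r).G) *
        ((ptR R B W r).U + d * (ptR R B W r).G)) ≤ (ptR R B W r).U := by
      have hU : 0 ≤ (ptR R B W r).U := by linarith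
      rw [Real.sqrt_le_iff, sq]
      refine ⟨hU, mul_le_mul ?_ ?_ (hweight r hr d hdI) hU⟩
      · linarith [mul_nonpos_of_nonneg_of_nonpos hc.1.le h2]
      · linarith [mul_nonpos_of_nonneg_of_nonpos hd.1.le h2]
    have h := hgain c hcI d hdI
    rw [abs_of_pos (mul_pos hc.1 hd.1)] at h
    have h5 := mul_le_mul_of_nonneg_left hsq
      (mul_nonneg (mul_nonneg zero_le_two (mul_pos hc.1 hd.1).le) hg)
    have h6 : -(2 * (c * d) * ((ptR R B W r).g * (ptR R B W r).U)) ≤
        symX (ptR R B W r) c d := by linarith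
    have h7 := mul_le_mul_of_nonneg_left h6 (pow_nonneg (Real.sinh_pos_iff.2 hr).le 5)
    rw [hsym r hr, ← hconv r hr]
    show -(c * d * _) ≤ Real.sinh r ^ 5 * _
    linarith
  · obtain ⟨h1, -⟩ := (point_facts hR hs hr).2.2.2.2.2 c (Ioc_subset_Icc_self hc) d
      (Ioc_subset_Icc_self hd)
    have h7 := mul_le_mul_of_nonneg_left h1 (pow_nonneg (Real.sinh_pos_iff.2 hr).le 5)
    rw [hsym r hr, ← hconv r hr]
    show c * d * _ ≤ Real.sinh r ^ 5 * _
    linarith

/-- The certificate against the ball of radius `R` from a solution. -/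
theorem certAt_six (hR : 0 < R) (hs : SolFacts (Real.tanh R ^ 2) B W) :
    CertAt 6 R (aSix R B W) (betaSix R B) := by
  have hT := tanh_pos hR
  refine Profile2D.certAt_of_profile (by norm_num) hR (smooth_six hR hs) (facts_six hR hs)
    (mul_nonneg (by positivity) hs.rate_nonneg) (measurable_aSix hR hs)
    (fun c hc => aSix_nonpos hR hs hc) ?_ (value_aSix hR hs)
  obtain ⟨M, hM⟩ := isCompact_Icc.exists_bound_of_continuousOn (continuousOn_aSix hR hs)
  exact ⟨M, fun c hc => (abs_le.1 (hM c hc)).1⟩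

/-- Solutions for every `e` give certificates against every ball. -/
theorem cert_six_of_sol
    (h : ∀ e ∈ Ioo (0 : ℝ) 1, ∃ (B : ℝ) (W : Wt), SolFacts e B W) : Cert 6 := by
  intro R hR
  obtain ⟨B, W, hs⟩ := h _ (tanh_sq_mem hR)
  exact ⟨_, _, certAt_six hR hs⟩

end Vale.Agent.P219.CH.Relax.Six
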