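import Vale.Agent.P219.Relax.Six.Pt
import Vale.Agent.P219.Relax.Five.Profile

/-!
# P219, dimension six: the weight beyond the diameter as a function of the distance

The data are read at `p = tanh R * coth r`, `g = tanh R / sinh r`. The diagonal at cosine one lies
above the affine continuation of the marginal coefficient, as `sinh ^ 2` is convex.
-/

noncomputable section

open Set

namespace Vale.Agent.P219.CH.Relax.Six

open Five (Pt pc gc tanh_sq_mem)
open GenK.Four (tanh_pos)

/-- The data at distance `r` beyond the diameter. -/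
def ptFar (R XL K r : ℝ) : Pt := ptOut (Real.tanh R ^ 2) XL K (pc R r) (gc R r)

variable {R r XL K : ℝ}

lemma ratF_far (hR : 0 < R) (r : ℝ) :
    ratF (Real.tanh R ^ 2) (gc R r) = Real.sinh (2 * R) / Real.sinh r := by
  have h1 : (1 : ℝ) - Real.tanh R ^ 2 ≠ 0 := (sub_pos.2 (tanh_sq_mem hR).2).ne'
  have h2 : Real.sinh (2 * R) = 2 * Real.tanh R / (1 - Real.tanh R ^ 2) := by
    rw [GenK.Four.sinh_eq, show 2 * R / 2 = R by ring]
  rw [ratF, gc, h2]
  field_simp

lemma hasDerivAt_gc (hr : r ≠ 0) :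
    HasDerivAt (gc R) (-(gc R r * (Real.cosh r / Real.sinh r))) r := by
  have hs : Real.sinh r ≠ 0 := fun h => hr (Real.sinh_eq_zero.1 h)
  refine ((hasDerivAt_const r (Real.tanh R)).div (Real.hasDerivAt_sinh r) hs).congr_deriv ?_
  rw [gc]
  field_simp
  ring

lemma hasDerivAt_ratF (hR : 0 < R) (hr : r ≠ 0) :
    HasDerivAt (fun r => ratF (Real.tanh R ^ 2) (gc R r))
      (-(pc R r / Real.tanh R) * ratF (Real.tanh R ^ 2) (gc R r)) r := by
  have hT := (tanh_pos hR).ne'
  unfold ratF
  refine (((hasDerivAt_gc hr).const_mul 2).div_const _).congr_deriv ?_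
  rw [pc]
  field_simp

/-- The derivatives of the weight are the data. -/
lemma hasDerivAt_far (hR : 0 < R) (hr : 2 * R ≤ r) :
    HasDerivAt (fun r => Real.tanh R * (ptFar R XL K r).U) (ptFar R XL K r).U' r ∧
      HasDerivAt (fun r => Real.tanh R * (ptFar R XL K r).G) (ptFar R XL K r).G' r := by
  have h0 : 0 < r := by linarith
  have hs : Real.sinh r ≠ 0 := (Real.sinh_pos_iff.2 h0).ne'
  have hT : Real.tanh R ≠ 0 := (tanh_pos hR).ne'
  have he := tanh_sq_mem hR
  have h1e : (1 : ℝ) - Real.tanh R ^ 2 ≠ 0 := (sub_pos.2 he.2).ne'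
  have h2e : (1 : ℝ) + Real.tanh R ^ 2 ≠ 0 := by linarith [he.1]
  have h1 : 1 - pc R r ≠ 0 := (sub_pos.2 (Five.pc_lt_one hR hr)).ne'
  have hp : HasDerivAt (pc R) (-(gc R r ^ 2 / Real.tanh R)) r := by
    refine (Five.hasDerivAt_pc h0.ne').congr_deriv ?_
    rw [gc]
    field_simp
  have hq := hasDerivAt_ratF hR h0.ne'
  have hX : HasDerivAt (fun r => XF XL K (ratF (Real.tanh R ^ 2) (gc R r)))
      (-(pc R r / Real.tanh R) * XF' XL K (ratF (Real.tanh R ^ 2) (gc R r))) r := by
    unfold XF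
    refine (((hq.pow 5).const_mul XL).add (((hq.pow 3).sub (hq.pow 5)).const_mul K)).congr_deriv ?_
    simp only [XF']
    push_cast
    ring
  have hH : HasDerivAt (fun r => HF (Real.tanh R ^ 2) (ratF (Real.tanh R ^ 2) (gc R r)))
      (-(pc R r / Real.tanh R) * HF' (Real.tanh R ^ 2) (ratF (Real.tanh R ^ 2) (gc R r))) r := by
    unfold HF
    refine ((hq.const_mul _).mul ((((hq.pow 2).const_mul _).const_add _).div_const _)).congr_deriv ?_
    simp only [HF', Pi.pow_apply]
    push_cast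
    ring
  constructor
  · refine ((((hX.const_sub 1).div ((hp.const_sub 1).const_mul 5)
      (mul_ne_zero (by norm_num) h1)).add hH).const_mul (Real.tanh R)).congr_deriv ?_
    simp only [ptFar, ptOut]
    field_simp
    ring
  · refine (hH.neg.const_mul (Real.tanh R)).congr_deriv ?_
    simp only [ptFar, ptOut]
    field_simp

lemma diag_out_one {e p : ℝ} (g : ℝ) (hp : p < 1) :
    diag (ptOut e XL K p g) 1 = XF XL K (ratF e g) := by
  have : 1 - p ≠ 0 := (sub_pos.2 hp).ne'
  simp only [diag, k0, k1, k2, k3, ptOut]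
  field_simp
  ring

/-- The growth rate of the affine continuation that the continuation dominates. -/
def farRate (R K : ℝ) : ℝ :=
  K * (1 + Real.tanh R ^ 2) * Real.sinh (2 * R) ^ 5 / Real.tanh R

/-- The diagonal at cosine one dominates the affine continuation. -/
lemma affine_le_far (hR : 0 < R) (hr : 2 * R ≤ r) (hK : 0 ≤ K) :
    XL * Real.sinh (2 * R) ^ 5 + farRate R K * (r - 2 * R) ≤
      Real.sinh r ^ 5 * diag (ptFar R XL K r) 1 := by
  obtain ⟨L, hL⟩ : ∃ L, L = 2 * R := ⟨_, rfl⟩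
  obtain ⟨w, hw⟩ : ∃ w, w = r - L := ⟨_, rfl⟩
  have hL0 : 0 < L := by linarith
  have hw0 : 0 ≤ w := by linarith
  have hr0 : 0 < r := by linarith
  have hs := Real.sinh_pos_iff.2 hr0
  have hsL := Real.sinh_pos_iff.2 hL0
  rw [ptFar, diag_out_one _ (Five.pc_lt_one hR hr), ratF_far hR, XF, ← hL]
  have hrate : farRate R K = 2 * K * Real.sinh L ^ 4 * Real.cosh L := by
    have h := Five.pc_diam hR
    rw [pc, ← hL] at h
    have := (tanh_pos hR).ne'
    rw [farRate, ← hL]
    field_simp at h ⊢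
    linear_combination -K * h
  have hconv : 2 * Real.sinh L * Real.cosh L * w ≤ Real.sinh r ^ 2 - Real.sinh L ^ 2 := by
    have e1 : Real.sinh r ^ 2 - Real.sinh L ^ 2 = Real.sinh w * Real.sinh (r + L) := by
      rw [hw, Real.sinh_sub, Real.sinh_add]
      linear_combination Real.sinh L ^ 2 * Real.cosh_sq r - Real.sinh r ^ 2 * Real.cosh_sq L
    rw [e1, ← Real.sinh_two_mul]
    exact (mul_comm _ w).trans_le (mul_le_mul (Real.self_le_sinh_iff.2 hw0)
      (Real.sinh_le_sinh.2 (by linarith)) (Real.sinh_nonneg_iff.2 (by linarith))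
      (Real.sinh_nonneg_iff.2 hw0))
  have e2 : Real.sinh r ^ 5 * (XL * (Real.sinh L / Real.sinh r) ^ 5 +
      K * ((Real.sinh L / Real.sinh r) ^ 3 - (Real.sinh L / Real.sinh r) ^ 5)) =
      XL * Real.sinh L ^ 5 + K * Real.sinh L ^ 3 * (Real.sinh r ^ 2 - Real.sinh L ^ 2) := by
    field_simp
  rw [e2, hrate, ← hw]
  linarith [mul_le_mul_of_nonneg_left hconv (mul_nonneg hK (pow_nonneg hsL.le 3))]

end Vale.Agent.P219.CH.Relax.Six
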