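import Vale.Agent.P219.Relax.Six.Sol
import Vale.Agent.P219.Relax.Six.OutProfile
import Vale.Agent.P219.Relax.Five.Cert
import Vale.Agent.P219.Relax.Profile2D.Weight

/-!
# P219, dimension six: the weight as a function of the distance

Inside the diameter the data are read at `t = tanh (r / 2) / tanh R`, beyond it at
`p = tanh R * coth r`. The two sides join with continuous first derivatives, and near the centre the
weight grows no faster than the inverse cube.
-/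

noncomputable section

open Set Filter Topology

namespace Vale.Agent.P219.CH.Relax.Six

open Five (Pt tc pc gc yf yf_pos tanh_sq_mem tc_mem tc_diam pc_diam gc_diam hasDerivAt_tc
  hasDerivAt_glue)
open GenK.Four (tanh_pos)

/-- The data at distance `r`. -/
def ptR (R B : ℝ) (W : Wt) (r : ℝ) : Pt :=
  if r ≤ 2 * R then ptIn (Real.tanh R ^ 2) W (tc R r)
  else ptFar R (xlOf (Real.tanh R ^ 2) W.V) (kOf (Real.tanh R ^ 2) B) r

/-- The weight at cosine zero. -/
def uU (R B : ℝ) (W : Wt) (r : ℝ) : ℝ := Real.tanh R * (ptR R B W r).U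

/-- The slope of the weight in the cosine. -/
def uG (R B : ℝ) (W : Wt) (r : ℝ) : ℝ := Real.tanh R * (ptR R B W r).G

variable {R B : ℝ} {W : Wt} {r : ℝ}

/-- The two sides join with the derivative. -/
theorem ptFar_join (hR : 0 < R) (hs : SolFacts (Real.tanh R ^ 2) B W) :
    ptFar R (xlOf (Real.tanh R ^ 2) W.V) (kOf (Real.tanh R ^ 2) B) (2 * R) =
      ptIn (Real.tanh R ^ 2) W 1 := by
  obtain ⟨e, he⟩ : ∃ e, e = Real.tanh R ^ 2 := ⟨_, rfl⟩
  have hje := hs.join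
  have hP := hs.slope_end
  have hP' := hs.slope_end'
  rw [ptFar, pc_diam hR, gc_diam hR]
  rw [← he] at hje hP hP' ⊢
  obtain ⟨he0, he1⟩ : e ∈ Ioo (0 : ℝ) 1 := he ▸ tanh_sq_mem hR
  have hd : 1 - e ≠ 0 := (sub_pos.2 he1).ne'
  have h2 : 1 + e ≠ 0 := by linarith
  have hr : ratF e ((1 - e) / 2) = 1 := by rw [ratF]; field_simp
  have hp : (1 : ℝ) - (1 + e) / 2 = (1 - e) / 2 := by ring
  have hy : yf e 1 = 1 - e := by rw [yf]; ring
  have hH : HF e 1 = -W.P 1 := by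
    rw [hP]
    simp only [HF]
    field_simp
    ring
  have hH' : (1 + e) / 2 * HF' e 1 = (1 - e) / 2 * W.P1 1 := by
    rw [hP']
    simp only [HF']
    field_simp
    ring
  have hX : XF (xlOf e W.V) (kOf e B) 1 = xlOf e W.V := by rw [XF]; ring
  have hX' : XF' (xlOf e W.V) (kOf e B) 1 = 5 * xlOf e W.V - 2 * kOf e B := by rw [XF']; ring
  simp only [ptOut, ptIn, hr, hp, hH, hX, hX', hH', hy, Pt.mk.injEq]
  refine ⟨?_, ?_, by ring, trivial, by ring, by ring⟩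
  · simp only [xlOf]
    field_simp
    ring
  · rw [show (1 - e) / 2 * (W.V1 1 - W.P 1 - 1 * W.P1 1) =
      (1 - e) / 2 * (W.V1 1 - W.P 1) - (1 - e) / 2 * W.P1 1 by ring, hje]
    simp only [xlOf, kOf]
    field_simp
    ring

lemma ptR_out (hR : 0 < R) (hs : SolFacts (Real.tanh R ^ 2) B W) (hr : 2 * R ≤ r) :
    ptR R B W r = ptFar R (xlOf (Real.tanh R ^ 2) W.V) (kOf (Real.tanh R ^ 2) B) r := by
  rcases hr.eq_or_lt with h | h
  · rw [← h, ptR, if_pos le_rfl, tc_diam hR, ptFar_join hR hs]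
  · rw [ptR, if_neg (not_le.2 h)]

lemma ptIn_pg (hR : 0 < R) (hr : 0 < r) :
    (ptIn (Real.tanh R ^ 2) W (tc R r)).p = pc R r ∧
      (ptIn (Real.tanh R ^ 2) W (tc R r)).g = gc R r :=
  Five.ptIn_pg hR hr

lemma ptR_pg (hR : 0 < R) (hr : 0 < r) :
    (ptR R B W r).p = pc R r ∧ (ptR R B W r).g = gc R r := by
  unfold ptR
  split_ifs with h
  · exact ptIn_pg hR hr
  · exact ⟨rfl, rfl⟩

/-! ## Derivatives -/

lemma hasDerivAt_in (hR : 0 < R) (hs : SolFacts (Real.tanh R ^ 2) B W)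
    (hr : r ∈ Ioc 0 (2 * R)) :
    HasDerivAt (fun r => Real.tanh R * (ptIn (Real.tanh R ^ 2) W (tc R r)).U)
        (ptIn (Real.tanh R ^ 2) W (tc R r)).U' r ∧
      HasDerivAt (fun r => Real.tanh R * (ptIn (Real.tanh R ^ 2) W (tc R r)).G)
        (ptIn (Real.tanh R ^ 2) W (tc R r)).G' r := by
  have he := tanh_sq_mem hR
  have hT := (tanh_pos hR).ne'
  have htm := tc_mem hR hr
  have ht := hasDerivAt_tc hR r
  have hV := (hs.deriv _ htm).comp r ht
  have hP := (hs.deriv_slope _ htm).comp r ht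
  constructor
  · refine ((hV.sub (ht.mul hP)).const_mul (Real.tanh R)).congr_deriv ?_
    simp only [ptIn, Function.comp_apply]
    field_simp
    ring
  · refine (hP.const_mul (Real.tanh R)).congr_deriv ?_
    simp only [ptIn]
    field_simp

lemma glue_field {F : Pt → ℝ} (R B : ℝ) (W : Wt) :
    (fun r => Real.tanh R * F (ptR R B W r)) = fun r => if r ≤ 2 * R then
      Real.tanh R * F (ptIn (Real.tanh R ^ 2) W (tc R r)) else
      Real.tanh R * F (ptFar R (xlOf (Real.tanh R ^ 2) W.V) (kOf (Real.tanh R ^ 2) B) r) := by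
  funext r
  unfold ptR
  split_ifs <;> rfl

theorem hasDerivAt_uU (hR : 0 < R) (hs : SolFacts (Real.tanh R ^ 2) B W) (hr : 0 < r) :
    HasDerivAt (uU R B W) (ptR R B W r).U' r ∧
      HasDerivAt (uG R B W) (ptR R B W r).G' r := by
  have hU : uU R B W = fun r => Real.tanh R * Pt.U (ptR R B W r) := rfl
  have hG : uG R B W = fun r => Real.tanh R * Pt.G (ptR R B W r) := rfl
  rw [hU, hG, glue_field, glue_field]
  rcases lt_trichotomy r (2 * R) with h | h | h
  · obtain ⟨a, b⟩ := hasDerivAt_in hR hs ⟨hr, h.le⟩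
    have hev : ∀ᶠ x in 𝓝 r, x ≤ 2 * R := eventually_of_mem (Iio_mem_nhds h) fun x hx => le_of_lt hx
    rw [ptR, if_pos h.le]
    exact ⟨a.congr_of_eventuallyEq (hev.mono fun x hx => if_pos hx),
      b.congr_of_eventuallyEq (hev.mono fun x hx => if_pos hx)⟩
  · subst h
    obtain ⟨a, b⟩ := hasDerivAt_in hR hs ⟨hr, le_rfl⟩
    obtain ⟨c, d⟩ := hasDerivAt_far (XL := xlOf (Real.tanh R ^ 2) W.V)
      (K := kOf (Real.tanh R ^ 2) B) hR (le_refl (2 * R))
    have e : ptFar R (xlOf (Real.tanh R ^ 2) W.V) (kOf (Real.tanh R ^ 2) B) (2 * R) =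
        ptIn (Real.tanh R ^ 2) W (tc R (2 * R)) := by
      rw [ptFar_join hR hs, tc_diam hR]
    rw [e] at c d
    rw [ptR, if_pos le_rfl]
    exact ⟨hasDerivAt_glue a c (by rw [e]), hasDerivAt_glue b d (by rw [e])⟩
  · obtain ⟨c, d⟩ := hasDerivAt_far (XL := xlOf (Real.tanh R ^ 2) W.V)
      (K := kOf (Real.tanh R ^ 2) B) hR h.le
    have hev : ∀ᶠ x in 𝓝 r, ¬ x ≤ 2 * R :=
      eventually_of_mem (Ioi_mem_nhds h) fun x hx => not_le.2 hx
    rw [ptR, if_neg (not_le.2 h)]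
    exact ⟨c.congr_of_eventuallyEq (hev.mono fun x hx => if_neg hx),
      d.congr_of_eventuallyEq (hev.mono fun x hx => if_neg hx)⟩

/-- Two continuous pieces with one value at the join. -/
lemma continuousOn_glue {f g h : ℝ → ℝ} {L : ℝ} (hL : 0 < L) (hf : ContinuousOn f (Ioc 0 L))
    (hg : ContinuousOn g (Ici L)) (h₁ : ∀ r ∈ Ioc 0 L, h r = f r) (h₂ : ∀ r, L ≤ r → h r = g r) :
    ContinuousOn h (Ioi 0) := by
  refine ContinuousOn.congr (f := fun r => f (min r L) + g (max r L) - g L) ?_ fun r hr => ?_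
  · exact ((hf.comp (continuous_id.min continuous_const).continuousOn
      fun r hr => ⟨lt_min hr hL, min_le_right _ _⟩).add
      (hg.comp (continuous_id.max continuous_const).continuousOn
        fun r _ => le_max_right r L)).sub continuousOn_const
  · simp only
    rcases le_total r L with hrL | hrL
    · rw [min_eq_left hrL, max_eq_right hrL, h₁ r ⟨hr, hrL⟩]
      ring
    · rw [min_eq_right hrL, max_eq_left hrL, h₂ r hrL, ← h₁ L ⟨hL, le_rfl⟩, h₂ L le_rfl]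
      ring

theorem continuousOn_deriv (hR : 0 < R) (hs : SolFacts (Real.tanh R ^ 2) B W) :
    ContinuousOn (fun r => (ptR R B W r).U') (Ioi 0) ∧
      ContinuousOn (fun r => (ptR R B W r).G') (Ioi 0) := by
  have he := tanh_sq_mem hR
  have htc : ContinuousOn (tc R) (Ioc 0 (2 * R)) := fun r _ =>
    (hasDerivAt_tc hR r).continuousAt.continuousWithinAt
  have hm : MapsTo (tc R) (Ioc 0 (2 * R)) (Ioc 0 1) := fun r hr => tc_mem hR hr
  have hpc : ContinuousOn (pc R) (Ici (2 * R)) := fun r hr =>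
    (Five.hasDerivAt_pc
      (show r ≠ 0 by linarith [show 2 * R ≤ r from hr])).continuousAt.continuousWithinAt
  have hgc : ContinuousOn (gc R) (Ici (2 * R)) := fun r hr =>
    (hasDerivAt_gc (show r ≠ 0 by linarith [show 2 * R ≤ r from hr])).continuousAt.continuousWithinAt
  have hP0 : ContinuousOn W.P (Ioc 0 1) :=
    fun t ht => (hs.deriv_slope t ht).continuousAt.continuousWithinAt
  have hP := hP0.comp htc hm
  have hP' := hs.cont_slope.comp htc hm
  have hV := hs.cont.comp htc hm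
  have h1 : ∀ r ∈ Ici (2 * R), 1 - pc R r ≠ 0 := fun r hr =>
    (sub_pos.2 (Five.pc_lt_one hR hr)).ne'
  have h2 : ∀ r ∈ Ici (2 * R), (1 - pc R r) ^ 2 ≠ 0 := fun r hr => pow_ne_zero 2 (h1 r hr)
  refine ⟨continuousOn_glue (L := 2 * R) (by linarith)
      (f := fun r => (ptIn (Real.tanh R ^ 2) W (tc R r)).U')
      (g := fun r => (ptFar R (xlOf (Real.tanh R ^ 2) W.V) (kOf (Real.tanh R ^ 2) B) r).U')
      ?_ ?_ (fun r hr => by rw [ptR, if_pos hr.2]) (fun r hr => by rw [ptR_out hR hs hr]),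
    continuousOn_glue (L := 2 * R) (by linarith)
      (f := fun r => (ptIn (Real.tanh R ^ 2) W (tc R r)).G')
      (g := fun r => (ptFar R (xlOf (Real.tanh R ^ 2) W.V) (kOf (Real.tanh R ^ 2) B) r).G')
      ?_ ?_ (fun r hr => by rw [ptR, if_pos hr.2]) (fun r hr => by rw [ptR_out hR hs hr])⟩
  · exact ((continuousOn_const.sub (continuousOn_const.mul (htc.pow 2))).div_const 2).mul
      ((hV.sub hP).sub (htc.mul hP'))
  · have hne1 : ∀ r ∈ Ici (2 * R), 5 * (1 - pc R r) ≠ 0 := fun r hr =>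
      mul_ne_zero (by norm_num) (h1 r hr)
    have hne2 : ∀ r ∈ Ici (2 * R), 5 * (1 - pc R r) ^ 2 ≠ 0 := fun r hr =>
      mul_ne_zero (by norm_num) (h2 r hr)
    simp only [ptFar, ptOut, XF, XF', HF', ratF]
    fun_prop (disch := assumption)
  · exact ((continuousOn_const.sub (continuousOn_const.mul (htc.pow 2))).div_const 2).mul hP'
  · simp only [ptFar, ptOut, HF', ratF]
    fun_prop

/-! ## The bound at the centre -/

lemma inv_tc_le (hR : 0 < R) (hr : r ∈ Ioc 0 (2 * R)) :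
    1 / tc R r ≤ 2 * Real.tanh R / (1 - Real.tanh R ^ 2) / r := by
  have he := tanh_sq_mem hR
  have ht := tc_mem hR hr
  have hd := sub_pos.2 he.2
  have hy : 1 - Real.tanh R ^ 2 ≤ yf (Real.tanh R ^ 2) (tc R r) := by
    rw [yf]
    linarith [mul_le_mul_of_nonneg_left (pow_le_one₀ (n := 2) ht.1.le ht.2) he.1.le]
  have h := Real.self_le_sinh_iff.2 hr.1.le
  rw [Five.sinh_tc hR, le_div_iff₀ (hd.trans_le hy)] at h
  rw [div_div, div_le_div_iff₀ ht.1 (mul_pos hd hr.1), one_mul]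
  linarith [mul_le_mul_of_nonneg_left hy hr.1.le]

lemma bound_in {e : ℝ} (he : e ∈ Ioo (0 : ℝ) 1) (hs : SolFacts e B W) :
    ∃ D, 0 ≤ D ∧ ∀ t ∈ Ioc (0 : ℝ) 1,
      |(ptIn e W t).U| ≤ D / t ^ 2 ∧ |(ptIn e W t).G| ≤ D / t ^ 2 ∧
      |(ptIn e W t).U'| ≤ D / t ^ 2 ∧ |(ptIn e W t).G'| ≤ D / t ^ 3 := by
  obtain ⟨C, hC⟩ := hs.centre
  obtain ⟨C', hC'⟩ := hs.centre_slope
  refine ⟨|C| + 2 * |C'|, by positivity, fun t ht => ?_⟩
  obtain ⟨hCV, hC1⟩ := hC t ht
  obtain ⟨hCP, hCP1⟩ := hC' t ht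
  obtain ⟨ht0, ht1⟩ := ht
  have ht2 : 0 < t ^ 2 := pow_pos ht0 2
  have hp1 : t ^ 2 * |W.P t| ≤ |C'| := by
    rw [abs_mul, abs_of_pos ht2] at hCP
    exact hCP.trans (le_abs_self C')
  have hp2 : t ^ 3 * |W.P1 t| ≤ |C'| := by
    rw [abs_mul, abs_of_pos (pow_pos ht0 3)] at hCP1
    exact hCP1.trans (le_abs_self C')
  have hy : yf e t ∈ Icc (0 : ℝ) 1 := ⟨(yf_pos he ⟨ht0.le, ht1⟩).le, by
    rw [yf]; linarith [mul_nonneg he.1.le ht2.le]⟩
  have hv : t ^ 2 * |W.V t| ≤ |C| := by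
    rw [abs_mul, abs_of_pos ht0] at hCV
    calc t ^ 2 * |W.V t| = t * (t * |W.V t|) := by ring
      _ ≤ 1 * |C| := mul_le_mul ht1 (hCV.trans (le_abs_self C)) (by positivity) zero_le_one
      _ = |C| := one_mul _
  have hv1 : t ^ 2 * |W.V1 t| ≤ |C| := by
    rw [abs_mul, abs_of_pos ht2] at hC1
    exact hC1.trans (le_abs_self C)
  have hsmall : ∀ x, 0 ≤ x → t * x ≤ x := fun x hx => mul_le_of_le_one_left hx ht1
  have hC0 := abs_nonneg C
  have hC0' := abs_nonneg C'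
  have hy' : |yf e t / 2| ≤ 1 := by
    rw [abs_of_nonneg (by linarith [hy.1])]; linarith [hy.2]
  simp only [le_div_iff₀ ht2, le_div_iff₀ (pow_pos ht0 3)]
  refine ⟨?_, ?_, ?_, ?_⟩
  · have h := abs_sub (W.V t) (t * W.P t)
    rw [abs_mul t, abs_of_pos ht0] at h
    have h2 := mul_le_mul_of_nonneg_left
      (h.trans (add_le_add_right (hsmall _ (abs_nonneg (W.P t))) _)) ht2.le
    simp only [ptIn]
    linarith
  · simp only [ptIn]
    linarith
  · have h := abs_sub (W.V1 t - W.P t) (t * W.P1 t)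
    have h' := abs_sub (W.V1 t) (W.P t)
    rw [abs_mul t, abs_of_pos ht0] at h
    have h3 := mul_le_of_le_one_left (abs_nonneg (W.V1 t - W.P t - t * W.P1 t)) hy'
    have h4 := mul_le_mul_of_nonneg_left (h3.trans (h.trans (add_le_add h' le_rfl))) ht2.le
    simp only [ptIn, abs_mul]
    linarith
  · have h3 := mul_le_of_le_one_left (abs_nonneg (W.P1 t)) hy'
    have h4 := mul_le_mul_of_nonneg_left h3 (pow_nonneg ht0.le 3)
    simp only [ptIn, abs_mul]
    linarith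

/-- The profile is smooth with the growth of the regularisation. -/
theorem smooth_six (hR : 0 < R) (hs : SolFacts (Real.tanh R ^ 2) B W) :
    Profile2D.Smooth (fun r c => uU R B W r + c * uG R B W r)
      (fun r c => (ptR R B W r).U' + c * (ptR R B W r).G') (fun r _ => uG R B W r) := by
  obtain ⟨hcU, hcG⟩ := continuousOn_deriv hR hs
  have hcu : ContinuousOn (uU R B W) (Ioi 0) ∧ ContinuousOn (uG R B W) (Ioi 0) :=
    ⟨fun r hr => (hasDerivAt_uU hR hs hr).1.continuousAt.continuousWithinAt,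
      fun r hr => (hasDerivAt_uU hR hs hr).2.continuousAt.continuousWithinAt⟩
  have hfst : MapsTo Prod.fst (Ioi (0 : ℝ) ×ˢ (univ : Set ℝ)) (Ioi 0) := fun x hx => hx.1
  refine ⟨fun r hr c => (hasDerivAt_uU hR hs hr).1.add ((hasDerivAt_uU hR hs hr).2.const_mul c),
    fun r _ c => (((hasDerivAt_id c).mul_const _).const_add _).congr_deriv (one_mul _),
    (hcU.comp continuousOn_fst hfst).add (continuousOn_snd.mul (hcG.comp continuousOn_fst hfst)),
    hcu.2.comp continuousOn_fst hfst, ?_⟩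
  obtain ⟨D, hD0, hD⟩ := bound_in (tanh_sq_mem hR) hs
  obtain ⟨M, hM⟩ : ∃ M, M = 2 * Real.tanh R / (1 - Real.tanh R ^ 2) := ⟨_, rfl⟩
  have hT := tanh_pos hR
  have hT1 : Real.tanh R ≤ 1 := (Real.tanh_lt_one R).le
  have key : ∀ f : ℝ → ℝ, ContinuousOn f (Ioi 0) →
      (∀ r ∈ Ioc 0 (2 * R), |f r| ≤ D / tc R r ^ 3) →
      ∃ E, ∀ r ∈ Ioc (0 : ℝ) 1, |f r| ≤ E / r ^ 3 := by
    intro f hf hb
    obtain ⟨E, hE⟩ := isCompact_Icc.exists_bound_of_continuousOn
      (hf.mono (fun r (hr : r ∈ Icc (2 * R) (max 1 (2 * R))) =>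
        show 0 < r from (by linarith : (0 : ℝ) < 2 * R).trans_le hr.1))
    have hM0 : 0 ≤ M := hM ▸ div_nonneg (by positivity) (sub_pos.2 (tanh_sq_mem hR).2).le
    refine ⟨max E 0 + D * M ^ 3, fun r hr => ?_⟩
    have hr3 : 0 < r ^ 3 := pow_pos hr.1 3
    rw [le_div_iff₀ hr3]
    rcases le_total r (2 * R) with h | h
    · have ht := tc_mem hR ⟨hr.1, h⟩
      have hi := inv_tc_le hR ⟨hr.1, h⟩
      rw [← hM, div_le_div_iff₀ ht.1 hr.1, one_mul] at hi
      have h1 := hb r ⟨hr.1, h⟩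
      rw [le_div_iff₀ (pow_pos ht.1 3)] at h1
      calc |f r| * r ^ 3 ≤ |f r| * (M * tc R r) ^ 3 :=
          mul_le_mul_of_nonneg_left (pow_le_pow_left₀ hr.1.le hi 3) (abs_nonneg _)
        _ = |f r| * tc R r ^ 3 * M ^ 3 := by ring
        _ ≤ D * M ^ 3 := mul_le_mul_of_nonneg_right h1 (pow_nonneg hM0 3)
        _ ≤ _ := le_add_of_nonneg_left (le_max_right _ _)
    · refine (mul_le_of_le_one_right (abs_nonneg _) (pow_le_one₀ hr.1.le hr.2)).trans ?_
      refine ((hE r ⟨h, hr.2.trans (le_max_left _ _)⟩).trans (le_max_left E 0)).trans ?_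
      exact le_add_of_nonneg_right (by positivity)
  have hin : ∀ r ∈ Ioc 0 (2 * R), ptR R B W r = ptIn (Real.tanh R ^ 2) W (tc R r) :=
    fun r hr => if_pos hr.2
  have hsq : ∀ {x : ℝ} {r : ℝ}, r ∈ Ioc 0 (2 * R) → x ≤ D / tc R r ^ 2 → x ≤ D / tc R r ^ 3 :=
    fun hr hx => hx.trans (div_le_div_of_nonneg_left hD0 (pow_pos (tc_mem hR hr).1 3)
      (pow_le_pow_of_le_one (tc_mem hR hr).1.le (tc_mem hR hr).2 (by norm_num)))
  have habs : ∀ x, |Real.tanh R * x| ≤ |x| := fun x => by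
    rw [abs_mul, abs_of_pos hT]
    exact mul_le_of_le_one_left (abs_nonneg _) hT1
  obtain ⟨E₁, h₁⟩ := key _ hcu.1 fun r hr => by
    rw [uU, hin r hr]; exact hsq hr ((habs _).trans (hD _ (tc_mem hR hr)).1)
  obtain ⟨E₂, h₂⟩ := key _ hcu.2 fun r hr => by
    rw [uG, hin r hr]; exact hsq hr ((habs _).trans (hD _ (tc_mem hR hr)).2.1)
  obtain ⟨E₃, h₃⟩ := key _ hcU fun r hr => by
    rw [hin r hr]; exact hsq hr (hD _ (tc_mem hR hr)).2.2.1
  obtain ⟨E₄, h₄⟩ := key _ hcG fun r hr => by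
    rw [hin r hr]; exact (hD _ (tc_mem hR hr)).2.2.2
  refine ⟨|E₁| + |E₂| + |E₃| + |E₄|, fun r hr c => ?_⟩
  have hr3 : 0 < r ^ 3 := pow_pos hr.1 3
  have a1 := (le_div_iff₀ hr3).1 (h₁ r hr)
  have a2 := (le_div_iff₀ hr3).1 (h₂ r hr)
  have a3 := (le_div_iff₀ hr3).1 (h₃ r hr)
  have a4 := (le_div_iff₀ hr3).1 (h₄ r hr)
  have b : ∀ x : ℝ, x ≤ |x| ∧ 0 ≤ |x| * |c| ∧ x * |c| ≤ |x| * |c| := fun x =>
    ⟨le_abs_self x, by positivity, mul_le_mul_of_nonneg_right (le_abs_self x) (abs_nonneg c)⟩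
  obtain ⟨c1, c1', c1''⟩ := b E₁
  obtain ⟨c2, c2', c2''⟩ := b E₂
  obtain ⟨c3, c3', c3''⟩ := b E₃
  obtain ⟨c4, c4', c4''⟩ := b E₄
  have := abs_nonneg E₁
  have := abs_nonneg E₂
  have := abs_nonneg E₃
  have := abs_nonneg E₄
  simp only [le_div_iff₀ hr3]
  refine ⟨?_, ?_, ?_⟩
  · have h := mul_le_mul_of_nonneg_right (abs_add_le (uU R B W r) (c * uG R B W r)) hr3.le
    rw [abs_mul c] at h
    have := mul_le_mul_of_nonneg_left a2 (abs_nonneg c)
    linarith
  · have h := mul_le_mul_of_nonneg_right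
      (abs_add_le (ptR R B W r).U' (c * (ptR R B W r).G')) hr3.le
    rw [abs_mul c] at h
    have := mul_le_mul_of_nonneg_left a4 (abs_nonneg c)
    linarith
  · linarith

end Vale.Agent.P219.CH.Relax.Six
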