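import Vale.Agent.P219.Relax.Six.InPair
import Vale.Agent.P219.Relax.Six.Out

/-!
# P219, dimension six: the conditions at one distance are strict

With the slope in the cosine negative the mean of the two squared sines is strict off the diagonal,
and on the diagonal the constant coefficient is at least one, so the pair bounds vanish only at
the contact. The margins for the mixed signs follow beyond the diameter from the linear bounds.
-/

noncomputable section

open Set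

namespace Vale.Agent.P219.CH.Relax.Six.Strictly

open Five (Pt affine_nonneg one_sub_sq_nonneg)

/-- The margins at one point. -/
structure Margin (o : Pt) : Prop where
  neg : o.G < 0
  g_pos : 0 < o.g
  pos : 0 < o.U + o.G
  mono : 0 ≤ o.U' + 4 * o.p * o.U
  low : 0 < 1 + (o.U' + 4 * o.p * o.U + o.g * o.G)
  weight : 0 < 1 + (5 * o.p - o.g) * o.U + 5 * o.G
  slope' : o.G' ≤ 5 * o.U
  p_nonneg : 0 ≤ o.p

/-- The kernel sum as a function of the sum and the product. -/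
def kS (o : Pt) (s π : ℝ) : ℝ :=
  2 + o.U' * (2 - s ^ 2 + 2 * π) + o.G' * (s - s * π) +
    o.p * (o.U * (8 + s ^ 2 - 2 * π) + o.G * (4 * s + s * π)) - 5 * (o.U * s + 2 * o.G * π)

lemma kS_eq (o : Pt) (c d : ℝ) : 2 + ker o c d + ker o d c = kS o (c + d) (c * d) := by
  simp only [ker, kS]
  ring

variable {o : Pt}

lemma sqrt_mul_lt_mean {a b : ℝ} (ha : 0 ≤ a) (hb : 0 ≤ b) (hne : a ≠ b) :
    Real.sqrt a * Real.sqrt b < (a + b) / 2 := by
  have h : Real.sqrt a - Real.sqrt b ≠ 0 :=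
    sub_ne_zero.2 fun h => hne ((Real.sqrt_inj ha hb).1 h)
  linarith [pow_two_pos_of_ne_zero h, Real.sq_sqrt ha, Real.sq_sqrt hb]

lemma lt_symX_of_bound (hG : o.G < 0) (hg : 0 < o.g) {c d B : ℝ} (hpos : 0 < |c| + |d|)
    (hB : Real.sqrt (1 - c ^ 2) * Real.sqrt (1 - d ^ 2) < B) :
    2 + ker o c d + ker o d c + o.g * o.G * (|c| + |d|) * B < symX o c d := by
  have : o.g * o.G * (|c| + |d|) < 0 :=
    mul_neg_of_neg_of_pos (mul_neg_of_pos_of_neg hg hG) hpos
  have := mul_lt_mul_of_neg_left hB this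
  rw [symX]
  linarith

lemma symB_lt_symX (hG : o.G < 0) (hg : 0 < o.g) {c d : ℝ} (hc : c ∈ Icc (-1 : ℝ) 1)
    (hd : d ∈ Icc (-1 : ℝ) 1) (hne : |c| ≠ |d|) : symB o c d < symX o c d := by
  have hpos : 0 < |c| + |d| := by
    rcases (abs_nonneg c).eq_or_lt with h | h
    · rcases (abs_nonneg d).eq_or_lt with h' | h'
      · exact absurd (h.symm.trans h') hne
      · linarith
    · linarith [abs_nonneg d]
  have hsq : 1 - c ^ 2 ≠ 1 - d ^ 2 := fun h => hne ((sq_eq_sq_iff_abs_eq_abs c d).1 (by linarith))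
  refine lt_of_eq_of_lt ?_ (lt_symX_of_bound hG hg hpos
    (sqrt_mul_lt_mean (one_sub_sq_nonneg hc) (one_sub_sq_nonneg hd) hsq))
  rw [symB]
  ring

/-- The master reduction is strict off the diagonal. -/
lemma pair_nonneg_lt (hG : o.G < 0) (hg : 0 < o.g) {M : ℝ → ℝ}
    (hdiag : ∀ m ∈ Ioc (0 : ℝ) 1, 0 ≤ 2 * diag o m + m ^ 2 * M (2 * m))
    (hzero : ∀ c ∈ Icc (0 : ℝ) 1, 0 ≤ symB o c 0)
    (hend : ∀ c ∈ Icc (0 : ℝ) 1, 0 ≤ symE o c + c * M (c + 1))
    {c d : ℝ} (hc : c ∈ Icc (0 : ℝ) 1) (hd : d ∈ Icc (0 : ℝ) 1) (hne : c ≠ d) :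
    0 < symX o c d + c * d * M (c + d) := by
  obtain ⟨hc0, hc1⟩ := hc
  obtain ⟨hd0, hd1⟩ := hd
  have hπ0 : 0 ≤ c * d := mul_nonneg hc0 hd0
  have hπ : c * d ≤ (c + d) ^ 2 / 4 := by linarith [sq_nonneg (c - d)]
  have hcI : c ∈ Icc (-1 : ℝ) 1 := ⟨by linarith, hc1⟩
  have hdI : d ∈ Icc (-1 : ℝ) 1 := ⟨by linarith, hd1⟩
  obtain ⟨s, hs⟩ : ∃ s, s = c + d := ⟨_, rfl⟩
  rw [← hs] at hπ ⊢
  rcases le_total s 1 with h1 | h1
  · have h0 : 0 < s := by
      rcases hc0.eq_or_lt with h | h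
      · rcases hd0.eq_or_lt with h' | h'
        · exact absurd (h.symm.trans h') hne
        · linarith
      · linarith
    have e : ∀ a b : ℝ, 0 ≤ a → 0 ≤ b → a + b = s → symB o a b + a * b * M s =
        (kS o s 0 + o.g * o.G * s * (1 - s ^ 2 / 2)) + (2 * o.U' - s * o.G' +
          o.p * (-2 * o.U + s * o.G) - 10 * o.G + o.g * o.G * s + M s) * (a * b) := by
      intro a b ha hb hab
      subst hab
      rw [symB, abs_of_nonneg ha, abs_of_nonneg hb, kS_eq]
      simp only [kS]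
      ring
    have ea := e s 0 h0.le le_rfl (add_zero s)
    have eb := e (s / 2) (s / 2) (by linarith) (by linarith) (by ring)
    have ha := hzero s ⟨h0.le, h1⟩
    have hb := hdiag (s / 2) ⟨by linarith, by linarith⟩
    rw [← symB_diag o (by linarith : (0 : ℝ) ≤ s / 2)] at hb
    rw [show 2 * (s / 2) = s by ring, sq] at hb
    rw [eb] at hb
    simp only [mul_zero, zero_mul, add_zero] at ea
    rw [ea] at ha
    have hx := affine_nonneg hπ0 hπ (by simpa using ha)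
      (by rw [show s ^ 2 / 4 = s / 2 * (s / 2) by ring]; exact hb)
    rw [← e c d hc0 hd0 hs.symm] at hx
    have hne' : |c| ≠ |d| := by rwa [abs_of_nonneg hc0, abs_of_nonneg hd0]
    linarith [symB_lt_symX hG hg hcI hdI hne']
  · have h2 : s < 2 := lt_of_le_of_ne (by linarith) fun h =>
      hne (by linarith [hs ▸ h])
    obtain ⟨H, hH⟩ : ∃ H, H = s ^ 2 / 4 := ⟨_, rfl⟩
    have hH1 : H < 1 := by rw [hH]; nlinarith
    have hH0 : 0 ≤ H := by rw [hH]; positivity
    obtain ⟨κ, hκ⟩ : ∃ κ, κ = (1 + H) / (1 - H) := ⟨_, rfl⟩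
    obtain ⟨L, hL⟩ : ∃ L : ℝ → ℝ,
        ∀ π, L π = kS o s π + o.g * o.G * s * (1 - H + κ * (π - H)) + π * M s :=
      ⟨_, fun _ => rfl⟩
    have hlin : ∀ π, L π = L 0 + (L 1 - L 0) * π := fun π => by
      simp only [hL, kS]
      ring
    have ha : 0 ≤ L (s - 1) := by
      have h := hend (s - 1) ⟨by linarith, by linarith⟩
      rw [show s - 1 + 1 = s by ring] at h
      have eB : (1 - (s - 1) ^ 2) / (3 + (s - 1)) = 1 - H + κ * (s - 1 - H) := by
        rw [hκ, hH]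
        have : (1 : ℝ) - s ^ 2 / 4 ≠ 0 := by linarith
        have : (4 : ℝ) - s ^ 2 ≠ 0 := by linarith
        have : (3 : ℝ) + (s - 1) ≠ 0 := by linarith
        field_simp
        ring
      refine h.trans_eq ?_
      rw [hL, symE, kS_eq, eB, show s - 1 + 1 = s by ring, mul_one, show 1 + (s - 1) = s by ring]
    have hb : 0 ≤ L H := by
      have h := hdiag (s / 2) ⟨by linarith, by linarith⟩
      rw [show 2 * (s / 2) = s by ring, ← symB_diag o (by linarith : (0 : ℝ) ≤ s / 2)] at h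
      refine h.trans_eq ?_
      rw [hL, symB, kS_eq, show s / 2 + s / 2 = s by ring, abs_of_nonneg (by linarith : 0 ≤ s / 2),
        show s / 2 + s / 2 = s by ring, hH]
      ring_nf
    rw [hlin] at ha hb
    have hlo : s - 1 ≤ c * d := by nlinarith [mul_nonneg (sub_nonneg.2 hc1) (sub_nonneg.2 hd1)]
    have hx := affine_nonneg hlo (hπ.trans_eq hH.symm) ha hb
    rw [← hlin, hL] at hx
    have hB : Real.sqrt (1 - c ^ 2) * Real.sqrt (1 - d ^ 2) < 1 - H + κ * (c * d - H) := by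
      have he : (1 - c ^ 2) * (1 - d ^ 2) = (1 + c * d) ^ 2 - 4 * H := by
        rw [hH, hs]; ring
      have e2 : 1 - H + κ * (c * d - H) = ((1 + H) * (1 + c * d) - 4 * H) / (1 - H) := by
        rw [hκ]
        have : (1 : ℝ) - H ≠ 0 := by linarith
        field_simp
        ring
      have hne2 : c * d ≠ H := fun h => hne (by
        have : (c - d) ^ 2 = 0 := by rw [hH, hs] at h; linarith
        exact sub_eq_zero.1 (pow_eq_zero_iff two_ne_zero |>.1 this))
      have hHp : 0 < H := by rw [hH]; positivity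
      have h4 : 4 * H < (1 + H) * (1 + c * d) := by
        have h5 : s ≤ 1 + c * d := by
          rw [hs]
          linarith [mul_nonneg (sub_nonneg.2 hc1) (sub_nonneg.2 hd1)]
        have h6 : s ^ 2 < (1 + H) * s := by
          rw [sq]
          refine mul_lt_mul_of_pos_right ?_ (by linarith)
          rw [hH]
          nlinarith [pow_pos (sub_pos.2 h2) 2]
        have h7 := mul_le_mul_of_nonneg_left h5 (by linarith : (0 : ℝ) ≤ 1 + H)
        rw [hH] at h6 h7 ⊢
        linarith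
      rw [← Real.sqrt_mul (one_sub_sq_nonneg hcI), he, e2,
        Real.sqrt_lt' (div_pos (by linarith) (by linarith)), div_pow,
        lt_div_iff₀ (pow_pos (by linarith) 2)]
      nlinarith [mul_pos hHp (pow_two_pos_of_ne_zero (sub_ne_zero.2 hne2))]
    have h3 := lt_symX_of_bound hG hg (by rw [abs_of_nonneg hc0, abs_of_nonneg hd0]; linarith) hB
    rw [kS_eq, abs_of_nonneg hc0, abs_of_nonneg hd0, ← hs] at h3
    linarith

/-- Two inward cosines are above minus the gain. -/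
lemma gain_lt (hm : Margin o) {c d : ℝ} (hc : c ∈ Ioc (0 : ℝ) 1) (hd : d ∈ Ioc (0 : ℝ) 1)
    (hg : 0 ≤ symX o c d +
      2 * |c * d| * (o.g * Real.sqrt ((o.U + c * o.G) * (o.U + d * o.G)))) :
    0 < symX o c d + 2 * (c * d) * (o.g * o.U) := by
  rw [abs_of_pos (mul_pos hc.1 hd.1)] at hg
  have hu : ∀ x : ℝ, x ∈ Ioc (0 : ℝ) 1 → 0 < o.U + x * o.G ∧ o.U + x * o.G < o.U := fun x hx =>
    ⟨by linarith [mul_le_mul_of_nonpos_right hx.2 hm.neg.le, hm.pos],
      by linarith [mul_neg_of_pos_of_neg hx.1 hm.neg]⟩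
  have hs : Real.sqrt ((o.U + c * o.G) * (o.U + d * o.G)) < o.U := by
    rw [Real.sqrt_lt' ((hu c hc).1.trans (hu c hc).2), sq]
    exact mul_lt_mul (hu c hc).2 (hu d hd).2.le (hu d hd).1 ((hu c hc).1.trans (hu c hc).2).le
  linarith [mul_lt_mul_of_pos_left hs (mul_pos (mul_pos (mul_pos two_pos (mul_pos hc.1 hd.1))
    hm.g_pos) one_pos)]

/-- Where one cosine is outward there is more than the gain, with two outward ones more than
nothing. -/
lemma mixed_lt (hm : Margin o)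
    (hx : ∀ c ∈ Icc (0 : ℝ) 1, ∀ d ∈ Icc (0 : ℝ) 1, 2 * (c * d) * (o.g * o.U) ≤ symB o c (-d))
    (ho : ∀ c ∈ Icc (0 : ℝ) 1, ∀ d ∈ Icc (0 : ℝ) 1, 0 ≤ symB o (-c) (-d))
    {c d : ℝ} (hc : c ∈ Icc (0 : ℝ) 1) (hd : d ∈ Icc (0 : ℝ) 1) :
    2 * (c * d) * (o.g * o.U) < symX o c (-d) ∧ 0 < symX o (-c) (-d) := by
  have hn : ∀ x : ℝ, x ∈ Icc (0 : ℝ) 1 → x ∈ Icc (-1 : ℝ) 1 ∧ -x ∈ Icc (-1 : ℝ) 1 := fun x hx =>
    ⟨⟨by linarith [hx.1], hx.2⟩, by linarith [hx.2], by linarith [hx.1]⟩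
  rcases ne_or_eq c d with hne | rfl
  · have h1 : |c| ≠ |-d| := by rwa [abs_neg, abs_of_nonneg hc.1, abs_of_nonneg hd.1]
    have h2 : |-c| ≠ |-d| := by rwa [abs_neg, abs_neg, abs_of_nonneg hc.1, abs_of_nonneg hd.1]
    exact ⟨(hx c hc d hd).trans_lt (symB_lt_symX hm.neg hm.g_pos (hn c hc).1 (hn d hd).2 h1),
      (ho c hc d hd).trans_lt (symB_lt_symX hm.neg hm.g_pos (hn c hc).2 (hn d hd).2 h2)⟩
  obtain ⟨hc0, hc1⟩ := hc
  have hU : 0 < o.U := by linarith [hm.pos, hm.neg]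
  have hc2 : 0 ≤ 1 - c ^ 2 := sub_nonneg.2 (pow_le_one₀ hc0 hc1)
  have hE0 : 0 < symB o c (-c) - 2 * (c * c) * (o.g * o.U) := by
    have a1 : 0 < 1 + (o.U' + 4 * o.p * o.U + o.g * o.G * c) := by
      linarith [hm.low,
        mul_le_mul_of_nonpos_left hc1 (mul_nonpos_of_nonneg_of_nonpos hm.g_pos.le hm.neg.le)]
    have e : symB o c (-c) - 2 * (c * c) * (o.g * o.U) =
        2 * ((1 - c ^ 2) * (1 + (o.U' + 4 * o.p * o.U + o.g * o.G * c)) +
          c ^ 2 * (1 + (5 * o.p - o.g) * o.U + 5 * o.G)) := by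
      simp only [symB, ker, abs_neg, abs_of_nonneg hc0]
      ring
    rw [e]
    refine mul_pos two_pos ?_
    rcases hc2.eq_or_lt with h | h
    · rw [← h, show c ^ 2 = 1 by linarith, one_mul, zero_mul, zero_add]
      exact hm.weight
    · exact add_pos_of_pos_of_nonneg (mul_pos h a1) (mul_nonneg (sq_nonneg c) hm.weight.le)
  refine ⟨lt_of_lt_of_le (by linarith) (symB_le_symX hm.neg.le hm.g_pos.le (hn c ⟨hc0, hc1⟩).1
    (hn c ⟨hc0, hc1⟩).2), lt_of_lt_of_le ?_ (symB_le_symX hm.neg.le hm.g_pos.le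
    (hn c ⟨hc0, hc1⟩).2 (hn c ⟨hc0, hc1⟩).2)⟩
  have a3 : 0 ≤ 5 * o.U - (o.G' * (1 - c ^ 2) + o.p * o.G * (4 + c ^ 2)) := by
    have b1 := mul_le_mul_of_nonneg_right hm.slope' hc2
    have b2 := mul_nonpos_of_nonpos_of_nonneg
      (mul_nonpos_of_nonneg_of_nonpos hm.p_nonneg hm.neg.le)
      (show 0 ≤ 4 + c ^ 2 by positivity)
    have b3 := mul_nonneg hU.le (sq_nonneg c)
    linarith
  have e : symB o (-c) (-c) = symB o c (-c) +
      2 * c * (5 * o.U - (o.G' * (1 - c ^ 2) + o.p * o.G * (4 + c ^ 2))) - 20 * c ^ 2 * o.G := by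
    simp only [symB, ker, abs_neg, abs_of_nonneg hc0]
    ring
  have a4 := mul_nonneg hc0 a3
  have a5 := mul_nonneg (mul_self_nonneg c) (mul_nonneg hm.g_pos.le hU.le)
  have a6 := mul_nonpos_of_nonneg_of_nonpos (sq_nonneg c) hm.neg.le
  rw [e]
  linarith

lemma symX_diag (o : Pt) {c : ℝ} (hc : c ∈ Icc (0 : ℝ) 1) : symX o c c = 2 * diag o c := by
  rw [← symB_diag o hc.1, symX, symB, Real.mul_self_sqrt
    (one_sub_sq_nonneg ⟨by linarith [hc.1], hc.2⟩)]
  ring

lemma k0_pos (hm : Margin o) : 0 < k0 o := by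
  rw [k0]
  linarith [hm.mono]

/-- Beyond the diameter the pair bound is strict away from two cosines equal to one. -/
lemma pair_lt_out (h : GoodPt o) (hm : Margin o) (he : EndCond o 1) {c d : ℝ}
    (hc : c ∈ Icc (0 : ℝ) 1) (hd : d ∈ Icc (0 : ℝ) 1) (hne : ¬(c = 1 ∧ d = 1)) :
    c * d * (2 * diag o 1 / 1 ^ 2 + slope o 1 * (c + d - 2 * 1)) < symX o c d := by
  rcases ne_or_eq c d with hcd | rfl
  · have := pair_nonneg_lt hm.neg hm.g_pos
      (M := fun s => -(2 * diag o 1 / 1 ^ 2 + slope o 1 * (s - 2 * 1)))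
      (fun m hm' => by
        have := diag_tangent_one h.conv₀ h.conv₁ (Ioc_subset_Icc_self hm')
        linarith) h.zero
      (fun x hx => by have := he x hx; linarith) hc hd hcd
    linarith
  have hc1 : c < 1 := lt_of_le_of_ne hc.2 fun h' => hne ⟨h', h'⟩
  have e : diag o c - c ^ 2 * (diag o 1 + slope o 1 * (c - 1)) =
      (1 - c) ^ 2 * ((1 - c) * k0 o + c * (3 * k0 o + k1 o)) := by
    simp only [diag, slope]
    ring
  have h4 := mul_pos (pow_pos (sub_pos.2 hc1) 2) (add_pos_of_pos_of_nonneg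
    (mul_pos (sub_pos.2 hc1) (k0_pos hm)) (mul_nonneg hc.1 h.conv₁))
  rw [symX_diag o hc]
  linarith

/-- The margins beyond the diameter follow from the linear bounds. -/
lemma margin_of_raw (h : Raw o) (hg : 0 < o.g) (hG : o.G < 0) (hgp : o.g ≤ o.p) : Margin o := by
  have hH : 0 < -o.G := neg_pos.2 hG
  have hpH := mul_le_mul_of_nonneg_right h.p_le hH.le
  have hgH := mul_pos hg hH
  have hgp' := mul_le_mul_of_nonneg_right hgp hH.le
  refine ⟨hG, hg, h.pos, h.good.mono, ?_, ?_, ?_, h.p_nonneg⟩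
  · linarith [h.w_mono, h.v_le₁]
  · linarith [h.top, h.cross]
  · linarith [h.v_le₁, h.pos]

/-- Beyond the diameter every margin holds. -/
lemma margin_out {e XL K p g : ℝ} (he : e ∈ Ioo (0 : ℝ) 1) (h : OutHyp e XL K)
    (hr : Five.OutRange e p g) : Margin (ptOut e XL K p g) := by
  obtain ⟨hg0, hg2, hp0, hp1⟩ := hr
  have hgp : g ≤ p := (pow_le_pow_iff_left₀ hg0.le hp0.le two_ne_zero).1 (by linarith [he.1])
  have hg1 : g ≤ (1 - e) / 2 := by
    refine (pow_le_pow_iff_left₀ hg0.le (by linarith [he.2]) two_ne_zero).1 ?_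
    nlinarith [pow_le_pow_left₀ hp0.le hp1 2]
  have hR : Raw (ptOut e XL K p g) := by
    obtain ⟨a, b, ha, hb, rfl, rfl, rfl⟩ := exists_square he ⟨hg0, hg2, hp0, hp1⟩
    exact (out_point ha hb he ⟨hg0, hg2, hp0, hp1⟩ h).1
  obtain ⟨s, hs⟩ : ∃ s, s = ratF e g := ⟨_, rfl⟩
  have hd : 0 < 1 - e := sub_pos.2 he.2
  have hs0 : 0 < s := hs ▸ div_pos (by linarith) hd
  have hs1 : s ≤ 1 := by rw [hs, ratF, div_le_one hd]; linarith
  have hN : 0 < (25 + 65 * e) + (1 - 39 * e) * s ^ 2 := by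
    linarith [mul_le_mul_of_nonneg_left (pow_le_one₀ (n := 2) hs0.le hs1)
      (show 0 ≤ 39 * e by linarith [he.1]), sq_nonneg s, he.1]
  have hH : 0 < HF e s := by
    have := he.1
    unfold HF
    positivity
  refine margin_of_raw hR hg0 ?_ hgp
  show -HF e (ratF e g) < 0
  rw [← hs]
  exact neg_neg_of_pos hH

variable {q t : ℝ}

/-- What strictness needs inside the diameter besides `InPt`; every condition is linear in the
weight and its derivative and has no free cosine. -/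
structure InMargin (o : Pt) (t : ℝ) : Prop where
  low : 0 < 1 + (o.U' + 4 * o.p * o.U + o.g * o.G)
  weight : 0 < 1 + (5 * o.p - o.g) * o.U + 5 * o.G
  slope' : o.G' ≤ 5 * o.U
  convex : 0 < (2 + t) * k0 o + t * k1 o

lemma InMargin.margin (hm : InMargin o t) (h : InPt q o t) (hG : o.G < 0) (hg : 0 < o.g)
    (hp : 0 ≤ o.p) : Margin o :=
  ⟨hG, hg, h.weight_pos, h.mono, hm.low, hm.weight, hm.slope', hp⟩

/-- Inside the diameter the pair bound is strict away from two cosines equal to the contact. -/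
lemma pair_lt_in (h : InPt q o t) (hm : Margin o) (hq : q ∈ Ico (0 : ℝ) 1)
    (ht : t ∈ Ioc (0 : ℝ) 1) {c d : ℝ} (hc : c ∈ Icc (0 : ℝ) 1) (hd : d ∈ Icc (0 : ℝ) 1)
    (hne : ¬(c = t ∧ d = t)) (hk : 0 < (2 + t) * k0 o + t * k1 o) :
    c * d * (tanSum o t (c + d) +
        slope o t * (hLoss q t c * (c - t) ^ 2 + hLoss q t d * (d - t) ^ 2)) < symX o c d := by
  rcases ne_or_eq c d with hcd | rfl
  · refine (h.pair_symB hq ht hc hd).trans_lt (symB_lt_symX hm.neg hm.g_pos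
      ⟨by linarith [hc.1], hc.2⟩ ⟨by linarith [hd.1], hd.2⟩ ?_)
    rwa [abs_of_nonneg hc.1, abs_of_nonneg hd.1]
  have hct : c ≠ t := fun h' => hne ⟨h', h'⟩
  have ht0 := ht.1
  have e : plainRow o t c c = 2 * ((c - t) ^ 2 *
      ((1 - c) * (k0 o * t) + c * ((2 + t) * k0 o + t * k1 o)) / t ^ 3) := by
    rw [plainRow, symB_diag o hc.1, tanSum, slope, diag, diag]
    field_simp
    ring
  have h1 : 0 < (1 - c) * (k0 o * t) + c * ((2 + t) * k0 o + t * k1 o) := by
    rcases hc.1.eq_or_lt with h0 | h0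
    · rw [← h0, zero_mul, sub_zero, one_mul, add_zero]
      exact mul_pos (k0_pos hm) ht0
    · exact add_pos_of_nonneg_of_pos
        (mul_nonneg (sub_nonneg.2 hc.2) (mul_pos (k0_pos hm) ht0).le) (mul_pos h0 hk)
  have h2 : 0 < plainRow o t c c := by
    rw [e]
    exact mul_pos two_pos (div_pos (mul_pos (pow_two_pos_of_ne_zero (sub_ne_zero.2 hct)) h1)
      (pow_pos ht0 3))
  have h3 := mul_nonpos_of_nonpos_of_nonneg h.down
    (mul_nonneg (mul_self_nonneg c) (add_nonneg (mul_nonneg (hLoss_nonneg hq ht hc.1)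
      (sq_nonneg (c - t))) (mul_nonneg (hLoss_nonneg hq ht hc.1) (sq_nonneg (c - t)))))
  rw [plainRow, symB_diag o hc.1] at h2
  rw [symX_diag o hc]
  linarith

end Vale.Agent.P219.CH.Relax.Six.Strictly
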