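import Vale.Agent.P219.Relax.Six.Cert
import Vale.Agent.P219.Relax.Six.StrictPt
import Vale.Agent.P219.Relax.Profile2D.Strict

/-!
# P219, dimension six: the certificates are strict

Given a solution and four margins at each contact, the exact kernel exceeds what the line condition
asks of it except on the contact and where both cosines are one beyond the diameter.
-/

noncomputable section

open Set Filter Topology MeasureTheory

namespace Vale.Agent.P219.CH.Relax.Six.Strictly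

open Five (Pt tc pc gc yf yf_pos tanh_sq_mem tc_mem)
open GenK.Four (tanh_pos)
open Profile2D (lowF lowF_inward lowF_mixed lowF_mixed' lowF_outward)

variable {R B : ℝ} {W : Wt}

lemma margin_in {e t : ℝ} (he : e ∈ Ioo (0 : ℝ) 1) (hs : SolFacts e B W)
    (hm : ∀ t ∈ Ioc (0 : ℝ) 1, InMargin (ptIn e W t) t) (ht : t ∈ Ioc (0 : ℝ) 1) :
    Margin (ptIn e W t) := by
  have hy := yf_pos he (Ioc_subset_Icc_self ht)
  have := he.1
  have := ht.1
  refine (hm t ht).margin (hs.inside t ht) (hs.slope_neg t ht) ?_ ?_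
  · show 0 < yf e t / (2 * t)
    positivity
  · show 0 ≤ (1 + e * t ^ 2) / (2 * t)
    positivity

lemma margin_all (hR : 0 < R) (hs : SolFacts (Real.tanh R ^ 2) B W)
    (hm : ∀ t ∈ Ioc (0 : ℝ) 1, InMargin (ptIn (Real.tanh R ^ 2) W t) t) {r : ℝ} (hr : 0 < r) :
    Margin (ptR R B W r) := by
  unfold ptR
  split_ifs with h
  · exact margin_in (tanh_sq_mem hR) hs hm (tc_mem hR ⟨hr, h⟩)
  · exact margin_out (tanh_sq_mem hR) hs.out (Five.outRange hR (not_le.1 h).le)

lemma contact_sphere (hR : 0 < R) (r : ℝ) :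
    Real.cosh R * (Real.cosh r - 1) = Real.sinh R * Real.sinh r * tc R r := by
  have := Real.cosh_pos (r / 2)
  have := Real.sinh_pos_iff.2 hR
  rw [tc, show r = 2 * (r / 2) by ring, Real.cosh_two_mul, Real.sinh_two_mul,
    show 2 * (r / 2) / 2 = r / 2 by ring, Real.tanh_eq_sinh_div_cosh, Real.tanh_eq_sinh_div_cosh]
  field_simp
  linear_combination Real.cosh_sq (r / 2)

/-- An inward pair pays strictly more off the contact. -/
lemma pair_facts_lt (hR : 0 < R) (hs : SolFacts (Real.tanh R ^ 2) B W)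
    (hm : ∀ t ∈ Ioc (0 : ℝ) 1, InMargin (ptIn (Real.tanh R ^ 2) W t) t) {r c d : ℝ} (hr : 0 < r)
    (hc : c ∈ Ioc (0 : ℝ) 1) (hd : d ∈ Ioc (0 : ℝ) 1) (hne1 : r ≤ 2 * R → ¬(c = tc R r ∧ d = tc R r))
    (hne2 : 2 * R < r → ¬(c = 1 ∧ d = 1)) :
    c * d * (margSix R B W c + margSix R B W d + 2 * betaSix R B * r) <
      Real.sinh r ^ 5 * symX (ptR R B W r) c d := by
  have he := tanh_sq_mem hR
  have hS : 0 < Real.sinh r ^ 5 := pow_pos (Real.sinh_pos_iff.2 hr) 5
  have hmr := margin_all hR hs hm hr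
  rcases le_or_gt r (2 * R) with h | h
  · have ht := tc_mem hR ⟨hr, h⟩
    rw [ptR, if_pos h] at hmr ⊢
    exact (pair_in hR hs rfl ht hc hd).trans_lt (mul_lt_mul_of_pos_left
      (pair_lt_in (hs.inside _ ht) hmr (concQ_mem he) ht (Ioc_subset_Icc_self hc)
        (Ioc_subset_Icc_self hd) (hne1 h) (hm _ ht).convex) hS)
  · rw [ptR, if_neg (not_le.2 h)] at hmr ⊢
    have hof := outPin _ _ _ he hs.out
    have hor := Five.outRange hR h.le
    exact (pair_out hR hs h hc hd).trans_lt (mul_lt_mul_of_pos_left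
      (pair_lt_out (hof.good _ _ hor) hmr (hof.endc _ _ hor) (Ioc_subset_Icc_self hc)
        (Ioc_subset_Icc_self hd) (hne2 h)) hS)

/-- The exact kernel meets what is asked of it only on the contact. -/
lemma contact_of_eq (hR : 0 < R) (hs : SolFacts (Real.tanh R ^ 2) B W)
    (hm : ∀ t ∈ Ioc (0 : ℝ) 1, InMargin (ptIn (Real.tanh R ^ 2) W t) t) {r c d : ℝ} (hr : 0 < r)
    (hc : c ∈ Icc (-1 : ℝ) 1) (hd : d ∈ Icc (-1 : ℝ) 1)
    (h0 : symX (ptR R B W r) c d = lowF 6 (aSix R B W) (betaSix R B)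
      (fun r => 2 * (Real.sinh r ^ 4 * uU R B W r)) r c d) :
    Real.cosh R * (Real.cosh r - 1) = Real.sinh R * Real.sinh r * c ∨ (c = 1 ∧ 2 * R ≤ r) := by
  have hsr := Real.sinh_pos_iff.2 hr
  have hS : 0 < Real.sinh r ^ 5 := pow_pos hsr 5
  have hmr := margin_all hR hs hm hr
  obtain ⟨-, -, -, -, hgain, hmix⟩ := point_facts hR hs hr
  have hconv : 2 * (Real.sinh r ^ 4 * uU R B W r) / Real.sinh r ^ (6 - 1) =
      2 * ((ptR R B W r).g * (ptR R B W r).U) := by
    rw [(ptR_pg hR hr).2, gc, uU, show (6 : ℕ) - 1 = 5 from rfl]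
    field_simp
  have hz := aSix_zero R B W
  obtain ⟨o, ho⟩ : ∃ o, o = ptR R B W r := ⟨_, rfl⟩
  rw [← ho] at hmr hgain hmix hconv h0
  have hx : ∀ c ∈ Icc (0 : ℝ) 1, ∀ d ∈ Icc (0 : ℝ) 1,
      2 * (c * d) * (o.g * o.U) ≤ symB o c (-d) ∧ 0 ≤ symB o (-c) (-d) := by
    intro c hc d hd
    rw [ho]
    unfold ptR
    split_ifs with h
    · exact ⟨(hs.inside _ (tc_mem hR ⟨hr, h⟩)).mixed c hc d hd,
        (hs.inside _ (tc_mem hR ⟨hr, h⟩)).outward c hc d hd⟩
    · have hgood := (outPin _ _ _ (tanh_sq_mem hR) hs.out).good _ _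
        (Five.outRange hR (not_le.1 h).le)
      exact ⟨hgood.mixed c hc d hd, hgood.outward c hc d hd⟩
  rcases lt_or_ge 0 c with hcs | hcs <;> rcases lt_or_ge 0 d with hds | hds
  · have hcI : c ∈ Ioc (0 : ℝ) 1 := ⟨hcs, hc.2⟩
    have hdI : d ∈ Ioc (0 : ℝ) 1 := ⟨hds, hd.2⟩
    by_contra hne
    rw [not_or] at hne
    have h1 := pair_facts_lt hR hs hm hr hcI hdI
      (fun _ he => hne.1 (by rw [he.1]; exact contact_sphere hR r))
      fun h he => hne.2 ⟨he.1, h.le⟩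
    rw [← ho] at h1
    have h2 := gain_lt hmr hcI hdI (hgain c hc d hd)
    rw [lowF_inward (Ioc_subset_Icc_self hcI) (Ioc_subset_Icc_self hdI)] at h0
    refine (max_lt ?_ ?_).ne' h0
    · rw [div_lt_iff₀ (pow_pos hsr _), aSix_eq R B W hcI, aSix_eq R B W hdI,
        show (6 : ℕ) - 1 = 5 from rfl]
      linarith
    · rw [neg_div, mul_div_assoc, hconv]
      linarith
  · obtain ⟨k, rfl⟩ : ∃ k, d = -k := ⟨-d, (neg_neg d).symm⟩
    have hk : k ∈ Icc (0 : ℝ) 1 := ⟨by linarith, by linarith [hd.1]⟩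
    have h := (mixed_lt hmr (fun c hc d hd => (hx c hc d hd).1)
      (fun c hc d hd => (hx c hc d hd).2) (c := c) (d := k) ⟨hcs.le, hc.2⟩ hk).1
    rw [lowF_mixed hz ⟨hcs.le, hc.2⟩ hk, mul_div_assoc, hconv] at h0
    linarith
  · obtain ⟨k, rfl⟩ : ∃ k, c = -k := ⟨-c, (neg_neg c).symm⟩
    have hk : k ∈ Icc (0 : ℝ) 1 := ⟨by linarith, by linarith [hc.1]⟩
    have h := (mixed_lt hmr (fun c hc d hd => (hx c hc d hd).1)
      (fun c hc d hd => (hx c hc d hd).2) (c := d) (d := k) ⟨hds.le, hd.2⟩ hk).1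
    rw [lowF_mixed' hz ⟨hds.le, hd.2⟩ hk, mul_div_assoc, hconv, symX_comm] at h0
    linarith
  · obtain ⟨k, rfl⟩ : ∃ k, c = -k := ⟨-c, (neg_neg c).symm⟩
    obtain ⟨l, rfl⟩ : ∃ l, d = -l := ⟨-d, (neg_neg d).symm⟩
    have h := (mixed_lt hmr (fun c hc d hd => (hx c hc d hd).1)
      (fun c hc d hd => (hx c hc d hd).2) (c := k) (d := l) ⟨by linarith, by linarith [hc.1]⟩
      ⟨by linarith, by linarith [hd.1]⟩).2
    rw [lowF_outward hz hcs hds] at h0
    linarith

/-- A solution with the margins gives a strict certificate. -/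
theorem strictAt_six (hR : 0 < R) (hs : SolFacts (Real.tanh R ^ 2) B W)
    (hm : ∀ t ∈ Ioc (0 : ℝ) 1, InMargin (ptIn (Real.tanh R ^ 2) W t) t) :
    ∃ kap, Rigid.StrictAt 6 R (aSix R B W) (betaSix R B) kap := by
  have hT := tanh_pos hR
  obtain ⟨M, hM⟩ := isCompact_Icc.exists_bound_of_continuousOn (continuousOn_aSix hR hs)
  refine ⟨_, Profile2D.strictAt_of_profile (by norm_num) hR (smooth_six hR hs) (facts_six hR hs)
    (L := fun r => 2 * (Real.sinh r ^ 4 * uU R B W r)) ?_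
    (continuousOn_aSix hR hs) (aSix_zero R B W) (mul_nonneg (by positivity) hs.rate_nonneg)
    (measurable_aSix hR hs) (fun c hc => aSix_nonpos hR hs hc)
    ⟨M, fun c hc => (abs_le.1 (hM c hc)).1⟩ (value_aSix hR hs) fun r c d hr hc hd h0 => ?_⟩
  · exact continuousOn_const.mul ((Real.continuous_sinh.pow 4).continuousOn.mul fun r hr =>
      (hasDerivAt_uU hR hs hr).1.continuousAt.continuousWithinAt)
  · rw [symU_eq (B := B) (W := W) hR hr (point_facts hR hs hr).2.1 c d] at h0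
    exact contact_of_eq hR hs hm hr hc hd h0

/-- Solutions with margins for every `e` give strict certificates against every ball. -/
theorem strictCert_six_of_sol (h : ∀ e ∈ Ioo (0 : ℝ) 1, ∃ (B : ℝ) (W : Wt),
    SolFacts e B W ∧ ∀ t ∈ Ioc (0 : ℝ) 1, InMargin (ptIn e W t) t) : Rigid.StrictCert 6 := by
  intro R hR
  obtain ⟨B, W, hs, hm⟩ := h _ (tanh_sq_mem hR)
  obtain ⟨kap, hk⟩ := strictAt_six hR hs hm
  exact ⟨_, _, kap, hk⟩

end Vale.Agent.P219.CH.Relax.Six.Strictly
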