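import Vale.Agent.P219.Relax.Six.Tangency

/-!
# P219, dimension six: concavity of the marginal coefficient of a free function

For a free function with four derivatives the slope of the marginal coefficient is explicit in
`x = t ^ 2`, so the concavity asked of a solution is one inequality in `x`.
-/

noncomputable section

open Set Filter Topology

namespace Vale.Agent.P219.CH.Relax.Six

open Five (yf yf_pos)

namespace Tan

/-- The third derivative of the numerator. -/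
def n3 (e : ℝ) (q : Gen3) (Q4 : ℝ → ℝ) (x : ℝ) : ℝ :=
  -48 * e ^ 3 * rate q * yl e x + 6 * e * (x * q.Q2 x) +
    3 * (-(1 + e) + 2 * e * x) * (q.Q2 x + x * q.Q3 x) +
    (1 - x) * yl e x * (2 * q.Q3 x + x * Q4 x) + 6 * e * q.Q1 x +
    3 / 2 * (-(10 - 3 * e) + 4 * e * x) * q.Q2 x + nq e x * q.Q3 x / 2

/-- The third derivative of the weight times the contact. -/
def wx3 (e : ℝ) (q : Gen3) (Q4 : ℝ → ℝ) (x : ℝ) : ℝ :=
  12 * e ^ 3 / yl e x ^ 4 - n3 e q Q4 x / (5 * x) + 3 * n2 e q x / (5 * x ^ 2) -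
    6 * n1 e q x / (5 * x ^ 3) + 6 * n0 e q x / (5 * x ^ 4)

/-- The first derivative of the reduced marginal coefficient. -/
def mx1 (e : ℝ) (q : Gen3) (x : ℝ) : ℝ :=
  1 + (-(1 + e) + 2 * e * x) * (x * wx1 e q x) +
    (1 - x) * yl e x * (wx1 e q x + x * wx2 e q x) + wx1 e q x * (3 + (5 * e - 8) * x) / 2 +
    wx e q x * (5 * e - 8) / 2

/-- Its second derivative. -/
def mx2 (e : ℝ) (q : Gen3) (Q4 : ℝ → ℝ) (x : ℝ) : ℝ :=
  2 * e * (x * wx1 e q x) + 2 * (-(1 + e) + 2 * e * x) * (wx1 e q x + x * wx2 e q x) +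
    (1 - x) * yl e x * (2 * wx2 e q x + x * wx3 e q Q4 x) +
    wx2 e q x * (3 + (5 * e - 8) * x) / 2 + wx1 e q x * (5 * e - 8)

/-- The slope of the marginal coefficient, as a function of `x`. -/
def ax (e : ℝ) (q : Gen3) (x : ℝ) : ℝ :=
  (mx e q x + 2 * x * mx1 e q x) / yl e x ^ 5 + 10 * e * x * mx e q x / yl e x ^ 6 -
    2 * rate q / yl e x

/-- Its derivative. -/
def ax1 (e : ℝ) (q : Gen3) (Q4 : ℝ → ℝ) (x : ℝ) : ℝ :=
  (3 * mx1 e q x + 2 * x * mx2 e q Q4 x) / yl e x ^ 5 +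
    5 * e * (mx e q x + 2 * x * mx1 e q x) / yl e x ^ 6 +
    10 * e * (mx e q x + x * mx1 e q x) / yl e x ^ 6 +
    60 * e ^ 2 * x * mx e q x / yl e x ^ 7 - 2 * rate q * e / yl e x ^ 2

variable {e : ℝ} {q : Gen3} {Q4 : ℝ → ℝ} {x : ℝ}

lemma hasDerivAt_n2 (hq : q.IsDeriv) (h4 : HasDerivAt q.Q3 (Q4 x) x) (hx : x ∈ Icc (0 : ℝ) 1) :
    HasDerivAt (n2 e q) (n3 e q Q4 x) x := by
  have hy := hasDerivAt_yl e x
  have hid := hasDerivAt_id x
  have hw : HasDerivAt (fun z : ℝ => 1 - z) (-1) x := hid.const_sub 1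
  have hl : HasDerivAt (fun z : ℝ => -(1 + e) + 2 * e * z) (2 * e) x :=
    ((hid.const_mul (2 * e)).const_add _).congr_deriv (by ring)
  have hn : HasDerivAt (fun z : ℝ => -(10 - 3 * e) + 4 * e * z) (4 * e) x :=
    ((hid.const_mul (4 * e)).const_add _).congr_deriv (by ring)
  refine ((((((((hy.pow 2).const_mul (24 * e ^ 2 * rate q)).add
    (((hid.mul (hq.d2 x hx)).sub (hq.d1 x hx)).const_mul (2 * e))).add
    ((hl.const_mul 2).mul (hid.mul (hq.d3 x hx)))).add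
    ((hw.mul hy).mul ((hq.d3 x hx).add (hid.mul h4)))).add ((hq.d1 x hx).const_mul (2 * e))).add
    (hn.mul (hq.d2 x hx))).add (((hasDerivAt_nq e x).mul (hq.d3 x hx)).div_const 2) :
      HasDerivAt (n2 e q) _ x).congr_deriv ?_
  simp only [n3, Pi.mul_apply, Pi.add_apply, id_eq, yl]
  push_cast
  ring

lemma hasDerivAt_wx2 (he : e ∈ Ioo (0 : ℝ) 1) (hq : q.IsDeriv) (h4 : HasDerivAt q.Q3 (Q4 x) x)
    (hx : x ∈ Ioc (0 : ℝ) 1) : HasDerivAt (wx2 e q) (wx3 e q Q4 x) x := by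
  have hxI := Ioc_subset_Icc_self hx
  have hy := (yl_pos he hxI).ne'
  have hx0 := hx.1.ne'
  have h0 := hasDerivAt_n0 (e := e) hq hxI
  have h1 := hasDerivAt_n1 (e := e) hq hxI
  refine (((((hasDerivAt_const x (4 * e ^ 2)).div ((hasDerivAt_yl e x).pow 3) (pow_ne_zero 3 hy)).sub
    ((hasDerivAt_n2 hq h4 hxI).div ((hasDerivAt_id x).const_mul 5)
      (mul_ne_zero (by norm_num) hx0))).add
    ((h1.const_mul 2).div ((hasDerivAt_pow 2 x).const_mul 5)
      (mul_ne_zero (by norm_num) (pow_ne_zero 2 hx0)))).sub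
    ((h0.const_mul 2).div ((hasDerivAt_pow 3 x).const_mul 5)
      (mul_ne_zero (by norm_num) (pow_ne_zero 3 hx0))) :
      HasDerivAt (wx2 e q) _ x).congr_deriv ?_
  simp only [wx3, id_eq, Pi.pow_apply]
  push_cast
  field_simp
  ring

lemma hasDerivAt_mx (he : e ∈ Ioo (0 : ℝ) 1) (hq : q.IsDeriv) (hx : x ∈ Ioc (0 : ℝ) 1) :
    HasDerivAt (mx e q) (mx1 e q x) x := by
  have hid := hasDerivAt_id x
  have hl : HasDerivAt (fun z : ℝ => 3 + (5 * e - 8) * z) (5 * e - 8) x :=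
    ((hid.const_mul (5 * e - 8)).const_add _).congr_deriv (by ring)
  refine ((hid.add (((hid.const_sub 1).mul (hasDerivAt_yl e x)).mul
    (hid.mul (hasDerivAt_wx1 he hq hx)))).add
      (((hasDerivAt_wx he hq hx).mul hl).div_const 2) : HasDerivAt (mx e q) _ x).congr_deriv ?_
  simp only [mx1, Pi.mul_apply, id_eq, yl]
  ring

lemma hasDerivAt_mx1 (he : e ∈ Ioo (0 : ℝ) 1) (hq : q.IsDeriv) (h4 : HasDerivAt q.Q3 (Q4 x) x)
    (hx : x ∈ Ioc (0 : ℝ) 1) : HasDerivAt (mx1 e q) (mx2 e q Q4 x) x := by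
  have hid := hasDerivAt_id x
  have hW := hasDerivAt_wx he hq hx
  have hW1 := hasDerivAt_wx1 he hq hx
  have hW2 := hasDerivAt_wx2 he hq h4 hx
  have hl : HasDerivAt (fun z : ℝ => 3 + (5 * e - 8) * z) (5 * e - 8) x :=
    ((hid.const_mul (5 * e - 8)).const_add _).congr_deriv (by ring)
  have hL : HasDerivAt (fun z : ℝ => -(1 + e) + 2 * e * z) (2 * e) x :=
    ((hid.const_mul (2 * e)).const_add _).congr_deriv (by ring)
  refine (((((hasDerivAt_const x (1 : ℝ)).add (hL.mul (hid.mul hW1))).add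
    (((hid.const_sub 1).mul (hasDerivAt_yl e x)).mul (hW1.add (hid.mul hW2)))).add
    ((hW1.mul hl).div_const 2)).add ((hW.mul_const (5 * e - 8)).div_const 2) :
      HasDerivAt (mx1 e q) _ x).congr_deriv ?_
  simp only [mx2, Pi.mul_apply, Pi.add_apply, id_eq, yl]
  ring

lemma hasDerivAt_ax (he : e ∈ Ioo (0 : ℝ) 1) (hq : q.IsDeriv) (h4 : HasDerivAt q.Q3 (Q4 x) x)
    (hx : x ∈ Ioc (0 : ℝ) 1) : HasDerivAt (ax e q) (ax1 e q Q4 x) x := by
  have hy := (yl_pos he (Ioc_subset_Icc_self hx)).ne'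
  have hid := hasDerivAt_id x
  have hY := hasDerivAt_yl e x
  have hm := hasDerivAt_mx he hq hx
  have hm1 := hasDerivAt_mx1 he hq h4 hx
  refine ((((hm.add ((hid.const_mul 2).mul hm1)).div (hY.pow 5) (pow_ne_zero 5 hy)).add
    (((hid.const_mul (10 * e)).mul hm).div (hY.pow 6) (pow_ne_zero 6 hy))).sub
      ((hasDerivAt_const x (2 * rate q)).div hY hy) : HasDerivAt (ax e q) _ x).congr_deriv ?_
  simp only [ax1, Pi.mul_apply, Pi.add_apply, Pi.pow_apply, id_eq]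
  push_cast
  field_simp
  ring

/-- The slope of the marginal coefficient is the explicit one. -/
theorem aSlope_eq (he : e ∈ Ioo (0 : ℝ) 1) (hq : q.IsDeriv) {t : ℝ} (ht : t ∈ Ioo (0 : ℝ) 1) :
    aSlope e (wtOf e q) t = ax e q (t ^ 2) := by
  have htI : t ∈ Ioc (0 : ℝ) 1 := ⟨ht.1, ht.2.le⟩
  have hy := (yl_pos he (Ioc_subset_Icc_self (sq_mem htI))).ne'
  have hev : margRat e (wtOf e q) =ᶠ[𝓝 t] fun s => s * mx e q (s ^ 2) / yl e (s ^ 2) ^ 5 :=
    eventually_of_mem (Ioo_mem_nhds ht.1 ht.2) fun s hs =>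
      margRat_eq he (Ioo_subset_Icc_self hs)
  have hd := ((hasDerivAt_id t).mul (comp_sq (hasDerivAt_mx he hq (sq_mem htI)))).div
    ((comp_sq (hasDerivAt_yl e (t ^ 2))).pow 5) (pow_ne_zero 5 hy)
  have hu := ((tangency he hq htI).congr_of_eventuallyEq hev.symm).unique hd
  rw [show yf e t = yl e (t ^ 2) from rfl] at hu
  refine eq_sub_of_add_eq hu |>.trans ?_
  simp only [ax, Pi.mul_apply, Pi.pow_apply, id_eq]
  push_cast
  field_simp
  ring

/-- The slope is continuous up to the diameter. -/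
theorem aSlope_cont_end (he : e ∈ Ioo (0 : ℝ) 1) (hq : q.IsDeriv) :
    ContinuousWithinAt (aSlope e (wtOf e q)) (Iic 1) 1 := by
  have hV : ContinuousOn (wtOf e q).V (Ioc 0 1) :=
    fun t ht => (deriv_V he hq ht).continuousAt.continuousWithinAt
  have hP : ContinuousOn (wtOf e q).P (Ioc 0 1) :=
    fun t ht => (deriv_P he hq ht).continuousAt.continuousWithinAt
  have hV1 := cont_V1 he hq
  have hP1 := cont_P1 he hq
  have hyc : ContinuousOn (yf e) (Ioc 0 1) := by unfold yf; fun_prop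
  have hy : ∀ t ∈ Ioc (0 : ℝ) 1, yf e t ^ 5 ≠ 0 := fun t ht =>
    pow_ne_zero 5 (yf_pos he (Ioc_subset_Icc_self ht)).ne'
  have h2 : ∀ t ∈ Ioc (0 : ℝ) 1, 2 * t ≠ 0 := fun t ht => mul_ne_zero two_ne_zero ht.1.ne'
  have h3 : ∀ t ∈ Ioc (0 : ℝ) 1, t ^ 3 ≠ 0 := fun t ht => pow_ne_zero 3 ht.1.ne'
  have h22 : ∀ t ∈ Ioc (0 : ℝ) 1, t ^ 2 ≠ 0 := fun t ht => pow_ne_zero 2 ht.1.ne'
  have h : ContinuousOn (aSlope e (wtOf e q)) (Ioc 0 1) := by
    unfold aSlope slope k0 k1 k3 ptIn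
    dsimp only
    fun_prop (disch := assumption)
  refine (h 1 ⟨one_pos, le_rfl⟩).mono_of_mem_nhdsWithin ?_
  filter_upwards [self_mem_nhdsWithin, mem_nhdsWithin_of_mem_nhds (Ioi_mem_nhds one_pos)]
    with s hs hs0 using ⟨hs0, hs⟩

/-- Concavity in the sense of the certificate, from one inequality in `x`. -/
theorem conc_of_deriv (he : e ∈ Ioo (0 : ℝ) 1) (hq : q.IsDeriv)
    (h4 : ∀ x ∈ Icc (0 : ℝ) 1, HasDerivAt q.Q3 (Q4 x) x)
    {c : ℝ}
    (hsign : ∀ x ∈ Ioo (0 : ℝ) 1, 0 ≤ c * ax e q x - ax1 e q Q4 x * (1 - c * x)) :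
    MonotoneOn (fun t => -aSlope e (wtOf e q) t * zc c t) (Ioc 0 1) := by
  have hmem : ∀ t ∈ Ioo (0 : ℝ) 1, t ^ 2 ∈ Ioo (0 : ℝ) 1 := fun t ht =>
    ⟨pow_pos ht.1 2, pow_lt_one₀ ht.1.le ht.2 two_ne_zero⟩
  have hderiv : ∀ t ∈ Ioo (0 : ℝ) 1, HasDerivAt (fun t => -aSlope e (wtOf e q) t * zc c t)
      (2 * t * (c * ax e q (t ^ 2) - ax1 e q Q4 (t ^ 2) * (1 - c * t ^ 2))) t := by
    intro t ht
    have hev : (fun t => -aSlope e (wtOf e q) t * zc c t) =ᶠ[𝓝 t]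
        fun s => -ax e q (s ^ 2) * (1 - c * s ^ 2) :=
      eventually_of_mem (Ioo_mem_nhds ht.1 ht.2) fun s hs => by
        simp only [aSlope_eq he hq hs, zc]
    refine ((((comp_sq (hasDerivAt_ax he hq (h4 _ (Ioo_subset_Icc_self (hmem t ht)))
      ⟨(hmem t ht).1, (hmem t ht).2.le⟩))).neg.mul
        (((hasDerivAt_pow 2 t).const_mul c).const_sub 1)).congr_of_eventuallyEq hev).congr_deriv ?_
    simp only [Pi.neg_apply]
    push_cast
    ring
  have hcont := aSlope_cont_end he hq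
  refine monotoneOn_of_deriv_nonneg (convex_Ioc 0 1) (fun t ht => ?_) ?_ ?_
  · rcases ht.2.eq_or_lt with rfl | h1
    · exact ((hcont.mono fun s hs => hs.2).neg.mul (by unfold zc; fun_prop))
    · exact (hderiv t ⟨ht.1, h1⟩).continuousAt.continuousWithinAt
  · rw [interior_Ioc]
    exact fun t ht => (hderiv t ht).differentiableAt.differentiableWithinAt
  · rw [interior_Ioc]
    intro t ht
    rw [(hderiv t ht).deriv]
    exact mul_nonneg (mul_nonneg zero_le_two ht.1.le) (hsign _ (hmem t ht))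

end Tan

end Vale.Agent.P219.CH.Relax.Six
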