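import Mathlib

/-!
# P219, dimension six: quantitative concavity of the marginal coefficient

If `-A' * (1 - q x ^ 2)` increases, the coefficient lies below its tangent at `t` by a rational
amount on either side.
-/

noncomputable section

open Set

namespace Vale.Agent.P219.CH.Relax.Six

/-- The comparison factor. -/
def zc (q x : ℝ) : ℝ := 1 - q * x ^ 2

/-- Its mean on an interval. -/
def zbar (q t c : ℝ) : ℝ := 1 - q * (t ^ 2 + t * c + c ^ 2) / 3

/-- The tangent of `A` at `t` with value `v` and slope `l`, less the loss from the concavity. -/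
def tanLoss (q t v l c : ℝ) : ℝ :=
  if t ≤ c then v + l * (c - t) * (zc q t / zbar q t c)
  else v + l * (c - t) * ((1 + zc q t / zc q c) / 2)

variable {q t c : ℝ}

lemma zc_pos (hq : q ∈ Ico (0 : ℝ) 1) {x : ℝ} (hx : x ∈ Icc (0 : ℝ) 1) : 0 < zc q x := by
  have h : q * x ^ 2 ≤ q * 1 :=
    mul_le_mul_of_nonneg_left (pow_le_one₀ hx.1 hx.2) hq.1
  rw [zc]
  linarith [hq.2]

lemma zbar_pos (hq : q ∈ Ico (0 : ℝ) 1) (ht : t ∈ Icc (0 : ℝ) 1) (hc : c ∈ Icc (0 : ℝ) 1) :
    0 < zbar q t c := by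
  have h : t ^ 2 + t * c + c ^ 2 ≤ 3 := by
    have := pow_le_one₀ (n := 2) ht.1 ht.2
    have := pow_le_one₀ (n := 2) hc.1 hc.2
    have := mul_le_one₀ ht.2 hc.1 hc.2
    linarith
  have := mul_le_mul_of_nonneg_left h hq.1
  rw [zbar]
  linarith [hq.2]

/-- The tangent of the inverse at any positive value bounds the inverse from below. -/
lemma inv_tangent {z b : ℝ} (hz : 0 < z) (hb : 0 < b) : 2 / b - z / b ^ 2 ≤ 1 / z := by
  rw [div_sub_div _ _ hb.ne' (pow_pos hb 2).ne', div_le_div_iff₀ (by positivity) hz]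
  nlinarith [mul_nonneg hb.le (sq_nonneg (z - b))]

/-- The secant bounds the inverse from above. -/
lemma inv_secant (hq : q ∈ Ico (0 : ℝ) 1) {x : ℝ} (hc : 0 ≤ c) (ht : t ≤ 1) (hct : c < t)
    (hx : x ∈ Icc c t) :
    1 / zc q x ≤ 1 / zc q c + (x - c) / (t - c) * (1 / zc q t - 1 / zc q c) := by
  obtain ⟨μ, hμ⟩ : ∃ μ, μ = (x - c) / (t - c) := ⟨_, rfl⟩
  have htc : 0 < t - c := sub_pos.2 hct
  have hμ0 : 0 ≤ μ := hμ ▸ div_nonneg (sub_nonneg.2 hx.1) htc.le
  have hμ1 : μ ≤ 1 := hμ ▸ (div_le_one htc).2 (by linarith [hx.2])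
  have hxm : x = c + μ * (t - c) := by rw [hμ, div_mul_cancel₀ _ htc.ne']; ring
  have hA := zc_pos hq (x := c) ⟨hc, by linarith⟩
  have hB := zc_pos hq (x := t) ⟨by linarith, ht⟩
  have hX := zc_pos hq (x := x) ⟨by linarith [hx.1], by linarith [hx.2]⟩
  have hcv : (1 - μ) * zc q c + μ * zc q t ≤ zc q x := by
    rw [hxm]
    simp only [zc]
    linarith [mul_nonneg (mul_nonneg hq.1 hμ0) (mul_nonneg (sub_nonneg.2 hμ1) (sq_nonneg (t - c)))]
  rw [← hμ]
  obtain ⟨A, hAd⟩ : ∃ A, A = zc q c := ⟨_, rfl⟩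
  obtain ⟨B, hBd⟩ : ∃ B, B = zc q t := ⟨_, rfl⟩
  rw [← hAd] at hA hcv
  rw [← hBd] at hB hcv
  rw [← hAd, ← hBd]
  have e : 1 / A + μ * (1 / B - 1 / A) = ((1 - μ) * B + μ * A) / (A * B) := by
    field_simp
    ring
  rw [e, div_le_div_iff₀ hX (mul_pos hA hB), one_mul]
  have hL : 0 ≤ (1 - μ) * B + μ * A :=
    add_nonneg (mul_nonneg (sub_nonneg.2 hμ1) hB.le) (mul_nonneg hμ0 hA.le)
  have := mul_le_mul_of_nonneg_left hcv hL
  nlinarith [mul_nonneg (mul_nonneg hμ0 (sub_nonneg.2 hμ1)) (sq_nonneg (A - B))]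

/-- The coefficient lies below its tangent less the loss. -/
theorem le_tanLoss (hq : q ∈ Ico (0 : ℝ) 1) {A A' : ℝ → ℝ}
    (hd : ∀ x ∈ Ioc (0 : ℝ) 1, HasDerivAt A (A' x) x) (hn : ∀ x ∈ Ioc (0 : ℝ) 1, A' x ≤ 0)
    (hm : MonotoneOn (fun x => -A' x * zc q x) (Ioc 0 1))
    (ht : t ∈ Ioc (0 : ℝ) 1) (hc : c ∈ Ioc (0 : ℝ) 1) :
    A c ≤ tanLoss q t (A t) (A' t) c := by
  have hzt := zc_pos hq (Ioc_subset_Icc_self ht)
  obtain ⟨K, hK⟩ : ∃ K, K = A' t * zc q t := ⟨_, rfl⟩
  have hK0 : K ≤ 0 := hK ▸ mul_nonpos_of_nonpos_of_nonneg (hn t ht) hzt.le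
  rw [tanLoss]
  split_ifs with h
  · obtain ⟨b, hb⟩ : ∃ b, b = zbar q t c := ⟨_, rfl⟩
    have hb0 : 0 < b := hb ▸ zbar_pos hq (Ioc_subset_Icc_self ht) (Ioc_subset_Icc_self hc)
    have hP : ∀ x ∈ Icc t c, HasDerivAt (fun x => A x - K * (2 / b * x - (x - q * x ^ 3 / 3) / b ^ 2))
        (A' x - K * (2 / b - zc q x / b ^ 2)) x := fun x hx => by
      refine (hd x ⟨ht.1.trans_le hx.1, hx.2.trans hc.2⟩).sub ?_
      refine ((((hasDerivAt_id x).const_mul (2 / b)).sub
        (((hasDerivAt_id x).sub (((hasDerivAt_pow 3 x).const_mul q).div_const 3)).div_const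
          (b ^ 2))).const_mul K).congr_deriv ?_
      simp only [zc]
      push_cast
      ring
    have hanti : AntitoneOn (fun x => A x - K * (2 / b * x - (x - q * x ^ 3 / 3) / b ^ 2))
        (Icc t c) := by
      refine antitoneOn_of_deriv_nonpos (convex_Icc t c)
        (fun x hx => (hP x hx).continuousAt.continuousWithinAt)
        (fun x hx => (hP x (interior_subset hx)).differentiableAt.differentiableWithinAt)
        fun x hx => ?_
      have hxI := interior_subset hx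
      have hx1 : x ∈ Ioc (0 : ℝ) 1 := ⟨ht.1.trans_le hxI.1, hxI.2.trans hc.2⟩
      have hzx := zc_pos hq (Ioc_subset_Icc_self hx1)
      rw [(hP x hxI).deriv]
      have h1 : A' x ≤ K * (1 / zc q x) := by
        rw [mul_one_div, le_div_iff₀ hzx, hK]
        linarith [hm ht hx1 hxI.1]
      have := mul_le_mul_of_nonpos_left (inv_tangent hzx hb0) hK0
      linarith
    have h2 := hanti (left_mem_Icc.2 h) (right_mem_Icc.2 h) h
    simp only at h2
    have e : (2 / b * c - (c - q * c ^ 3 / 3) / b ^ 2) - (2 / b * t - (t - q * t ^ 3 / 3) / b ^ 2) =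
        (c - t) / b := by
      have e3 : (c - q * c ^ 3 / 3) - (t - q * t ^ 3 / 3) = (c - t) * b := by rw [hb, zbar]; ring
      rw [show (2 / b * c - (c - q * c ^ 3 / 3) / b ^ 2) - (2 / b * t - (t - q * t ^ 3 / 3) / b ^ 2) =
        2 / b * (c - t) - ((c - q * c ^ 3 / 3) - (t - q * t ^ 3 / 3)) / b ^ 2 by ring, e3]
      field_simp
      ring
    rw [show A' t * (c - t) * (zc q t / zbar q t c) = K * ((c - t) / b) by rw [hK, ← hb]; ring, ← e]
    linarith
  · have hct : c < t := not_le.1 h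
    have hzc := zc_pos hq (Ioc_subset_Icc_self hc)
    obtain ⟨σ, hσ⟩ : ∃ σ, σ = (1 / zc q t - 1 / zc q c) / (t - c) := ⟨_, rfl⟩
    have hP : ∀ x ∈ Icc c t,
        HasDerivAt (fun x => A x - K * (x / zc q c + σ * (x - c) ^ 2 / 2))
          (A' x - K * (1 / zc q c + σ * (x - c))) x := fun x hx => by
      refine (hd x ⟨hc.1.trans_le hx.1, hx.2.trans ht.2⟩).sub ?_
      refine (((hasDerivAt_id x).div_const (zc q c)).add
        (((((hasDerivAt_id x).sub_const c).pow 2).const_mul σ).div_const 2)).const_mul K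
        |>.congr_deriv ?_
      simp only [id_eq]
      push_cast
      ring
    have hmono : MonotoneOn (fun x => A x - K * (x / zc q c + σ * (x - c) ^ 2 / 2)) (Icc c t) := by
      refine monotoneOn_of_deriv_nonneg (convex_Icc c t)
        (fun x hx => (hP x hx).continuousAt.continuousWithinAt)
        (fun x hx => (hP x (interior_subset hx)).differentiableAt.differentiableWithinAt)
        fun x hx => ?_
      have hxI := interior_subset hx
      have hx1 : x ∈ Ioc (0 : ℝ) 1 := ⟨hc.1.trans_le hxI.1, hxI.2.trans ht.2⟩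
      have hzx := zc_pos hq (Ioc_subset_Icc_self hx1)
      rw [(hP x hxI).deriv]
      have h1 : K * (1 / zc q x) ≤ A' x := by
        rw [mul_one_div, div_le_iff₀ hzx, hK]
        linarith [hm hx1 ht hxI.2]
      have h3 := inv_secant hq hc.1.le ht.2 hct hxI
      rw [show (x - c) / (t - c) * (1 / zc q t - 1 / zc q c) = σ * (x - c) by rw [hσ]; ring] at h3
      have := mul_le_mul_of_nonpos_left h3 hK0
      linarith
    have h2 := hmono (left_mem_Icc.2 hct.le) (right_mem_Icc.2 hct.le) hct.le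
    simp only at h2
    have e : (t / zc q c + σ * (t - c) ^ 2 / 2) - (c / zc q c + σ * (c - c) ^ 2 / 2) =
        (t - c) * ((1 / zc q c + 1 / zc q t) / 2) := by
      rw [hσ]
      have : t - c ≠ 0 := (sub_pos.2 hct).ne'
      field_simp
      ring
    rw [show A' t * (c - t) * ((1 + zc q t / zc q c) / 2) =
      -(K * ((t - c) * ((1 / zc q c + 1 / zc q t) / 2))) by
        rw [hK]; field_simp; ring, ← e]
    linarith

end Vale.Agent.P219.CH.Relax.Six
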