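import Vale.Agent.P219.Relax.Six.InPt
import Vale.Agent.P219.Relax.Five.Algebra

/-!
# P219, dimension six: the pair conditions from the facts at one distance

Along a constant sum the lower bound of the symmetrised kernel is affine in the product. The gain
follows from its two ends; the pair bound, whose loss is a sum of two squares, from three values and
the conditions on the middle coefficient.
-/

noncomputable section

open Set

namespace Vale.Agent.P219.CH.Relax.Six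

open Five (Pt affine_nonneg one_sub_sq_nonneg sqrt_mul_le_mean)

/-- The symmetrised kernel. -/
def symX (o : Pt) (c d : ℝ) : ℝ :=
  2 + ker o c d + ker o d c +
    o.g * o.G * (|c| + |d|) * (Real.sqrt (1 - c ^ 2) * Real.sqrt (1 - d ^ 2))

lemma symX_comm (o : Pt) (c d : ℝ) : symX o c d = symX o d c := by
  simp only [symX]
  ring

lemma symB_comm (o : Pt) (c d : ℝ) : symB o c d = symB o d c := by
  simp only [symB]
  ring

variable {o : Pt}

lemma symB_le_symX (hG : o.G ≤ 0) (hg : 0 ≤ o.g) {c d : ℝ} (hc : c ∈ Icc (-1 : ℝ) 1)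
    (hd : d ∈ Icc (-1 : ℝ) 1) : symB o c d ≤ symX o c d := by
  have hB : Real.sqrt (1 - c ^ 2) * Real.sqrt (1 - d ^ 2) ≤ 1 - (c ^ 2 + d ^ 2) / 2 :=
    (sqrt_mul_le_mean (one_sub_sq_nonneg hc) (one_sub_sq_nonneg hd)).trans_eq (by ring)
  have : o.g * o.G * (|c| + |d|) ≤ 0 :=
    mul_nonpos_of_nonpos_of_nonneg (mul_nonpos_of_nonneg_of_nonpos hg hG) (by positivity)
  have := mul_le_mul_of_nonpos_left hB this
  rw [symX, symB]
  linarith

lemma symB_diag (o : Pt) {m : ℝ} (hm : 0 ≤ m) : symB o m m = 2 * diag o m := by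
  simp only [symB, ker, diag, k0, k1, k2, k3, abs_of_nonneg hm]
  ring

/-- The coefficient of the product along a constant sum. -/
def coefS (o : Pt) (s : ℝ) : ℝ :=
  2 * o.U' - s * o.G' + o.p * (-2 * o.U + s * o.G) - 10 * o.G + o.g * o.G * s

lemma symB_eq (o : Pt) {c d : ℝ} (hc : 0 ≤ c) (hd : 0 ≤ d) :
    symB o c d = symB o (c + d) 0 + coefS o (c + d) * (c * d) := by
  simp only [symB, ker, coefS, abs_of_nonneg hc, abs_of_nonneg hd, abs_of_nonneg (add_nonneg hc hd),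
    abs_zero]
  ring

/-- With a multiple of the product: nonnegative on the diagonal and the sides gives it everywhere. -/
lemma line_nonneg {c d M : ℝ} (hc : c ∈ Icc (0 : ℝ) 1) (hd : d ∈ Icc (0 : ℝ) 1)
    (hdiag : 0 ≤ symB o ((c + d) / 2) ((c + d) / 2) + (c + d) / 2 * ((c + d) / 2) * M)
    (hlow : c + d ≤ 1 → 0 ≤ symB o (c + d) 0)
    (hhigh : 1 ≤ c + d → 0 ≤ symB o (c + d - 1) 1 + (c + d - 1) * M) :
    0 ≤ symB o c d + c * d * M := by
  obtain ⟨hc0, hc1⟩ := hc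
  obtain ⟨hd0, hd1⟩ := hd
  obtain ⟨s, hs⟩ : ∃ s, s = c + d := ⟨_, rfl⟩
  rw [← hs] at hdiag hlow hhigh
  have hs0 : 0 ≤ s := by linarith
  rw [symB_eq o (by linarith : 0 ≤ s / 2) (by linarith : 0 ≤ s / 2), add_halves] at hdiag
  rw [symB_eq o hc0 hd0, ← hs]
  have hb : 0 ≤ symB o s 0 + (coefS o s + M) * (s / 2 * (s / 2)) := by linarith
  have hπ : c * d ≤ s / 2 * (s / 2) := by rw [hs]; linarith [sq_nonneg (c - d)]
  rcases le_total s 1 with h | h
  · have := affine_nonneg (mul_nonneg hc0 hd0) hπ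
      (α := symB o s 0) (β := coefS o s + M) (by linarith [hlow h]) hb
    linarith
  · have hlo : s - 1 ≤ c * d := by nlinarith [mul_nonneg (sub_nonneg.2 hc1) (sub_nonneg.2 hd1)]
    have h1 := hhigh h
    rw [symB_eq o (by linarith : 0 ≤ s - 1) zero_le_one, sub_add_cancel, mul_one] at h1
    have := affine_nonneg hlo hπ (α := symB o s 0) (β := coefS o s + M) (by linarith) hb
    linarith

variable {q t : ℝ}

/-- The kernel is negative by at most the gain, for every sign. -/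
theorem InPt.gain (h : InPt q o t) (hg : 0 ≤ o.g) {c d : ℝ} (hc : c ∈ Icc (-1 : ℝ) 1)
    (hd : d ∈ Icc (-1 : ℝ) 1) :
    0 ≤ symX o c d +
      2 * |c * d| * (o.g * Real.sqrt ((o.U + c * o.G) * (o.U + d * o.G))) := by
  have hG := h.slope_nonpos
  have hU := h.weight_pos
  have hx : ∀ c : ℝ, c ≤ 1 → o.U + o.G ≤ o.U + c * o.G := fun c hc => by
    linarith [mul_le_mul_of_nonpos_right hc hG]
  have hs : o.U + o.G ≤ Real.sqrt ((o.U + c * o.G) * (o.U + d * o.G)) :=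
    Real.le_sqrt_of_sq_le (by
      rw [sq]
      exact mul_le_mul (hx c hc.2) (hx d hd.2) hU.le (hU.le.trans (hx c hc.2)))
  have hX := symB_le_symX hG hg hc hd
  have hgain : 0 ≤ 2 * |c * d| * (o.g * Real.sqrt ((o.U + c * o.G) * (o.U + d * o.G))) :=
    mul_nonneg (by positivity) (mul_nonneg hg (Real.sqrt_nonneg _))
  have hgU : 0 ≤ o.g * o.U := mul_nonneg hg (by linarith)
  rcases le_total 0 c with hc0 | hc0 <;> rcases le_total 0 d with hd0 | hd0
  · have h1 := line_nonneg (o := o) (M := 2 * (o.g * (o.U + o.G))) ⟨hc0, hc.2⟩ ⟨hd0, hd.2⟩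
      (by
        have hm : (c + d) / 2 ∈ Icc (0 : ℝ) 1 := ⟨by linarith, by linarith [hc.2, hd.2]⟩
        rw [symB_diag o hm.1]
        have := h.gain_diag _ hm
        linarith)
      (fun h' => h.zero _ ⟨by linarith, h'⟩)
      (fun h' => by
        have := h.gain_end (c + d - 1) ⟨by linarith, by linarith [hc.2, hd.2]⟩
        linarith)
    have h2 := mul_le_mul_of_nonneg_left hs
      (mul_nonneg (mul_nonneg (mul_nonneg zero_le_two hc0) hd0) hg)
    rw [abs_of_nonneg (mul_nonneg hc0 hd0)]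
    linarith
  · have h1 := h.mixed c ⟨hc0, hc.2⟩ (-d) ⟨by linarith, by linarith [hd.1]⟩
    rw [neg_neg] at h1
    have := mul_nonneg (mul_nonneg hc0 (neg_nonneg.2 hd0)) hgU
    linarith
  · have h1 := h.mixed d ⟨hd0, hd.2⟩ (-c) ⟨by linarith, by linarith [hc.1]⟩
    rw [neg_neg, symB_comm o d c] at h1
    have := mul_nonneg (mul_nonneg hd0 (neg_nonneg.2 hc0)) hgU
    linarith
  · have h1 := h.outward (-c) ⟨by linarith, by linarith [hc.1]⟩ (-d)
      ⟨by linarith, by linarith [hd.1]⟩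
    rw [neg_neg, neg_neg] at h1
    linarith

/-- The bounds with an outward cosine. -/
theorem InPt.mixed_le (h : InPt q o t) (hg : 0 ≤ o.g) {c d : ℝ} (hc : c ∈ Icc (0 : ℝ) 1)
    (hd : d ∈ Icc (0 : ℝ) 1) :
    2 * (c * d) * (o.g * o.U) ≤ symX o c (-d) ∧ 0 ≤ symX o (-c) (-d) := by
  have hn : ∀ x : ℝ, x ∈ Icc (0 : ℝ) 1 → x ∈ Icc (-1 : ℝ) 1 ∧ -x ∈ Icc (-1 : ℝ) 1 := fun x hx =>
    ⟨⟨by linarith [hx.1], hx.2⟩, by linarith [hx.2], by linarith [hx.1]⟩
  exact ⟨(h.mixed c hc d hd).trans (symB_le_symX h.slope_nonpos hg (hn c hc).1 (hn d hd).2),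
    (h.outward c hc d hd).trans (symB_le_symX h.slope_nonpos hg (hn c hc).2 (hn d hd).2)⟩

/-! ## The loss -/

lemma hLoss_mono (hq : q ∈ Ico (0 : ℝ) 1) (ht : t ∈ Ioc (0 : ℝ) 1) {x y : ℝ} (hx : 0 ≤ x)
    (hxy : x ≤ y) : hLoss q t x ≤ hLoss q t y := by
  obtain ⟨a, ha⟩ : ∃ a, a = min x t := ⟨_, rfl⟩
  obtain ⟨b, hb⟩ : ∃ b, b = min y t := ⟨_, rfl⟩
  have hab : a ≤ b := by rw [ha, hb]; exact min_le_min_right t hxy
  have ha0 : 0 ≤ a := ha ▸ le_min hx ht.1.le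
  have hb1 : b ≤ 1 := hb ▸ (min_le_right y t).trans ht.2
  have hzb : 0 < zc q b := zc_pos hq ⟨ha0.trans hab, hb1⟩
  have hz : zc q b ≤ zc q a := by
    rw [zc, zc]
    linarith [mul_le_mul_of_nonneg_left (pow_le_pow_left₀ ha0 hab 2) hq.1]
  rw [hLoss, hLoss, ← ha, ← hb]
  exact div_le_div₀ (mul_nonneg hq.1 (by linarith [ht.1]))
    (mul_le_mul_of_nonneg_left (by linarith) hq.1) (by linarith) (by linarith)

lemma hLoss_nonneg (hq : q ∈ Ico (0 : ℝ) 1) (ht : t ∈ Ioc (0 : ℝ) 1) {x : ℝ} (hx : 0 ≤ x) :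
    0 ≤ hLoss q t x := by
  have h0 : 0 ≤ min x t := le_min hx ht.1.le
  have := zc_pos hq (x := min x t) ⟨h0, (min_le_right x t).trans ht.2⟩
  exact div_nonneg (mul_nonneg hq.1 (by linarith [ht.1])) (by linarith)

lemma hLoss_of_ge {x : ℝ} (h : t ≤ x) : hLoss q t x = hLoss q t t := by
  simp only [hLoss, min_eq_right h, min_self]

/-- A quadratic with the two weighted conditions on its middle coefficient. -/
lemma quad_nonneg {B₀ B₁ B₂ p r u v : ℝ} (h₀ : 0 ≤ B₀) (h₂ : 0 ≤ B₂) (hp : 0 < p) (hr : 0 < r)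
    (hu : 0 ≤ u) (hv : 0 ≤ v) (ha : 0 ≤ r * B₀ + p * B₁) (hb : 0 ≤ p * B₂ + r * B₁) :
    0 ≤ u ^ 2 * B₀ + 2 * u * v * B₁ + v ^ 2 * B₂ := by
  rcases le_or_gt 0 B₁ with h | h
  · have := mul_nonneg (mul_nonneg hu hv) h
    have := mul_nonneg (sq_nonneg u) h₀
    have := mul_nonneg (sq_nonneg v) h₂
    linarith
  · have h1 := mul_le_mul_of_nonneg_left ha (mul_nonneg (sq_nonneg u) hp.le)
    have h2 := mul_le_mul_of_nonneg_left hb (mul_nonneg (sq_nonneg v) hr.le)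
    have h3 := mul_nonneg (sq_nonneg (u * p - v * r)) (neg_pos.2 h).le
    have h4 : 0 ≤ r * p * (u ^ 2 * B₀ + 2 * u * v * B₁ + v ^ 2 * B₂) := by linarith
    exact nonneg_of_mul_nonneg_right h4 (mul_pos hr hp)

/-! ## The pair bound -/

lemma plainRow_comm (o : Pt) (t c d : ℝ) : plainRow o t c d = plainRow o t d c := by
  rw [plainRow, plainRow, symB_comm, add_comm c d]
  ring

lemma plainRow_eq (o : Pt) (t : ℝ) {c d : ℝ} (hc : 0 ≤ c) (hd : 0 ≤ d) :
    plainRow o t c d = symB o (c + d) 0 + (coefS o (c + d) - tanSum o t (c + d)) * (c * d) := by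
  rw [plainRow, symB_eq o hc hd]
  ring

lemma InPt.plain_diag (h : InPt q o t) (ht : t ∈ Ioc (0 : ℝ) 1) {m : ℝ} (hm : m ∈ Icc (0 : ℝ) 1) :
    0 ≤ plainRow o t m m := by
  obtain ⟨hm0, hm1⟩ := hm
  have ht0 := ht.1
  have e : plainRow o t m m = 2 * ((m - t) ^ 2 *
      ((1 - m) * (k0 o * t) + m * ((2 + t) * k0 o + t * k1 o)) / t ^ 3) := by
    rw [plainRow, symB_diag o hm0, tanSum, slope, diag, diag]
    field_simp
    ring
  rw [e]
  have := mul_nonneg (sub_nonneg.2 hm1) (mul_nonneg h.conv₀ ht0.le)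
  have := mul_nonneg hm0 h.conv₁
  positivity

/-- The pair bound for the bound with the arithmetic mean, the larger cosine first. -/
theorem InPt.pair_ordered (h : InPt q o t) (hq : q ∈ Ico (0 : ℝ) 1) (ht : t ∈ Ioc (0 : ℝ) 1)
    {c d : ℝ} (hc : c ∈ Icc (0 : ℝ) 1) (hd : d ∈ Icc (0 : ℝ) 1) (hdc : d ≤ c) :
    0 ≤ plainRow o t c d - slope o t * (c * d) *
      (hLoss q t c * (c - t) ^ 2 + hLoss q t d * (d - t) ^ 2) := by
  obtain ⟨hc0, hc1⟩ := hc
  obtain ⟨hd0, hd1⟩ := hd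
  have hw : 0 ≤ -slope o t := neg_nonneg.2 h.down
  have hlc := hLoss_nonneg hq ht hc0
  have hld := hLoss_nonneg hq ht hd0
  have hloss : 0 ≤ -slope o t * (c * d) *
      (hLoss q t c * (c - t) ^ 2 + hLoss q t d * (d - t) ^ 2) := by
    have : 0 ≤ -slope o t * (c * d) := mul_nonneg hw (mul_nonneg hc0 hd0)
    exact mul_nonneg this (by positivity)
  obtain ⟨m, hm⟩ : ∃ m, m = (c + d) / 2 := ⟨_, rfl⟩
  obtain ⟨δ, hδ⟩ : ∃ δ, δ = (c - d) / 2 := ⟨_, rfl⟩
  obtain ⟨A, hA⟩ : ∃ A, A = symB o (c + d) 0 := ⟨_, rfl⟩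
  obtain ⟨K, hK⟩ : ∃ K, K = coefS o (c + d) - tanSum o t (c + d) := ⟨_, rfl⟩
  have hδ0 : 0 ≤ δ := by rw [hδ]; linarith
  have hm01 : m ∈ Icc (0 : ℝ) 1 := ⟨by rw [hm]; linarith, by rw [hm]; linarith⟩
  have hp0 := h.plain_diag ht hm01
  have hrow : ∀ x y : ℝ, 0 ≤ x → 0 ≤ y → x + y = c + d → plainRow o t x y = A + K * (x * y) :=
    fun x y hx hy hxy => by rw [plainRow_eq o t hx hy, hxy, hA, hK]
  have ecd := hrow c d hc0 hd0 rfl
  rw [hrow m m hm01.1 hm01.1 (by rw [hm]; ring)] at hp0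
  have hπ : c * d = m * m - δ ^ 2 := by rw [hm, hδ]; ring
  rcases le_or_gt (c + d) 1 with hs | hs
  · have h0 : 0 ≤ A := hA ▸ h.zero _ ⟨by linarith, hs⟩
    have := affine_nonneg (mul_nonneg hc0 hd0) (by rw [hπ]; linarith [sq_nonneg δ]) (α := A) (β := K)
      (by linarith) hp0
    rw [ecd]
    linarith
  obtain ⟨ce, hce⟩ : ∃ ce, ce = c + d - 1 := ⟨_, rfl⟩
  have hce0 : 0 ≤ ce := by linarith
  have hce1 : ce ≤ 1 := by linarith
  obtain ⟨de, hde⟩ : ∃ de, de = 1 - m := ⟨_, rfl⟩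
  have hde0 : 0 ≤ de := by linarith [hm01.2]
  have hδde : δ ≤ de := by rw [hde, hm, hδ]; linarith
  have hlo : ce ≤ c * d := by
    rw [hce]; linarith [mul_nonneg (sub_nonneg.2 hc1) (sub_nonneg.2 hd1)]
  have hem : (1 + ce) / 2 = m := by rw [hce, hm]; ring
  have hed : (1 - ce) / 2 = de := by rw [hde, hm, hce]; ring
  have hE := h.endc ce ⟨hce0, hce1⟩
  rw [endRow, hrow ce 1 hce0 zero_le_one (by rw [hce]; ring)] at hE
  obtain ⟨he, hhe⟩ : ∃ he, he = hLoss q t ce := ⟨_, rfl⟩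
  obtain ⟨κ, hκ⟩ : ∃ κ, κ = hLoss q t t := ⟨_, rfl⟩
  rw [← hhe, ← hκ] at hE
  have hhe0 : 0 ≤ he := hhe ▸ hLoss_nonneg hq ht hce0
  have hheκ : he ≤ κ := by
    rw [hhe, hκ]
    rcases le_total t ce with h' | h'
    · rw [hLoss_of_ge h']
    · exact hLoss_mono hq ht hce0 h'
  have hhd : he ≤ hLoss q t d := hhe ▸ hLoss_mono hq ht hce0 (by linarith)
  rcases hde0.eq_or_lt with h0 | hde0'
  · have hd0' : δ = 0 := by linarith
    have : c * d = m * m := by rw [hπ, hd0']; ring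
    rw [ecd, this]
    rw [this] at hloss
    linarith
  -- the loss with the weights at the side
  have hmain : ∀ H : ℝ, H ≤ hLoss q t c →
      0 ≤ H →
      0 ≤ de ^ 2 * (A + K * (c * d)) +
        -slope o t * ce * de ^ 2 * (H * (c - t) ^ 2 + he * (d - t) ^ 2) →
      0 ≤ plainRow o t c d - slope o t * (c * d) *
        (hLoss q t c * (c - t) ^ 2 + hLoss q t d * (d - t) ^ 2) := by
    intro H hH hH0 hkey
    have h1 : H * (c - t) ^ 2 + he * (d - t) ^ 2 ≤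
        hLoss q t c * (c - t) ^ 2 + hLoss q t d * (d - t) ^ 2 :=
      add_le_add (mul_le_mul_of_nonneg_right hH (sq_nonneg _))
        (mul_le_mul_of_nonneg_right hhd (sq_nonneg _))
    have h2 := mul_le_mul (mul_le_mul_of_nonneg_left hlo hw) h1 (by positivity)
      (mul_nonneg hw (mul_nonneg hc0 hd0))
    have h3 := mul_le_mul_of_nonneg_left h2 (sq_nonneg de)
    have h4 : 0 ≤ de ^ 2 * (A + K * (c * d) - slope o t * (c * d) *
        (hLoss q t c * (c - t) ^ 2 + hLoss q t d * (d - t) ^ 2)) := by linarith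
    rw [ecd]
    exact nonneg_of_mul_nonneg_right h4 (pow_pos hde0' 2)
  have hct : c - t = m - t + δ := by rw [hm, hδ]; ring
  have hdt : d - t = m - t - δ := by rw [hm, hδ]; ring
  have hπe : ce * 1 = m * m - de ^ 2 := by rw [hce, hde, hm]; ring
  rw [hπe, show (1 : ℝ) - t = m - t + de by rw [hde]; ring,
    show ce - t = m - t - de by rw [hce, hde, hm]; ring] at hE
  rcases le_or_gt t m with htm | htm
  · have hcc : hLoss q t c = κ := by rw [hκ, hLoss_of_ge (by linarith)]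
    refine hmain κ hcc.ge (hhe0.trans hheκ) ?_
    rw [hπ, hct, hdt]
    have h1 := mul_le_mul_of_nonneg_left hE (sq_nonneg δ)
    have hdd : 0 ≤ de ^ 2 - δ ^ 2 := sub_nonneg.2 (pow_le_pow_left₀ hδ0 hδde 2)
    have h2 := mul_nonneg hdd hp0
    have h3 : δ ^ 2 * (κ * (m - t + de) ^ 2 + he * (m - t - de) ^ 2) ≤
        de ^ 2 * (κ * (m - t + δ) ^ 2 + he * (m - t - δ) ^ 2) := by
      have := mul_nonneg hdd (mul_nonneg (add_nonneg (hhe0.trans hheκ) hhe0) (sq_nonneg (m - t)))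
      have := mul_nonneg (mul_nonneg (mul_nonneg (sub_nonneg.2 hheκ) (sub_nonneg.2 htm))
        (mul_nonneg hδ0 hde0)) (sub_nonneg.2 hδde)
      linarith
    have h4 := mul_le_mul_of_nonneg_left h3 (mul_nonneg hw hce0)
    linarith
  -- the mean is short of the contact
  obtain ⟨b, hb⟩ : ∃ b, b = t - m := ⟨_, rfl⟩
  have hb0 : 0 < b := by linarith
  have hbt : 0 ≤ m - b := by rw [hb, hm]; linarith [ht.2]
  have hC := h.contact (m - b) ⟨hbt, by linarith⟩
  rw [hrow t (m - b) ht.1.le hbt (by rw [hb, hm]; ring)] at hC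
  rcases le_or_gt δ b with hδb | hδb
  · rw [show t * (m - b) = m * m - b ^ 2 by rw [hb]; ring] at hC
    have := affine_nonneg (x := c * d) (a := m * m - b ^ 2) (b := m * m) (α := A) (β := K)
      (by rw [hπ]; linarith [pow_le_pow_left₀ hδ0 hδb 2]) (by rw [hπ]; linarith [sq_nonneg δ])
      (by linarith) hp0
    rw [ecd]
    linarith
  have hcc : hLoss q t c = κ := by rw [hκ, hLoss_of_ge (by linarith)]
  refine hmain κ hcc.ge (hhe0.trans hheκ) ?_
  have hh := h.mid₀ ce ⟨hce0, by linarith⟩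
  have hh' := h.mid₁ ce ⟨hce0, by linarith⟩
  have hbde : b < de := by linarith
  have et : 2 * t - 1 - ce = 2 * b := by rw [hb, hm, hce]; ring
  have et' : 1 - t = de - b := by rw [hde, hb]; ring
  simp only [row0, row1, endRow, hem, hed, et] at hh hh'
  rw [et'] at hh hh'
  rw [hrow m m hm01.1 hm01.1 (by rw [hm]; ring), hrow ce 1 hce0 zero_le_one (by rw [hce]; ring),
    ← hhe, hπe, ← hb] at hh hh'
  rw [← hκ, show ce - t = -(de + b) by rw [hce, hde, hb, hm]; ring] at hh'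
  obtain ⟨p0, hp0d⟩ : ∃ p0, p0 = A + K * (m * m) := ⟨_, rfl⟩
  obtain ⟨G1, hG1⟩ : ∃ G1, G1 = A + K * (m * m - de ^ 2) := ⟨_, rfl⟩
  obtain ⟨B0, hB0⟩ : ∃ B0, B0 = p0 * de ^ 2 + (G1 - p0) * b ^ 2 -
      slope o t * ce * he * (4 * b ^ 2) * de ^ 2 := ⟨_, rfl⟩
  obtain ⟨B1, hB1⟩ : ∃ B1, B1 = p0 * de ^ 2 + (G1 - p0) * (b * de) -
      slope o t * ce * he * (2 * b * (de + b)) * de ^ 2 := ⟨_, rfl⟩
  obtain ⟨B2, hB2⟩ : ∃ B2, B2 = (G1 -
      slope o t * ce * (κ * (de - b) ^ 2 + he * (de + b) ^ 2)) * de ^ 2 := ⟨_, rfl⟩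
  rw [← hp0d, ← hG1] at hh hh'
  have ha : 0 ≤ (de - b) * B0 + 2 * b * B1 := by rw [hB0, hB1]; linarith
  have hb' : 0 ≤ 2 * b * B2 + (de - b) * B1 := by rw [hB2, hB1]; linarith
  have h0 : 0 ≤ B0 := by
    have e : B0 = de ^ 2 * (A + K * (t * (m - b))) +
        -slope o t * ce * he * (4 * b ^ 2) * de ^ 2 := by
      rw [hB0, hp0d, hG1, hb]; ring
    rw [e]
    have := mul_nonneg (mul_nonneg hw hce0) hhe0
    exact add_nonneg (mul_nonneg (sq_nonneg de) hC) (by positivity)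
  have h2 : 0 ≤ B2 := by
    rw [hB2]
    refine mul_nonneg ?_ (sq_nonneg de)
    rw [hG1, hb]
    linarith
  have hQ := quad_nonneg h0 h2 (by linarith : 0 < 2 * b) (sub_pos.2 hbde) (sub_nonneg.2 hδde)
    (sub_nonneg.2 hδb.le) ha hb'
  have e : (de - δ) ^ 2 * B0 + 2 * (de - δ) * (δ - b) * B1 + (δ - b) ^ 2 * B2 =
      (de - b) ^ 2 * (de ^ 2 * (A + K * (c * d)) +
        -slope o t * ce * de ^ 2 * (κ * (c - t) ^ 2 + he * (d - t) ^ 2)) := by
    rw [hB0, hB1, hB2, hp0d, hG1, hπ, hct, hdt, show m - t = -b by linarith]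
    ring
  rw [e] at hQ
  exact nonneg_of_mul_nonneg_right hQ (pow_pos (sub_pos.2 hbde) 2)

/-- The pair bound for the bound with the arithmetic mean. -/
theorem InPt.pair_symB (h : InPt q o t) (hq : q ∈ Ico (0 : ℝ) 1) (ht : t ∈ Ioc (0 : ℝ) 1)
    {c d : ℝ} (hc : c ∈ Icc (0 : ℝ) 1) (hd : d ∈ Icc (0 : ℝ) 1) :
    c * d * (tanSum o t (c + d) +
        slope o t * (hLoss q t c * (c - t) ^ 2 + hLoss q t d * (d - t) ^ 2)) ≤ symB o c d := by
  rcases le_total d c with hdc | hdc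
  · have := h.pair_ordered hq ht hc hd hdc
    rw [plainRow] at this
    linarith
  · have := h.pair_ordered hq ht hd hc hdc
    rw [plainRow_comm o t d c, plainRow] at this
    linarith

/-- The pair bound, with the loss of the two tangents. -/
theorem InPt.pair (h : InPt q o t) (hq : q ∈ Ico (0 : ℝ) 1) (ht : t ∈ Ioc (0 : ℝ) 1)
    (hg : 0 ≤ o.g) {c d : ℝ} (hc : c ∈ Icc (0 : ℝ) 1) (hd : d ∈ Icc (0 : ℝ) 1) :
    c * d * (tanSum o t (c + d) +
        slope o t * (hLoss q t c * (c - t) ^ 2 + hLoss q t d * (d - t) ^ 2)) ≤ symX o c d :=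
  (h.pair_symB hq ht hc hd).trans (symB_le_symX h.slope_nonpos hg ⟨by linarith [hc.1], hc.2⟩
    ⟨by linarith [hd.1], hd.2⟩)

end Vale.Agent.P219.CH.Relax.Six
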