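import Vale.Agent.P219.Relax.Six.Pt
import Vale.Agent.P219.Relax.Six.Conc

/-!
# P219, dimension six: the facts at one distance inside the diameter

Beside the facts of dimension five, the pair bound uses the tangent at the contact less a loss from
the quantitative concavity of the marginal coefficient. Along a line of constant sum the bound is
then a quadratic, so it follows from its values at the diagonal, the contact and the side, and two
conditions on the middle coefficient. All conditions are linear in the weight and its derivative.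
-/

noncomputable section

open Set

namespace Vale.Agent.P219.CH.Relax.Six

open Five (Pt)

/-- The constant of the concavity of the marginal coefficient. -/
def concQ (e : ℝ) : ℝ := 4 * e / (1 + 3 * e)

/-- The loss of a tangent per squared distance from the contact. -/
def hLoss (q t c : ℝ) : ℝ := q * (t + min c t) / (2 * zc q (min c t))

/-- The sum of the two tangents at the contact. -/
def tanSum (o : Pt) (t s : ℝ) : ℝ := 2 * diag o t / t ^ 2 + slope o t * (s - 2 * t)

/-- The pair bound without loss. -/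
def plainRow (o : Pt) (t c d : ℝ) : ℝ := symB o c d - c * d * tanSum o t (c + d)

/-- The pair bound with one cosine one, with the two losses. -/
def endRow (q : ℝ) (o : Pt) (t c : ℝ) : ℝ :=
  plainRow o t c 1 - slope o t * c * (hLoss q t t * (1 - t) ^ 2 + hLoss q t c * (c - t) ^ 2)

/-- On the line through `(c, 1)`, at the contact: the value times the squared half width. -/
def row0 (q : ℝ) (o : Pt) (t c : ℝ) : ℝ :=
  plainRow o t ((1 + c) / 2) ((1 + c) / 2) * ((1 - c) / 2) ^ 2 +
    (plainRow o t c 1 - plainRow o t ((1 + c) / 2) ((1 + c) / 2)) * (t - (1 + c) / 2) ^ 2 -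
    slope o t * c * hLoss q t c * (4 * (t - (1 + c) / 2) ^ 2) * ((1 - c) / 2) ^ 2

/-- The middle coefficient between the contact and `(c, 1)`, times the squared half width. -/
def row1 (q : ℝ) (o : Pt) (t c : ℝ) : ℝ :=
  plainRow o t ((1 + c) / 2) ((1 + c) / 2) * ((1 - c) / 2) ^ 2 +
    (plainRow o t c 1 - plainRow o t ((1 + c) / 2) ((1 + c) / 2)) *
      ((t - (1 + c) / 2) * ((1 - c) / 2)) -
    slope o t * c * hLoss q t c * (2 * (t - (1 + c) / 2) * ((1 - c) / 2 + (t - (1 + c) / 2))) *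
      ((1 - c) / 2) ^ 2

/-- The facts at one distance inside the diameter, with contact `t`. -/
structure InPt (q : ℝ) (o : Pt) (t : ℝ) : Prop where
  weight_pos : 0 < o.U + o.G
  slope_nonpos : o.G ≤ 0
  mono : 0 ≤ o.U' + 4 * o.p * o.U
  conv₀ : 0 ≤ k0 o
  conv₁ : 0 ≤ (2 + t) * k0 o + t * k1 o
  down : slope o t ≤ 0
  zero : ∀ c ∈ Icc (0 : ℝ) 1, 0 ≤ symB o c 0
  gain_diag : ∀ c ∈ Icc (0 : ℝ) 1, 0 ≤ diag o c + c ^ 2 * (o.g * (o.U + o.G))
  gain_end : ∀ c ∈ Icc (0 : ℝ) 1, 0 ≤ symB o c 1 + 2 * c * (o.g * (o.U + o.G))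
  mixed : ∀ c ∈ Icc (0 : ℝ) 1, ∀ d ∈ Icc (0 : ℝ) 1, 2 * (c * d) * (o.g * o.U) ≤ symB o c (-d)
  outward : ∀ c ∈ Icc (0 : ℝ) 1, ∀ d ∈ Icc (0 : ℝ) 1, 0 ≤ symB o (-c) (-d)
  contact : ∀ c ∈ Icc (0 : ℝ) t, 0 ≤ plainRow o t t c
  endc : ∀ c ∈ Icc (0 : ℝ) 1, 0 ≤ endRow q o t c
  mid₀ : ∀ c ∈ Icc (0 : ℝ) (2 * t - 1),
    0 ≤ (1 - t) * row0 q o t c + (2 * t - 1 - c) * row1 q o t c
  mid₁ : ∀ c ∈ Icc (0 : ℝ) (2 * t - 1),
    0 ≤ (2 * t - 1 - c) * (endRow q o t c * ((1 - c) / 2) ^ 2) + (1 - t) * row1 q o t c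

end Vale.Agent.P219.CH.Relax.Six
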