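import Mathlib

/-!
# P219, dimension six: the numerators beyond the diameter

With `a = p + g` and `b = (p - g) / (p + g)` everything is polynomial on the unit square of `(a, b)`.
-/

noncomputable section

namespace Vale.Agent.P219.CH.Relax.Six.OutP

/-- The square of the tanh of the radius. -/
def eP (a b : ℝ) : ℝ := a ^ 2 * b

/-- Its complement. -/
def dP (a b : ℝ) : ℝ := 1 - eP a b

/-- The mean curvature. -/
def pP (a b : ℝ) : ℝ := a * (1 + b) / 2

/-- The inverse radius. -/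
def gP (a b : ℝ) : ℝ := a * (1 - b) / 2

/-- The complement of the mean curvature. -/
def qP (a b : ℝ) : ℝ := 1 - pP a b

/-- The ratio of the sines times `dP`. -/
def sP (a b : ℝ) : ℝ := a * (1 - b)

/-- The common denominator. -/
def mN (a b : ℝ) : ℝ := 10 * qP a b ^ 2 * dP a b ^ 5 * (1 + eP a b)

/-- The fifth power of `dP`. -/
def dN5 (a b : ℝ) : ℝ := dP a b ^ 5

/-- The continuation of the diagonal, scaled. -/
def xN (a b x k : ℝ) : ℝ := x * sP a b ^ 5 + k * (sP a b ^ 3 * dP a b ^ 2 - sP a b ^ 5)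

/-- Its derivative, scaled. -/
def yN (a b x k : ℝ) : ℝ := 5 * x * sP a b ^ 5 + k * (3 * sP a b ^ 3 * dP a b ^ 2 - 5 * sP a b ^ 5)

/-- The weight at cosine one. -/
def uN (a b x k : ℝ) : ℝ := 2 * (1 + eP a b) * qP a b * (dN5 a b - xN a b x k)

/-- Its derivative. -/
def wN (a b x k : ℝ) : ℝ :=
  2 * (1 + eP a b) * qP a b * pP a b * yN a b x k -
    2 * (1 + eP a b) * gP a b ^ 2 * (dN5 a b - xN a b x k)

/-- The slope in the cosine, reversed. -/
def hN (a b : ℝ) : ℝ :=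
  eP a b * sP a b * (((25 + 65 * eP a b) * dP a b ^ 2 + (1 - 39 * eP a b) * sP a b ^ 2) / 20) * qP a b ^ 2

/-- Its derivative. -/
def vN (a b : ℝ) : ℝ :=
  pP a b * eP a b * sP a b * (((25 + 65 * eP a b) * dP a b ^ 2 + 3 * (1 - 39 * eP a b) * sP a b ^ 2) / 20) *
    qP a b ^ 2

/-- The slope domination at the worst corner of the box. -/
def domN (a b : ℝ) : ℝ :=
  (10 * dP a b * (2 * qP a b) ^ 2 + 6 * (2 * qP a b) * dP a b - 8 * dP a b * (2 * qP a b) ^ 2 -
      2 * dP a b * sP a b ^ 2) * (2 * (1 + eP a b)) * dP a b ^ 5 -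
    5 * eP a b * (sP a b * (((25 + 65 * eP a b) * dP a b ^ 2 + (1 - 39 * eP a b) * sP a b ^ 2) / 20)) *
      (2 * qP a b) ^ 2 * (qP a b + sP a b / 5) * dP a b -
    sP a b ^ 5 * 5 * (2 * qP a b) ^ 2 * (6 / 5 - 91 / 200 * eP a b) * (2 * (1 + eP a b)) +
    8 / 25 * (2 * (1 + eP a b)) * sP a b ^ 5 * (-6 * (2 * qP a b) * dP a b +
      8 * dP a b * (2 * qP a b) ^ 2 + 2 * dP a b * sP a b ^ 2 +
      20 * pP a b * (2 * qP a b) * dP a b - 14 * (2 * qP a b) ^ 2)

/-- A fact, scaled. -/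
def posN (a b x k : ℝ) : ℝ :=
  dN5 a b - xN a b x k

/-- A fact, scaled. -/
def monoN (a b x k : ℝ) : ℝ :=
  wN a b x k + 4 * pP a b * uN a b x k

/-- A fact, scaled. -/
def zeroN (a b x k : ℝ) : ℝ :=
  2 * wN a b x k + (5 - 2 * pP a b) * uN a b x k

/-- A fact, scaled. -/
def midN (a b x k : ℝ) : ℝ :=
  2 * mN a b + wN a b x k + (9 * pP a b - 5) * uN a b x k - (5 - 5 * pP a b + gP a b) * hN a b

/-- A fact, scaled. -/
def crossN (a b x k : ℝ) : ℝ :=
  (5 - 2 * gP a b) * uN a b x k - (5 * (1 - pP a b) + 3 * gP a b) * hN a b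

/-- A fact, scaled. -/
def crosswN (a b x k : ℝ) : ℝ :=
  (5 + pP a b - 2 * gP a b) * uN a b x k - wN a b x k - (5 * (1 - pP a b) + 3 * gP a b) * hN a b

/-- A fact, scaled. -/
def topN (a b x k : ℝ) : ℝ :=
  mN a b - 5 * (1 - pP a b) * uN a b x k + gP a b * uN a b x k

/-- A fact, scaled. -/
def convN (a b x k : ℝ) : ℝ :=
  3 * mN a b + 3 * wN a b x k - 2 * vN a b + (12 * pP a b - 5) * uN a b x k + (8 * pP a b - 5 -
    gP a b) * hN a b

end Vale.Agent.P219.CH.Relax.Six.OutP
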