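import Vale.Agent.P219.Relax.Poly.Scaled
import Vale.Agent.P219.Relax.Six.OutCoef

/-!
# P219, dimension six: the shared expressions beyond the diameter

The numerators as expressions in `(a, b)`, for the kernel check.
-/

noncomputable section

open Set

namespace Vale.Agent.P219.CH.Relax.Six.OutP

open Vale.Agent.P219.Poly (E)

variable {a b : ℝ}

/-- A multiple of `eP`, as an expression. -/
def ePT : E :=
  (.mul (.pow (.x 0) 2) (.x 1))

lemma sem_ePT : E.sem ![a, b, 0] ePT = eP a b := by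
  simp only [ePT, eP, E.sem, Matrix.cons_val_zero, Matrix.cons_val_one]

/-- A multiple of `dP`, as an expression. -/
def dPT : E :=
  (.add (.k 1) (.neg ePT))

lemma sem_dPT : E.sem ![a, b, 0] dPT = dP a b := by
  simp only [dPT, dP, E.sem, sem_ePT]
  push_cast
  ring

/-- A multiple of `pP`, as an expression. -/
def pPT : E :=
  (.mul (.mul (.x 0) (.add (.k 1) (.x 1))) (.k 1))

lemma sem_pPT : E.sem ![a, b, 0] pPT = 2 * pP a b := by
  simp only [pPT, pP, E.sem, Matrix.cons_val_zero, Matrix.cons_val_one]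
  push_cast
  ring

/-- A multiple of `gP`, as an expression. -/
def gPT : E :=
  (.mul (.mul (.x 0) (.add (.k 1) (.neg (.x 1)))) (.k 1))

lemma sem_gPT : E.sem ![a, b, 0] gPT = 2 * gP a b := by
  simp only [gPT, gP, E.sem, Matrix.cons_val_zero, Matrix.cons_val_one]
  push_cast
  ring

/-- A multiple of `qP`, as an expression. -/
def qPT : E :=
  (.add (.mul (.k 2) (.k 1)) (.neg pPT))

lemma sem_qPT : E.sem ![a, b, 0] qPT = 2 * qP a b := by
  simp only [qPT, qP, E.sem, sem_pPT]
  push_cast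
  ring

/-- A multiple of `sP`, as an expression. -/
def sPT : E :=
  (.mul (.x 0) (.add (.k 1) (.neg (.x 1))))

lemma sem_sPT : E.sem ![a, b, 0] sPT = sP a b := by
  simp only [sPT, sP, E.sem, Matrix.cons_val_zero, Matrix.cons_val_one]
  push_cast
  ring

/-- A multiple of `mN`, as an expression. -/
def mNT : E :=
  (.mul (.mul (.mul (.k 10) (.pow qPT 2)) (.pow dPT 5)) (.add (.k 1) ePT))

lemma sem_mNT : E.sem ![a, b, 0] mNT = 4 * mN a b := by
  simp only [mNT, mN, E.sem, sem_ePT, sem_dPT, sem_qPT]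
  push_cast
  ring

/-- A multiple of `dN5`, as an expression. -/
def dN5T : E :=
  (.pow dPT 5)

lemma sem_dN5T : E.sem ![a, b, 0] dN5T = dN5 a b := by
  simp only [dN5T, dN5, E.sem, sem_dPT]

/-- A multiple of `hN`, as an expression. -/
def hNT : E :=
  (.mul (.mul (.mul ePT sPT) (.mul (.add (.mul (.add (.k 25) (.mul (.k 65) ePT)) (.pow dPT 2)) (.mul (.add (.k 1) (.neg (.mul (.k 39) ePT))) (.pow sPT 2))) (.k 1))) (.pow qPT 2))

lemma sem_hNT : E.sem ![a, b, 0] hNT = 80 * hN a b := by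
  simp only [hNT, hN, E.sem, sem_ePT, sem_dPT, sem_qPT, sem_sPT]
  push_cast
  ring

/-- A multiple of `vN`, as an expression. -/
def vNT : E :=
  (.mul (.mul (.mul (.mul pPT ePT) sPT) (.mul (.add (.mul (.add (.k 25) (.mul (.k 65) ePT)) (.pow dPT 2)) (.mul (.mul (.k 3) (.add (.k 1) (.neg (.mul (.k 39) ePT)))) (.pow sPT 2))) (.k 1))) (.pow qPT 2))

lemma sem_vNT : E.sem ![a, b, 0] vNT = 160 * vN a b := by
  simp only [vNT, vN, E.sem, sem_ePT, sem_dPT, sem_pPT, sem_qPT, sem_sPT]
  push_cast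
  ring

end Vale.Agent.P219.CH.Relax.Six.OutP
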