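import Vale.Agent.P219.Relax.Five.Defs

/-!
# P219, dimension six, every curvature bound: the algebra at one distance

As in dimension five the weight over `tanh R` is `U + c * G`, affine in the cosine, with
`p = tanh R * coth r` and `g = tanh R / sinh r`. Beyond the diameter it is rational in `(e, p, s)`,
`s = sinh (2 R) / sinh r`, and affine in two constants read off at the diameter.
-/

noncomputable section

open Set

namespace Vale.Agent.P219.CH.Relax.Six

open Five (Pt)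

/-- The kernel without the term of the slope in the cosine. -/
def ker (o : Pt) (c d : ℝ) : ℝ :=
  (1 - d ^ 2) * (o.U' + c * o.G') + (o.U + c * o.G) * (o.p * (4 + d ^ 2) - 5 * d)

/-- A lower bound of the symmetrised kernel, for a nonpositive slope. -/
def symB (o : Pt) (c d : ℝ) : ℝ :=
  2 + ker o c d + ker o d c + o.g * o.G * (|c| + |d|) * (1 - (c ^ 2 + d ^ 2) / 2)

/-- A lower bound at `(c, 1)`. -/
def symE (o : Pt) (c : ℝ) : ℝ :=
  2 + ker o c 1 + ker o 1 c + o.g * o.G * (1 + c) * ((1 - c ^ 2) / (3 + c))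

/-- The constant coefficient of the diagonal. -/
def k0 (o : Pt) : ℝ := 1 + o.U' + 4 * o.p * o.U

/-- The linear coefficient. -/
def k1 (o : Pt) : ℝ := o.G' + 4 * o.p * o.G - 5 * o.U + o.g * o.G

/-- The quadratic coefficient. -/
def k2 (o : Pt) : ℝ := -o.U' + o.p * o.U - 5 * o.G

/-- The cubic coefficient. -/
def k3 (o : Pt) : ℝ := -o.G' + o.p * o.G - o.g * o.G

/-- Half the symmetrised kernel at equal nonnegative cosines. -/
def diag (o : Pt) (c : ℝ) : ℝ := k0 o + k1 o * c + k2 o * c ^ 2 + k3 o * c ^ 3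

/-- The derivative in `c` of `diag o c / c ^ 2`. -/
def slope (o : Pt) (c : ℝ) : ℝ := -2 * k0 o / c ^ 3 - k1 o / c ^ 2 + k3 o

/-! ## Beyond the diameter -/

/-- The ratio `sinh (2 R) / sinh r`, from `g = tanh R / sinh r`. -/
def ratF (e g : ℝ) : ℝ := 2 * g / (1 - e)

/-- The continuation of the diagonal at cosine one. -/
def XF (XL K s : ℝ) : ℝ := XL * s ^ 5 + K * (s ^ 3 - s ^ 5)

/-- Its derivative in `s`, times `s`. -/
def XF' (XL K s : ℝ) : ℝ := 5 * XL * s ^ 5 + K * (3 * s ^ 3 - 5 * s ^ 5)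

/-- The slope in the cosine beyond the diameter, with the value and derivative of the one inside. -/
def HF (e s : ℝ) : ℝ :=
  e / (5 * (1 - e) ^ 2) * s * (((25 + 65 * e) + (1 - 39 * e) * s ^ 2) / (40 * (1 + e)))

/-- Its derivative in `s`, times `s`. -/
def HF' (e s : ℝ) : ℝ :=
  e / (5 * (1 - e) ^ 2) * s * (((25 + 65 * e) + 3 * (1 - 39 * e) * s ^ 2) / (40 * (1 + e)))

/-- The point beyond the diameter; `XL` is the diagonal at the join and `K` the tangency constant
scaled by the power of `1 - e` that keeps it bounded. -/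
def ptOut (e XL K p g : ℝ) : Pt where
  U := (1 - XF XL K (ratF e g)) / (5 * (1 - p)) + HF e (ratF e g)
  U' := p * XF' XL K (ratF e g) / (5 * (1 - p)) -
    (1 - XF XL K (ratF e g)) * g ^ 2 / (5 * (1 - p) ^ 2) - p * HF' e (ratF e g)
  G := -HF e (ratF e g)
  G' := p * HF' e (ratF e g)
  p := p
  g := g

/-- The two constants lie in a fixed box; this is all that the part beyond needs from inside. -/
def OutHyp (e XL K : ℝ) : Prop :=
  XL ∈ Icc (-(3 / 25) : ℝ) (8 / 25) ∧ K ∈ Icc (0 : ℝ) ((1 - e) ^ 2)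

/-- The pair bound when one cosine is one, against the tangent at the contact `t`. -/
def EndCond (o : Pt) (t : ℝ) : Prop :=
  ∀ c ∈ Icc (0 : ℝ) 1,
    c * (2 * diag o t / t ^ 2 + slope o t * (c + 1 - 2 * t)) ≤ symE o c

/-- The facts at one distance that the certificate needs. -/
structure GoodPt (o : Pt) : Prop where
  weight_pos : 0 < o.U + o.G
  slope_nonpos : o.G ≤ 0
  mono : 0 ≤ o.U' + 4 * o.p * o.U
  conv₀ : 0 ≤ k0 o
  conv₁ : 0 ≤ 3 * k0 o + k1 o
  zero : ∀ c ∈ Icc (0 : ℝ) 1, 0 ≤ symB o c 0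
  gain_diag : ∀ c ∈ Icc (0 : ℝ) 1, 0 ≤ diag o c + c ^ 2 * (o.g * (o.U + o.G))
  gain_end : ∀ c ∈ Icc (0 : ℝ) 1, 0 ≤ symE o c + 2 * c * (o.g * (o.U + o.G))
  mixed : ∀ c ∈ Icc (0 : ℝ) 1, ∀ d ∈ Icc (0 : ℝ) 1, 2 * (c * d) * (o.g * o.U) ≤ symB o c (-d)
  outward : ∀ c ∈ Icc (0 : ℝ) 1, ∀ d ∈ Icc (0 : ℝ) 1, 0 ≤ symB o (-c) (-d)

/-- The facts beyond the diameter. -/
structure OutFacts (e XL K : ℝ) : Prop where
  good : ∀ p g, Five.OutRange e p g → GoodPt (ptOut e XL K p g)
  endc : ∀ p g, Five.OutRange e p g → EndCond (ptOut e XL K p g) 1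
  slope_le : ∀ p g, Five.OutRange e p g →
    slope (ptOut e XL K p g) 1 ≤
      ratF e g ^ 5 * slope (ptOut e XL K ((1 + e) / 2) ((1 - e) / 2)) 1
  slope_join : slope (ptOut e XL K ((1 + e) / 2) ((1 - e) / 2)) 1 ≤ 0

/-- The facts beyond the diameter follow from the box. -/
def OutPin : Prop := ∀ e XL K, e ∈ Ioo (0 : ℝ) 1 → OutHyp e XL K → OutFacts e XL K

end Vale.Agent.P219.CH.Relax.Six
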