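import Vale.Agent.P219.Relax.Six.Pt
import Vale.Agent.P219.Relax.Six.InPt

/-!
# P219, dimension six: the weight inside the diameter from a solution

The weight at the contact, the slope in the cosine and their derivatives are any functions with
the facts below; only the slope and its derivative at the diameter are fixed, for the continuation.
-/

noncomputable section

open Set

namespace Vale.Agent.P219.CH.Relax.Six

open Five (Pt yf)

/-- A weight inside the diameter as functions of the contact: at `t` the weight over `tanh R` is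
`V t + P t * (c - t)`. -/
structure Wt where
  /-- The weight at the contact cosine. -/
  V : ℝ → ℝ
  /-- Its derivative. -/
  V1 : ℝ → ℝ
  /-- The slope in the cosine. -/
  P : ℝ → ℝ
  /-- Its derivative. -/
  P1 : ℝ → ℝ

/-- The point at the contact `t`. -/
def ptIn (e : ℝ) (W : Wt) (t : ℝ) : Pt where
  U := W.V t - t * W.P t
  U' := yf e t / 2 * (W.V1 t - W.P t - t * W.P1 t)
  G := W.P t
  G' := yf e t / 2 * W.P1 t
  p := (1 + e * t ^ 2) / (2 * t)
  g := yf e t / (2 * t)

/-- The marginal coefficient over the cosine, up to `32 tanh R ^ 5`, before the logarithm. -/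
def margRat (e : ℝ) (W : Wt) (t : ℝ) : ℝ :=
  t ^ 3 * diag (ptIn e W t) t / yf e t ^ 5

/-- The slope of the marginal coefficient over the cosine, up to `32 tanh R ^ 5`. -/
def aSlope (e : ℝ) (W : Wt) (t : ℝ) : ℝ :=
  t ^ 5 / yf e t ^ 5 * slope (ptIn e W t) t

/-- The diagonal at cosine one at the diameter. -/
def xlOf (e : ℝ) (V : ℝ → ℝ) : ℝ := 1 - 5 * (1 - e) / 2 * V 1

/-- The constant of the continuation. -/
def kOf (e B : ℝ) : ℝ := B * (1 - e) ^ 5 / (1 + e)

/-- The volume coefficient. -/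
def betaSix (R B : ℝ) : ℝ := 32 * Real.tanh R ^ 4 * B

/-- The marginal coefficient over the cosine. -/
def margSix (R B : ℝ) (W : Wt) (c : ℝ) : ℝ :=
  32 * Real.tanh R ^ 5 * margRat (Real.tanh R ^ 2) W c -
    betaSix R B * Real.log ((1 + Real.tanh R * c) / (1 - Real.tanh R * c))

/-- The marginal coefficient, zero outside the unit interval. -/
def aSix (R B : ℝ) (W : Wt) : ℝ → ℝ :=
  (Ioc (0 : ℝ) 1).indicator fun c => c * margSix R B W c

/-- What the certificate needs from a solution: the tangency equation, a bound at the centre, the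
join at the diameter, the facts at each contact and the box of the continuation. -/
structure SolFacts (e B : ℝ) (W : Wt) : Prop where
  deriv : ∀ t ∈ Ioc (0 : ℝ) 1, HasDerivAt W.V (W.V1 t) t
  deriv_slope : ∀ t ∈ Ioc (0 : ℝ) 1, HasDerivAt W.P (W.P1 t) t
  cont : ContinuousOn W.V1 (Ioc 0 1)
  cont_slope : ContinuousOn W.P1 (Ioc 0 1)
  centre : ∃ C, ∀ t ∈ Ioc (0 : ℝ) 1, |t * W.V t| ≤ C ∧ |t ^ 2 * W.V1 t| ≤ C
  centre_slope : ∃ C, ∀ t ∈ Ioc (0 : ℝ) 1, |t ^ 2 * W.P t| ≤ C ∧ |t ^ 3 * W.P1 t| ≤ C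
  tangency : ∀ t ∈ Ioc (0 : ℝ) 1,
    HasDerivAt (margRat e W) (aSlope e W t + 2 * B / yf e t) t
  rate_nonneg : 0 ≤ B
  slope_end : W.P 1 = -(13 * e) / (100 * (1 - e) ^ 2)
  slope_end' : W.P1 1 = e * (14 - 26 * e) / (100 * (1 - e) ^ 3)
  slope_neg : ∀ t ∈ Ioc (0 : ℝ) 1, W.P t < 0
  join : (1 - e) / 2 * (W.V1 1 - W.P 1) =
    (1 + e) / (1 - e) - (5 * (1 + e) / 2 + (1 - e) / 2) * W.V 1 - 2 * B * (1 - e) ^ 4 / 5
  inside : ∀ t ∈ Ioc (0 : ℝ) 1, InPt (concQ e) (ptIn e W t) t
  conc : MonotoneOn (fun t => -aSlope e W t * zc (concQ e) t) (Ioc 0 1)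
  out : OutHyp e (xlOf e W.V) (kOf e B)

end Vale.Agent.P219.CH.Relax.Six
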