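import Vale.Agent.P219.Relax.Six.ValueSol

/-!
# P219, dimension six: every solution of the tangency equation

For a free function `Q` of `x = t ^ 2` the weight at the contact is algebraic in `Q` and its first
derivative, and the slope in the cosine in its first two. The tangency equation and the join at the
diameter then hold identically.
-/

noncomputable section

open Set Filter Topology

namespace Vale.Agent.P219.CH.Relax.Six

open Five (yf yf_pos)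

/-- A free function of `x = t ^ 2` and its first three derivatives. -/
structure Gen3 where
  /-- The function. -/
  Q : ℝ → ℝ
  /-- Its derivative. -/
  Q1 : ℝ → ℝ
  /-- Its second derivative. -/
  Q2 : ℝ → ℝ
  /-- Its third derivative. -/
  Q3 : ℝ → ℝ

/-- The derivatives are the derivatives, on the closed unit interval. -/
structure Gen3.IsDeriv (q : Gen3) : Prop where
  d1 : ∀ x ∈ Icc (0 : ℝ) 1, HasDerivAt q.Q (q.Q1 x) x
  d2 : ∀ x ∈ Icc (0 : ℝ) 1, HasDerivAt q.Q1 (q.Q2 x) x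
  d3 : ∀ x ∈ Icc (0 : ℝ) 1, HasDerivAt q.Q2 (q.Q3 x) x
  cont : ContinuousOn q.Q3 (Icc 0 1)

namespace Tan

/-- The common factor in `x`. -/
def yl (e x : ℝ) : ℝ := 1 - e * x

/-- The volume constant. -/
def rate (q : Gen3) : ℝ := -(3 * q.Q 0) / 4

/-- The quadratic factor of `Q`. -/
def nq (e x : ℝ) : ℝ := 5 - (10 - 3 * e) * x + 2 * e * x ^ 2

/-- The numerator of the weight at the contact; it vanishes at zero. -/
def n0 (e : ℝ) (q : Gen3) (x : ℝ) : ℝ :=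
  2 * rate q * yl e x ^ 4 + (1 - x) * yl e x * (x * q.Q1 x - q.Q x) + nq e x * q.Q x / 2

/-- Its derivative. -/
def n1 (e : ℝ) (q : Gen3) (x : ℝ) : ℝ :=
  -8 * e * rate q * yl e x ^ 3 + (-(1 + e) + 2 * e * x) * (x * q.Q1 x - q.Q x) +
    (1 - x) * yl e x * (x * q.Q2 x) + (-(10 - 3 * e) + 4 * e * x) * q.Q x / 2 +
    nq e x * q.Q1 x / 2

/-- Its second derivative. -/
def n2 (e : ℝ) (q : Gen3) (x : ℝ) : ℝ :=
  24 * e ^ 2 * rate q * yl e x ^ 2 + 2 * e * (x * q.Q1 x - q.Q x) +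
    2 * (-(1 + e) + 2 * e * x) * (x * q.Q2 x) +
    (1 - x) * yl e x * (q.Q2 x + x * q.Q3 x) + 2 * e * q.Q x +
    (-(10 - 3 * e) + 4 * e * x) * q.Q1 x + nq e x * q.Q2 x / 2

/-- The weight at the contact times the contact. -/
def wx (e : ℝ) (q : Gen3) (x : ℝ) : ℝ := (1 + e * x) / yl e x - n0 e q x / (5 * x)

/-- Its derivative. -/
def wx1 (e : ℝ) (q : Gen3) (x : ℝ) : ℝ :=
  2 * e / yl e x ^ 2 - n1 e q x / (5 * x) + n0 e q x / (5 * x ^ 2)

/-- Its second derivative. -/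
def wx2 (e : ℝ) (q : Gen3) (x : ℝ) : ℝ :=
  4 * e ^ 2 / yl e x ^ 3 - n2 e q x / (5 * x) + 2 * n1 e q x / (5 * x ^ 2) -
    2 * n0 e q x / (5 * x ^ 3)

/-- The slope in the cosine. -/
def px (e : ℝ) (q : Gen3) (x : ℝ) : ℝ :=
  q.Q x / x + 2 * wx1 e q x + (3 + 5 * e * x) * wx e q x / (x * yl e x)

/-- Its derivative. -/
def px1 (e : ℝ) (q : Gen3) (x : ℝ) : ℝ :=
  q.Q1 x / x - q.Q x / x ^ 2 + 2 * wx2 e q x + (3 + 5 * e * x) * wx1 e q x / (x * yl e x) +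
    (5 * e * (x * yl e x) - (3 + 5 * e * x) * (1 - 2 * e * x)) * wx e q x / (x * yl e x) ^ 2

/-- The weight of a free function. -/
def wtOf (e : ℝ) (q : Gen3) : Wt where
  V t := wx e q (t ^ 2) / t
  V1 t := 2 * wx1 e q (t ^ 2) - wx e q (t ^ 2) / t ^ 2
  P t := px e q (t ^ 2)
  P1 t := 2 * t * px1 e q (t ^ 2)

variable {e : ℝ} {q : Gen3}

lemma yl_pos (he : e ∈ Ioo (0 : ℝ) 1) {x : ℝ} (hx : x ∈ Icc (0 : ℝ) 1) : 0 < yl e x := by
  have := mul_le_mul_of_nonneg_left hx.2 he.1.le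
  rw [yl]
  linarith [he.2]

lemma n0_zero (e : ℝ) (q : Gen3) : n0 e q 0 = 0 := by
  simp only [n0, rate, yl, nq]
  ring

lemma hasDerivAt_yl (e x : ℝ) : HasDerivAt (yl e) (-e) x := by
  unfold yl
  exact (((hasDerivAt_id x).const_mul e).const_sub 1).congr_deriv (by ring)

lemma hasDerivAt_nq (e x : ℝ) : HasDerivAt (nq e) (-(10 - 3 * e) + 4 * e * x) x := by
  unfold nq
  refine ((((hasDerivAt_id x).const_mul (10 - 3 * e)).const_sub 5).add
    ((hasDerivAt_pow 2 x).const_mul (2 * e))).congr_deriv ?_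
  push_cast
  ring

lemma hasDerivAt_n0 (hq : q.IsDeriv) {x : ℝ} (hx : x ∈ Icc (0 : ℝ) 1) :
    HasDerivAt (n0 e q) (n1 e q x) x := by
  have hy := hasDerivAt_yl e x
  have hw : HasDerivAt (fun z : ℝ => 1 - z) (-1) x := (hasDerivAt_id x).const_sub 1
  refine ((((hy.pow 4).const_mul (2 * rate q)).add ((hw.mul hy).mul
    (((hasDerivAt_id x).mul (hq.d2 x hx)).sub (hq.d1 x hx)))).add
    (((hasDerivAt_nq e x).mul (hq.d1 x hx)).div_const 2) : HasDerivAt (n0 e q) _ x).congr_deriv ?_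
  simp only [n1, Pi.mul_apply, Pi.sub_apply, id_eq, yl]
  push_cast
  ring

lemma hasDerivAt_n1 (hq : q.IsDeriv) {x : ℝ} (hx : x ∈ Icc (0 : ℝ) 1) :
    HasDerivAt (n1 e q) (n2 e q x) x := by
  have hy := hasDerivAt_yl e x
  have hw : HasDerivAt (fun z : ℝ => 1 - z) (-1) x := (hasDerivAt_id x).const_sub 1
  have hl : HasDerivAt (fun z : ℝ => -(1 + e) + 2 * e * z) (2 * e) x :=
    (((hasDerivAt_id x).const_mul (2 * e)).const_add _).congr_deriv (by ring)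
  have hn : HasDerivAt (fun z : ℝ => -(10 - 3 * e) + 4 * e * z) (4 * e) x :=
    (((hasDerivAt_id x).const_mul (4 * e)).const_add _).congr_deriv (by ring)
  have hid := hasDerivAt_id x
  refine ((((((hy.pow 3).const_mul (-8 * e * rate q)).add
    (hl.mul ((hid.mul (hq.d2 x hx)).sub (hq.d1 x hx)))).add
    ((hw.mul hy).mul (hid.mul (hq.d3 x hx)))).add ((hn.mul (hq.d1 x hx)).div_const 2)).add
    (((hasDerivAt_nq e x).mul (hq.d2 x hx)).div_const 2) :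
      HasDerivAt (n1 e q) _ x).congr_deriv ?_
  simp only [n2, Pi.mul_apply, Pi.sub_apply, id_eq, yl]
  push_cast
  ring

lemma hasDerivAt_wx (he : e ∈ Ioo (0 : ℝ) 1) (hq : q.IsDeriv) {x : ℝ} (hx : x ∈ Ioc (0 : ℝ) 1) :
    HasDerivAt (wx e q) (wx1 e q x) x := by
  have hy := (yl_pos he (Ioc_subset_Icc_self hx)).ne'
  have hx0 := hx.1.ne'
  refine (((((hasDerivAt_id x).const_mul e).const_add 1).div (hasDerivAt_yl e x) hy).sub
    ((hasDerivAt_n0 hq (Ioc_subset_Icc_self hx)).div ((hasDerivAt_id x).const_mul 5)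
      (mul_ne_zero (by norm_num) hx0)) : HasDerivAt (wx e q) _ x).congr_deriv ?_
  simp only [wx1, id_eq]
  field_simp
  simp only [yl]
  ring

lemma hasDerivAt_wx1 (he : e ∈ Ioo (0 : ℝ) 1) (hq : q.IsDeriv) {x : ℝ} (hx : x ∈ Ioc (0 : ℝ) 1) :
    HasDerivAt (wx1 e q) (wx2 e q x) x := by
  have hy := (yl_pos he (Ioc_subset_Icc_self hx)).ne'
  have hx0 := hx.1.ne'
  have h0 := hasDerivAt_n0 (e := e) hq (Ioc_subset_Icc_self hx)
  have h1 := hasDerivAt_n1 (e := e) hq (Ioc_subset_Icc_self hx)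
  refine ((((hasDerivAt_const x (2 * e)).div ((hasDerivAt_yl e x).pow 2) (pow_ne_zero 2 hy)).sub
    (h1.div ((hasDerivAt_id x).const_mul 5) (mul_ne_zero (by norm_num) hx0))).add
    (h0.div ((hasDerivAt_pow 2 x).const_mul 5) (mul_ne_zero (by norm_num) (pow_ne_zero 2 hx0))) :
      HasDerivAt (wx1 e q) _ x).congr_deriv ?_
  simp only [wx2, id_eq, Pi.pow_apply]
  push_cast
  field_simp
  ring

lemma hasDerivAt_px (he : e ∈ Ioo (0 : ℝ) 1) (hq : q.IsDeriv) {x : ℝ} (hx : x ∈ Ioc (0 : ℝ) 1) :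
    HasDerivAt (px e q) (px1 e q x) x := by
  have hy := (yl_pos he (Ioc_subset_Icc_self hx)).ne'
  have hx0 := hx.1.ne'
  have hd : HasDerivAt (fun z => z * yl e z) (1 - 2 * e * x) x :=
    ((hasDerivAt_id x).mul (hasDerivAt_yl e x)).congr_deriv (by simp only [id_eq, yl]; ring)
  have hn : HasDerivAt (fun z : ℝ => 3 + 5 * e * z) (5 * e) x :=
    (((hasDerivAt_id x).const_mul (5 * e)).const_add _).congr_deriv (by ring)
  refine ((((hq.d1 x (Ioc_subset_Icc_self hx)).div (hasDerivAt_id x) hx0).add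
    ((hasDerivAt_wx1 he hq hx).const_mul 2)).add
    ((hn.mul (hasDerivAt_wx he hq hx)).div hd (mul_ne_zero hx0 hy)) :
      HasDerivAt (px e q) _ x).congr_deriv ?_
  simp only [px1, id_eq, Pi.mul_apply]
  field_simp
  ring

lemma comp_sq {f : ℝ → ℝ} {f' t : ℝ} (h : HasDerivAt f f' (t ^ 2)) :
    HasDerivAt (fun s => f (s ^ 2)) (f' * (2 * t)) t := by
  have := HasDerivAt.comp (h := fun s : ℝ => s ^ 2) t h (hasDerivAt_pow 2 t)
  exact this.congr_deriv (by push_cast; ring)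

lemma sq_mem {t : ℝ} (ht : t ∈ Ioc (0 : ℝ) 1) : t ^ 2 ∈ Ioc (0 : ℝ) 1 :=
  ⟨pow_pos ht.1 2, pow_le_one₀ ht.1.le ht.2⟩

theorem deriv_V (he : e ∈ Ioo (0 : ℝ) 1) (hq : q.IsDeriv) {t : ℝ} (ht : t ∈ Ioc (0 : ℝ) 1) :
    HasDerivAt (wtOf e q).V ((wtOf e q).V1 t) t := by
  have ht0 := ht.1.ne'
  refine ((comp_sq (hasDerivAt_wx he hq (sq_mem ht))).div (hasDerivAt_id t) ht0 :
    HasDerivAt (wtOf e q).V _ t).congr_deriv ?_
  simp only [wtOf]
  field_simp

theorem deriv_P (he : e ∈ Ioo (0 : ℝ) 1) (hq : q.IsDeriv) {t : ℝ} (ht : t ∈ Ioc (0 : ℝ) 1) :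
    HasDerivAt (wtOf e q).P ((wtOf e q).P1 t) t := by
  refine (comp_sq (hasDerivAt_px he hq (sq_mem ht)) :
    HasDerivAt (wtOf e q).P _ t).congr_deriv ?_
  simp only [wtOf]
  ring

/-- The reduced marginal coefficient as a function of `x`. -/
def mx (e : ℝ) (q : Gen3) (x : ℝ) : ℝ :=
  x + (1 - x) * yl e x * (x * wx1 e q x) + wx e q x * (3 + (5 * e - 8) * x) / 2

lemma margRat_eq (he : e ∈ Ioo (0 : ℝ) 1) {t : ℝ} (ht : t ∈ Icc (0 : ℝ) 1) :
    margRat e (wtOf e q) t = t * mx e q (t ^ 2) / yl e (t ^ 2) ^ 5 := by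
  have hy : yf e t = yl e (t ^ 2) := rfl
  rcases ht.1.eq_or_lt with h | h
  · subst h
    simp [margRat]
  rw [margRat, diag_ptIn h.ne', Val.contactDiag, hy]
  have := (yl_pos he (Icc_subset_Icc le_rfl le_rfl
    (show t ^ 2 ∈ Icc (0 : ℝ) 1 from ⟨sq_nonneg t, pow_le_one₀ ht.1 ht.2⟩))).ne'
  simp only [wtOf, mx, yl, yf] at *
  field_simp
  ring

/-- The tangency equation holds identically. -/
theorem tangency (he : e ∈ Ioo (0 : ℝ) 1) (hq : q.IsDeriv) {t : ℝ} (ht : t ∈ Ioc (0 : ℝ) 1) :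
    HasDerivAt (margRat e (wtOf e q)) (aSlope e (wtOf e q) t + 2 * rate q / yf e t) t := by
  have hx := sq_mem ht
  have hy := (yl_pos he (Ioc_subset_Icc_self hx)).ne'
  have ht0 := ht.1.ne'
  have hid := hasDerivAt_id (t ^ 2)
  have hw : HasDerivAt (fun z : ℝ => 1 - z) (-1) (t ^ 2) := hid.const_sub 1
  have hl : HasDerivAt (fun z : ℝ => 3 + (5 * e - 8) * z) (5 * e - 8) (t ^ 2) :=
    ((hid.const_mul (5 * e - 8)).const_add _).congr_deriv (by ring)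
  have hm : HasDerivAt (mx e q) _ (t ^ 2) :=
    (hid.add ((hw.mul (hasDerivAt_yl e _)).mul (hid.mul (hasDerivAt_wx1 he hq hx)))).add
      (((hasDerivAt_wx he hq hx).mul hl).div_const 2)
  have hd := ((hasDerivAt_id t).mul (comp_sq hm)).div
    ((comp_sq (hasDerivAt_yl e (t ^ 2))).pow 5) (pow_ne_zero 5 hy)
  have hev : margRat e (wtOf e q) =ᶠ[𝓝 t]
      fun s => s * mx e q (s ^ 2) / yl e (s ^ 2) ^ 5 := by
    obtain ⟨δ, hδ, hδy⟩ : ∃ δ, 0 < δ ∧ ∀ s, |s - t| < δ → yl e (s ^ 2) ≠ 0 := by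
      have hc : ContinuousAt (fun s => yl e (s ^ 2)) t := by unfold yl; fun_prop
      obtain ⟨δ, hδ, h⟩ := Metric.eventually_nhds_iff.1 (hc.eventually_ne hy)
      exact ⟨δ, hδ, fun s hs => h (by rwa [Real.dist_eq])⟩
    filter_upwards [Metric.ball_mem_nhds t hδ, Ioi_mem_nhds ht.1] with s hs hs0
    have hys := hδy s (by rwa [← Real.dist_eq])
    have hs0' : s ≠ 0 := (show (0 : ℝ) < s from hs0).ne'
    rw [margRat, diag_ptIn hs0', Val.contactDiag]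
    simp only [wtOf, mx, yl, yf] at *
    field_simp
    ring
  refine ((hd : HasDerivAt (fun s => s * mx e q (s ^ 2) / yl e (s ^ 2) ^ 5) _ t).congr_of_eventuallyEq
    hev).congr_deriv ?_
  have hW : wx e q (t ^ 2) = (1 + e * t ^ 2) / yl e (t ^ 2) - n0 e q (t ^ 2) / (5 * t ^ 2) := rfl
  simp only [aSlope, slope, k0, k1, k3, ptIn, wtOf, mx, px, px1, Pi.mul_apply,
    Pi.pow_apply, id_eq, show yf e t = yl e (t ^ 2) from rfl]
  obtain ⟨W, hWd⟩ : ∃ W, W = wx e q (t ^ 2) := ⟨_, rfl⟩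
  obtain ⟨W1, hW1d⟩ : ∃ W1, W1 = wx1 e q (t ^ 2) := ⟨_, rfl⟩
  obtain ⟨W2, hW2d⟩ : ∃ W2, W2 = wx2 e q (t ^ 2) := ⟨_, rfl⟩
  rw [← hWd] at hW ⊢
  rw [← hW1d, ← hW2d]
  subst hW
  simp only [n0]
  obtain ⟨A, hA⟩ : ∃ A, A = q.Q (t ^ 2) := ⟨_, rfl⟩
  obtain ⟨A1, hA1⟩ : ∃ A1, A1 = q.Q1 (t ^ 2) := ⟨_, rfl⟩
  rw [← hA, ← hA1]
  simp only [nq, yl] at *
  have hy' : (1 : ℝ) - t ^ 2 * e ≠ 0 := by rwa [mul_comm] at hy
  push_cast
  field_simp
  ring

/-- The join at the diameter holds identically. -/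
theorem join (he : e ∈ Ioo (0 : ℝ) 1) :
    (1 - e) / 2 * ((wtOf e q).V1 1 - (wtOf e q).P 1) =
      (1 + e) / (1 - e) - (5 * (1 + e) / 2 + (1 - e) / 2) * (wtOf e q).V 1 -
        2 * rate q * (1 - e) ^ 4 / 5 := by
  have h : (1 : ℝ) - e ≠ 0 := (sub_pos.2 he.2).ne'
  simp only [wtOf, px, one_pow, wx, n0, nq, yl, mul_one]
  field_simp
  ring

/-- The slope at the diameter. -/
theorem slope_end (he : e ∈ Ioo (0 : ℝ) 1) :
    (wtOf e q).P 1 = (20 - 22 * (1 - e) + 5 * (1 - e) ^ 2) / (1 - e) ^ 2 +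
      3 / 10 * (1 - e) ^ 4 * q.Q 0 + (28 / 5 - 5 / 2 * (1 - e)) * q.Q 1 +
      7 / 5 * (1 - e) * q.Q1 1 := by
  have h : (1 : ℝ) - e ≠ 0 := (sub_pos.2 he.2).ne'
  simp only [wtOf, px, wx1, one_pow, wx, n0, n1, nq, yl, rate, mul_one]
  field_simp
  ring

/-- The derivative of the slope at the diameter. -/
theorem slope_end' (he : e ∈ Ioo (0 : ℝ) 1) :
    (wtOf e q).P1 1 = 2 * ((40 - 82 * (1 - e) + 44 * (1 - e) ^ 2 - 5 * (1 - e) ^ 3) / (1 - e) ^ 3 +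
      (-(6 / 5) * (1 - e) ^ 3 + 3 / 5 * (1 - e) ^ 4) * q.Q 0 +
      (32 / 5 - 117 / 10 * (1 - e) + 5 / 2 * (1 - e) ^ 2) / (1 - e) * q.Q 1 +
      (7 - 27 / 10 * (1 - e)) * q.Q1 1 + 9 / 5 * (1 - e) * q.Q2 1) := by
  have h : (1 : ℝ) - e ≠ 0 := (sub_pos.2 he.2).ne'
  simp only [wtOf, px1, wx2, wx1, one_pow, wx, n0, n1, n2, nq, yl, rate, mul_one]
  field_simp
  ring

/-! ## Continuity and the centre -/

lemma continuousOn_parts (hq : q.IsDeriv) :
    ContinuousOn q.Q (Icc 0 1) ∧ ContinuousOn q.Q1 (Icc 0 1) ∧ ContinuousOn q.Q2 (Icc 0 1) ∧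
      ContinuousOn (n0 e q) (Icc 0 1) ∧ ContinuousOn (n1 e q) (Icc 0 1) ∧
      ContinuousOn (n2 e q) (Icc 0 1) := by
  have h0 : ContinuousOn q.Q (Icc 0 1) :=
    fun x hx => (hq.d1 x hx).continuousAt.continuousWithinAt
  have h1 : ContinuousOn q.Q1 (Icc 0 1) :=
    fun x hx => (hq.d2 x hx).continuousAt.continuousWithinAt
  have h2 : ContinuousOn q.Q2 (Icc 0 1) :=
    fun x hx => (hq.d3 x hx).continuousAt.continuousWithinAt
  have h3 := hq.cont
  exact ⟨h0, h1, h2, fun x hx => (hasDerivAt_n0 hq hx).continuousAt.continuousWithinAt,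
    fun x hx => (hasDerivAt_n1 hq hx).continuousAt.continuousWithinAt, by
      unfold n2 yl nq
      fun_prop⟩

theorem cont_V1 (he : e ∈ Ioo (0 : ℝ) 1) (hq : q.IsDeriv) :
    ContinuousOn (wtOf e q).V1 (Ioc 0 1) := by
  intro t ht
  have h1 := (hasDerivAt_wx1 he hq (sq_mem ht)).continuousAt
  have h0 := (hasDerivAt_wx he hq (sq_mem ht)).continuousAt
  have hc : ContinuousAt (fun s : ℝ => s ^ 2) t := by fun_prop
  exact ((continuousAt_const.mul (ContinuousAt.comp (f := fun s : ℝ => s ^ 2) h1 hc)).sub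
    ((ContinuousAt.comp (f := fun s : ℝ => s ^ 2) h0 hc).div hc
      (pow_ne_zero 2 ht.1.ne'))).continuousWithinAt

theorem cont_P1 (he : e ∈ Ioo (0 : ℝ) 1) (hq : q.IsDeriv) :
    ContinuousOn (wtOf e q).P1 (Ioc 0 1) := by
  obtain ⟨h0, h1, -, hn0, hn1, hn2⟩ := continuousOn_parts (e := e) hq
  have hs : Ioc (0 : ℝ) 1 ⊆ Icc 0 1 := Ioc_subset_Icc_self
  replace h0 := h0.mono hs
  replace h1 := h1.mono hs
  replace hn0 := hn0.mono hs
  replace hn1 := hn1.mono hs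
  replace hn2 := hn2.mono hs
  have hx : ∀ x ∈ Ioc (0 : ℝ) 1, x ≠ 0 := fun x hx => hx.1.ne'
  have hy : ∀ x ∈ Ioc (0 : ℝ) 1, yl e x ≠ 0 := fun x hx => (yl_pos he (hs hx)).ne'
  have hxy : ∀ x ∈ Ioc (0 : ℝ) 1, x * yl e x ≠ 0 := fun x hx' => mul_ne_zero (hx x hx') (hy x hx')
  have hylc : ContinuousOn (yl e) (Ioc 0 1) := by unfold yl; fun_prop
  have hw : ContinuousOn (wx e q) (Ioc 0 1) := fun x hx =>
    (hasDerivAt_wx he hq hx).continuousAt.continuousWithinAt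
  have hw1 : ContinuousOn (wx1 e q) (Ioc 0 1) := fun x hx =>
    (hasDerivAt_wx1 he hq hx).continuousAt.continuousWithinAt
  have hw2 : ContinuousOn (wx2 e q) (Ioc 0 1) := by
    have hy3 : ∀ x ∈ Ioc (0 : ℝ) 1, yl e x ^ 3 ≠ 0 := fun x hx => pow_ne_zero 3 (hy x hx)
    have hx1 : ∀ x ∈ Ioc (0 : ℝ) 1, 5 * x ≠ 0 := fun x hx' => mul_ne_zero (by norm_num) (hx x hx')
    have hx2 : ∀ x ∈ Ioc (0 : ℝ) 1, 5 * x ^ 2 ≠ 0 := fun x hx' =>
      mul_ne_zero (by norm_num) (pow_ne_zero 2 (hx x hx'))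
    have hx3 : ∀ x ∈ Ioc (0 : ℝ) 1, 5 * x ^ 3 ≠ 0 := fun x hx' =>
      mul_ne_zero (by norm_num) (pow_ne_zero 3 (hx x hx'))
    unfold wx2
    fun_prop (disch := assumption)
  have hp : ContinuousOn (px1 e q) (Ioc 0 1) := by
    have hx2 : ∀ x ∈ Ioc (0 : ℝ) 1, x ^ 2 ≠ 0 := fun x hx' => pow_ne_zero 2 (hx x hx')
    have hxy2 : ∀ x ∈ Ioc (0 : ℝ) 1, (x * yl e x) ^ 2 ≠ 0 := fun x hx' =>
      pow_ne_zero 2 (hxy x hx')
    unfold px1
    fun_prop (disch := assumption)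
  exact (continuousOn_const.mul continuousOn_id).mul
    (hp.comp (continuous_pow 2).continuousOn fun t ht => sq_mem ht)

/-- The weight times the contact, and its derivatives times powers of `x`, are bounded. -/
lemma wx_bound (he : e ∈ Ioo (0 : ℝ) 1) (hq : q.IsDeriv) :
    ∃ C, ∀ x ∈ Ioc (0 : ℝ) 1,
      |wx e q x| ≤ C ∧ |x * wx1 e q x| ≤ C ∧ |x ^ 2 * wx2 e q x| ≤ C := by
  obtain ⟨-, -, -, hn0, hn1, hn2⟩ := continuousOn_parts (e := e) hq
  obtain ⟨M1, hM1⟩ := isCompact_Icc.exists_bound_of_continuousOn hn1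
  obtain ⟨M2, hM2⟩ := isCompact_Icc.exists_bound_of_continuousOn hn2
  obtain ⟨D, hD⟩ : ∃ D, D = 1 / (1 - e) := ⟨_, rfl⟩
  have hd : 0 < 1 - e := sub_pos.2 he.2
  have hD0 : 0 < D := hD ▸ one_div_pos.2 hd
  obtain ⟨C, hC⟩ : ∃ C, C = 4 * (D + D ^ 2 + D ^ 3) + |M1| + |M2| := ⟨_, rfl⟩
  refine ⟨C, fun x hx => ?_⟩
  have hxI := Ioc_subset_Icc_self hx
  have hx0 := hx.1
  have b0 : |n0 e q x| ≤ |M1| * x := by
    have h := (convex_Icc (0 : ℝ) 1).norm_image_sub_le_of_norm_hasDerivWithin_le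
      (fun z hz => (hasDerivAt_n0 (e := e) hq hz).hasDerivWithinAt)
      (fun z hz => (hM1 z hz).trans (le_abs_self M1)) (left_mem_Icc.2 zero_le_one) hxI
    rwa [n0_zero, sub_zero, sub_zero, Real.norm_eq_abs, Real.norm_eq_abs, abs_of_pos hx0] at h
  have b1 : |n1 e q x| ≤ |M1| := (hM1 x hxI).trans (le_abs_self M1)
  have b2 : |n2 e q x| ≤ |M2| := (hM2 x hxI).trans (le_abs_self M2)
  have hy := yl_pos he hxI
  have hyd : 1 - e ≤ yl e x := by
    rw [yl]; linarith [mul_le_mul_of_nonneg_left hx.2 he.1.le]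
  have iy : 1 / yl e x ≤ D := hD ▸ one_div_le_one_div_of_le hd hyd
  have iy0 : 0 ≤ 1 / yl e x := (one_div_pos.2 hy).le
  have hex : |1 + e * x| ≤ 2 := by
    have := mul_le_one₀ he.2.le hx0.le hx.2
    rw [abs_of_nonneg (by linarith [mul_pos he.1 hx0])]
    linarith
  have h2e : |2 * e * x| ≤ 2 ∧ |4 * e ^ 2 * x ^ 2| ≤ 4 := by
    have h1 := mul_le_one₀ he.2.le hx0.le hx.2
    have h0 := mul_pos he.1 hx0
    rw [abs_of_nonneg (by linarith), abs_of_nonneg (by have := he.1; positivity),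
      show 4 * e ^ 2 * x ^ 2 = 4 * (e * x) ^ 2 by ring]
    exact ⟨by linarith, by linarith [pow_le_one₀ (n := 2) h0.le h1]⟩
  have a0 : |n0 e q x / (5 * x)| ≤ |M1| / 5 := by
    rw [abs_div, abs_of_pos (by linarith : 0 < 5 * x), div_le_div_iff₀ (by linarith) (by norm_num)]
    linarith
  refine ⟨?_, ?_, ?_⟩
  · have : |(1 + e * x) / yl e x| ≤ 2 * D := by
      rw [← mul_one_div, abs_mul, abs_of_nonneg iy0]
      exact mul_le_mul hex iy iy0 zero_le_two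
    refine (abs_sub _ _).trans ?_
    rw [hC]
    linarith [abs_nonneg M2, pow_pos hD0 2, pow_pos hD0 3, abs_nonneg M1]
  · rw [show x * wx1 e q x = 2 * e * x * (1 / yl e x) ^ 2 - n1 e q x / 5 + n0 e q x / (5 * x) by
      simp only [wx1]; field_simp]
    have : |2 * e * x * (1 / yl e x) ^ 2| ≤ 2 * D ^ 2 := by
      rw [abs_mul, abs_of_nonneg (pow_nonneg iy0 2)]
      exact mul_le_mul h2e.1 (pow_le_pow_left₀ iy0 iy 2) (pow_nonneg iy0 2) zero_le_two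
    refine (abs_add_le _ _).trans ((add_le_add (abs_sub _ _) le_rfl).trans ?_)
    rw [abs_div (n1 e q x), abs_of_pos (by norm_num : (0 : ℝ) < 5), hC]
    linarith [abs_nonneg M2, pow_pos hD0 2, pow_pos hD0 3, abs_nonneg M1, abs_nonneg (n1 e q x)]
  · rw [show x ^ 2 * wx2 e q x = 4 * e ^ 2 * x ^ 2 * (1 / yl e x) ^ 3 - x * n2 e q x / 5 +
      2 / 5 * n1 e q x - 2 * (n0 e q x / (5 * x)) by simp only [wx2]; field_simp]
    have : |4 * e ^ 2 * x ^ 2 * (1 / yl e x) ^ 3| ≤ 4 * D ^ 3 := by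
      rw [abs_mul, abs_of_nonneg (pow_nonneg iy0 3)]
      exact mul_le_mul h2e.2 (pow_le_pow_left₀ iy0 iy 3) (pow_nonneg iy0 3) (by norm_num)
    have : |x * n2 e q x / 5| ≤ |M2| / 5 := by
      rw [abs_div, abs_mul, abs_of_pos hx0, abs_of_pos (by norm_num : (0 : ℝ) < 5)]
      exact div_le_div_of_nonneg_right ((mul_le_of_le_one_left (abs_nonneg _) hx.2).trans b2)
        (by norm_num)
    have : |2 / 5 * n1 e q x| ≤ 2 / 5 * |M1| := by
      rw [abs_mul, abs_of_pos (by norm_num : (0 : ℝ) < 2 / 5)]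
      linarith
    have : |2 * (n0 e q x / (5 * x))| ≤ 2 / 5 * |M1| := by
      rw [abs_mul, abs_two]
      linarith
    refine (abs_sub _ _).trans ?_
    have := abs_add_le (4 * e ^ 2 * x ^ 2 * (1 / yl e x) ^ 3 - x * n2 e q x / 5)
      (2 / 5 * n1 e q x)
    have := abs_sub (4 * e ^ 2 * x ^ 2 * (1 / yl e x) ^ 3) (x * n2 e q x / 5)
    rw [hC]
    linarith [abs_nonneg M2, pow_pos hD0 2, pow_pos hD0 3, abs_nonneg M1]

/-- The bounds at the centre. -/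
theorem centre (he : e ∈ Ioo (0 : ℝ) 1) (hq : q.IsDeriv) :
    (∃ C, ∀ t ∈ Ioc (0 : ℝ) 1, |t * (wtOf e q).V t| ≤ C ∧ |t ^ 2 * (wtOf e q).V1 t| ≤ C) ∧
      ∃ C, ∀ t ∈ Ioc (0 : ℝ) 1, |t ^ 2 * (wtOf e q).P t| ≤ C ∧ |t ^ 3 * (wtOf e q).P1 t| ≤ C := by
  obtain ⟨C, hC⟩ := wx_bound he hq
  obtain ⟨h0, h1, -⟩ := continuousOn_parts (e := e) hq
  obtain ⟨A, hA⟩ := isCompact_Icc.exists_bound_of_continuousOn h0
  obtain ⟨A1, hA1⟩ := isCompact_Icc.exists_bound_of_continuousOn h1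
  have hd : 0 < 1 - e := sub_pos.2 he.2
  refine ⟨⟨3 * |C|, fun t ht => ?_⟩, 2 * |A| + 2 * |A1| + 4 * |C| +
      16 * |C| / (1 - e) + 44 * |C| / (1 - e) ^ 2, fun t ht => ?_⟩
  · obtain ⟨a, b, -⟩ := hC _ (sq_mem ht)
    have ht0 := ht.1.ne'
    simp only [wtOf]
    have := abs_sub (2 * (t ^ 2 * wx1 e q (t ^ 2))) (wx e q (t ^ 2))
    rw [abs_mul, abs_two] at this
    rw [show t * (wx e q (t ^ 2) / t) = wx e q (t ^ 2) by field_simp,
      show t ^ 2 * (2 * wx1 e q (t ^ 2) - wx e q (t ^ 2) / t ^ 2) =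
        2 * (t ^ 2 * wx1 e q (t ^ 2)) - wx e q (t ^ 2) by field_simp]
    constructor <;> linarith [le_abs_self C, abs_nonneg C]
  · obtain ⟨x, hxd⟩ : ∃ x, x = t ^ 2 := ⟨_, rfl⟩
    have hx : x ∈ Ioc (0 : ℝ) 1 := hxd ▸ sq_mem ht
    obtain ⟨a, b, c⟩ := hC _ hx
    have hx0 := hx.1
    have hy := yl_pos he (Ioc_subset_Icc_self hx)
    have hyd : 1 - e ≤ yl e x := by
      rw [yl]; linarith [mul_le_mul_of_nonneg_left hx.2 he.1.le]
    have hex := mul_le_one₀ he.2.le hx0.le hx.2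
    have hex0 := mul_pos he.1 hx0
    have q0 : |q.Q x| ≤ |A| := (hA x (Ioc_subset_Icc_self hx)).trans (le_abs_self A)
    have q1 : |q.Q1 x| ≤ |A1| := (hA1 x (Ioc_subset_Icc_self hx)).trans (le_abs_self A1)
    have hC' := le_abs_self C
    have e1 : |(3 + 5 * e * x) / yl e x * wx e q x| ≤ 8 * |C| / (1 - e) := by
      rw [abs_mul, abs_div, abs_of_pos hy, abs_of_pos (by linarith : 0 < 3 + 5 * e * x),
        div_mul_eq_mul_div]
      exact div_le_div₀ (by positivity) (mul_le_mul (by linarith) (a.trans hC') (abs_nonneg _)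
        (by norm_num)) hd hyd
    simp only [wtOf, ← hxd]
    refine ⟨?_, ?_⟩
    · rw [show x * px e q x = q.Q x + 2 * (x * wx1 e q x) + (3 + 5 * e * x) / yl e x * wx e q x by
        simp only [px]; field_simp]
      refine (abs_add_three _ _ _).trans ?_
      rw [abs_mul, abs_two]
      have : 0 ≤ 44 * |C| / (1 - e) ^ 2 := by positivity
      have : 0 ≤ |C| / (1 - e) := by positivity
      linarith [abs_nonneg A, abs_nonneg A1, abs_nonneg C, mul_div_assoc (16 : ℝ) |C| (1 - e),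
        mul_div_assoc (8 : ℝ) |C| (1 - e)]
    · rw [show t ^ 3 * (2 * t * px1 e q x) = 2 * (x ^ 2 * px1 e q x) by rw [hxd]; ring,
        show x ^ 2 * px1 e q x = x * q.Q1 x - q.Q x + 2 * (x ^ 2 * wx2 e q x) +
          (3 + 5 * e * x) / yl e x * (x * wx1 e q x) +
          (5 * e * (x * yl e x) - (3 + 5 * e * x) * (1 - 2 * e * x)) / yl e x ^ 2 * wx e q x by
        simp only [px1]; field_simp]
      have e2 : |(3 + 5 * e * x) / yl e x * (x * wx1 e q x)| ≤ 8 * |C| / (1 - e) := by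
        rw [abs_mul, abs_div, abs_of_pos hy, abs_of_pos (by linarith : 0 < 3 + 5 * e * x),
          div_mul_eq_mul_div]
        exact div_le_div₀ (by positivity) (mul_le_mul (by linarith) (b.trans hC') (abs_nonneg _)
          (by norm_num)) hd hyd
      have e3 : |(5 * e * (x * yl e x) - (3 + 5 * e * x) * (1 - 2 * e * x)) / yl e x ^ 2 *
          wx e q x| ≤ 22 * |C| / (1 - e) ^ 2 := by
        rw [abs_mul, abs_div, abs_of_pos (pow_pos hy 2), div_mul_eq_mul_div]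
        refine div_le_div₀ (by positivity) (mul_le_mul ?_ (a.trans hC') (abs_nonneg _)
          (by norm_num)) (pow_pos hd 2) (pow_le_pow_left₀ hd.le hyd 2)
        rw [yl, abs_le]
        constructor <;> nlinarith
      rw [abs_mul, abs_two]
      have h1 := abs_add_le (x * q.Q1 x - q.Q x + 2 * (x ^ 2 * wx2 e q x) +
        (3 + 5 * e * x) / yl e x * (x * wx1 e q x))
        ((5 * e * (x * yl e x) - (3 + 5 * e * x) * (1 - 2 * e * x)) / yl e x ^ 2 * wx e q x)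
      have h2 := abs_add_three (x * q.Q1 x - q.Q x) (2 * (x ^ 2 * wx2 e q x))
        ((3 + 5 * e * x) / yl e x * (x * wx1 e q x))
      have h3 := abs_sub (x * q.Q1 x) (q.Q x)
      have h4 : |x * q.Q1 x| ≤ |A1| := by
        rw [abs_mul, abs_of_pos hx0]
        exact (mul_le_of_le_one_left (abs_nonneg _) hx.2).trans q1
      rw [abs_mul (2 : ℝ), abs_two] at h2
      linarith [mul_div_assoc (16 : ℝ) |C| (1 - e), mul_div_assoc (8 : ℝ) |C| (1 - e),
        mul_div_assoc (44 : ℝ) |C| ((1 - e) ^ 2), mul_div_assoc (22 : ℝ) |C| ((1 - e) ^ 2)]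

/-- All structural fields of `SolFacts`: what remains are the two values of the slope at the diameter
and the signs. -/
theorem solFacts (he : e ∈ Ioo (0 : ℝ) 1) (hq : q.IsDeriv) (hB : 0 ≤ rate q)
    (hP : (wtOf e q).P 1 = -(13 * e) / (100 * (1 - e) ^ 2))
    (hP1 : (wtOf e q).P1 1 = e * (14 - 26 * e) / (100 * (1 - e) ^ 3))
    (hneg : ∀ t ∈ Ioc (0 : ℝ) 1, (wtOf e q).P t < 0)
    (hin : ∀ t ∈ Ioc (0 : ℝ) 1, InPt (concQ e) (ptIn e (wtOf e q) t) t)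
    (hconc : MonotoneOn (fun t => -aSlope e (wtOf e q) t * zc (concQ e) t) (Ioc 0 1))
    (hout : OutHyp e (xlOf e (wtOf e q).V) (kOf e (rate q))) :
    SolFacts e (rate q) (wtOf e q) :=
  ⟨fun _ ht => deriv_V he hq ht, fun _ ht => deriv_P he hq ht, cont_V1 he hq, cont_P1 he hq,
    (centre he hq).1, (centre he hq).2, fun _ ht => tangency he hq ht, hB, hP, hP1, hneg, join he,
    hin, hconc, hout⟩

end Tan

end Vale.Agent.P219.CH.Relax.Six
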